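import Vale.Agent.P123.Cauchy

open scoped Real NNReal ComplexConjugate
open Set Filter Topology MeasureTheory

namespace Vale.P123

noncomputable section

theorem ii_conj (f : ℝ → ℂ) (a b : ℝ) :
    conj (∫ t in a..b, f t) = ∫ t in a..b, conj (f t) := by
  rw [intervalIntegral, intervalIntegral, map_sub, ← integral_conj, ← integral_conj]

namespace SDom

variable (D : SDom)

/-- average of `W` seen from the boundary point `z` -/
def AV (z : ℂ) (W : ℂ → ℂ) : ℂ :=
  W z + ∫ t in (0:ℝ)..(2 * π), (W (D.sigma t) - W z) * (D.kk z t : ℂ)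

theorem norm_mul_kap (z : ℂ) (t : ℝ) : ‖D.sigma t - z‖ * ‖D.kap z t‖ ≤ D.rho t / (2 * π) := by
  rw [norm_sigma_sub]
  unfold kap
  rw [norm_div, Complex.norm_real, Real.norm_of_nonneg (by have := D.rho_pos' t; positivity)]
  set n := ‖(D.p z t : ℂ) + Complex.I * (D.p1 z t : ℂ)‖
  have hn : 0 ≤ n := norm_nonneg _
  have hr : 0 ≤ D.rho t / (2 * π) := by have := D.rho_pos' t; positivity
  rcases hn.eq_or_lt with h | h
  · rw [← h]; simp only [zero_mul]; exact hr
  · rw [mul_div_cancel₀ _ h.ne']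

theorem integrable_lip {W : ℂ → ℂ} {L : ℝ≥0} (hW : LipschitzOnWith L W D.cl) {z : ℂ} (hz : z ∈ D.cl) :
    IntervalIntegrable (fun t => (W (D.sigma t) - W z) * D.kap z t) volume 0 (2 * π) := by
  have hWs : Continuous (fun t => W (D.sigma t)) :=
    hW.continuousOn.comp_continuous D.continuous_sigma D.sigma_mem_cl
  have hb : Continuous (fun t => (L : ℝ) * (D.rho t / (2 * π))) := by
    have := D.continuous_rho; fun_prop
  refine (hb.intervalIntegrable 0 (2 * π)).mono_fun ?_ ?_
  · exact (((hWs.sub continuous_const).measurable).mul (D.measurable_kap z)).aestronglyMeasurable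
  · refine Eventually.of_forall fun t => ?_
    have h1 := hW.norm_sub_le (D.sigma_mem_cl t) hz
    have h2 := D.norm_mul_kap z t
    calc ‖(W (D.sigma t) - W z) * D.kap z t‖ = ‖W (D.sigma t) - W z‖ * ‖D.kap z t‖ := norm_mul _ _
      _ ≤ (L * ‖D.sigma t - z‖) * ‖D.kap z t‖ := mul_le_mul_of_nonneg_right h1 (norm_nonneg _)
      _ = L * (‖D.sigma t - z‖ * ‖D.kap z t‖) := by ring
      _ ≤ L * (D.rho t / (2 * π)) := mul_le_mul_of_nonneg_left h2 L.2
      _ ≤ ‖(L : ℝ) * (D.rho t / (2 * π))‖ := le_abs_self _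

/-- relation between Cauchy transforms and averages -/
theorem CT_add_conj {W : ℂ → ℂ} {L : ℝ≥0} (hW : LipschitzOnWith L W D.cl) {z : ℂ} (hz : z ∈ D.cl) :
    D.CT W z + conj (D.CT (fun w => conj (W w)) z) = W z + D.AV z W := by
  have hWb : LipschitzOnWith L (fun w => conj (W w)) D.cl := by
    rw [lipschitzOnWith_iff_norm_sub_le] at hW ⊢
    intro z hz w hw
    rw [← map_sub, RCLike.norm_conj]
    exact hW hz hw
  have h1 := D.integrable_lip hW hz
  have h2 := D.integrable_lip hWb hz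
  have h3 : conj (∫ t in (0:ℝ)..(2 * π), (conj (W (D.sigma t)) - conj (W z)) * D.kap z t) =
      ∫ t in (0:ℝ)..(2 * π), (W (D.sigma t) - W z) * conj (D.kap z t) := by
    rw [ii_conj]
    refine intervalIntegral.integral_congr fun t _ => ?_
    simp
  have h4 : IntervalIntegrable (fun t => (W (D.sigma t) - W z) * conj (D.kap z t)) volume 0 (2 * π) := by
    refine h1.mono_fun ?_ ?_
    · have hWs : Continuous (fun t => W (D.sigma t)) :=
        hW.continuousOn.comp_continuous D.continuous_sigma D.sigma_mem_cl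
      exact (((hWs.sub continuous_const).measurable).mul
        (Complex.continuous_conj.measurable.comp (D.measurable_kap z))).aestronglyMeasurable
    · exact Eventually.of_forall fun t => by simp
  unfold CT AV
  rw [map_add, h3, Complex.conj_conj]
  have h5 : (∫ t in (0:ℝ)..(2 * π), (W (D.sigma t) - W z) * D.kap z t) +
      ∫ t in (0:ℝ)..(2 * π), (W (D.sigma t) - W z) * conj (D.kap z t) =
      ∫ t in (0:ℝ)..(2 * π), (W (D.sigma t) - W z) * (D.kk z t : ℂ) := by
    rw [← intervalIntegral.integral_add h1 h4]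
    refine intervalIntegral.integral_congr fun t _ => ?_
    exact (mul_add _ _ _).symm.trans (by rw [kap_add_conj])
  linear_combination h5

variable {D} {z : ℂ} (hz : z ∈ D.cl) (hz' : z ∉ D.Om)

include hz hz'

theorem integrable_kk_mul {g : ℝ → ℂ} (hg : Continuous g) :
    IntervalIntegrable (fun t => g t * (D.kk z t : ℂ)) volume 0 (2 * π) := by
  have h1 := (D.kk_bdry hz hz').1
  have h2 : IntervalIntegrable (fun t => (D.kk z t : ℂ)) volume 0 (2 * π) :=
    ⟨h1.1.ofReal, h1.2.ofReal⟩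
  exact h2.continuousOn_mul hg.continuousOn

theorem AV_eq {W : ℂ → ℂ} (hW : ContinuousOn W D.cl) :
    D.AV z W = (1 - (∫ t in (0:ℝ)..(2 * π), D.kk z t : ℝ)) * W z +
      ∫ t in (0:ℝ)..(2 * π), W (D.sigma t) * (D.kk z t : ℂ) := by
  have hWs : Continuous (fun t => W (D.sigma t)) :=
    hW.comp_continuous D.continuous_sigma D.sigma_mem_cl
  have i1 := integrable_kk_mul hz hz' hWs
  have i2 := integrable_kk_mul hz hz' (g := fun _ => W z) continuous_const
  unfold AV
  have : ∫ t in (0:ℝ)..(2 * π), (W (D.sigma t) - W z) * (D.kk z t : ℂ) =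
      (∫ t in (0:ℝ)..(2 * π), W (D.sigma t) * (D.kk z t : ℂ)) -
      W z * ((∫ t in (0:ℝ)..(2 * π), D.kk z t : ℝ) : ℂ) := by
    rw [← intervalIntegral.integral_ofReal, ← intervalIntegral.integral_const_mul,
      ← intervalIntegral.integral_sub i1 i2]
    refine intervalIntegral.integral_congr fun t _ => ?_
    exact sub_mul _ _ _
  rw [this]; ring

theorem AV_add {W1 W2 : ℂ → ℂ} (h1 : ContinuousOn W1 D.cl) (h2 : ContinuousOn W2 D.cl) :
    D.AV z (fun w => W1 w + W2 w) = D.AV z W1 + D.AV z W2 := by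
  have i1 := integrable_kk_mul (g := fun t => W1 (D.sigma t)) hz hz'
    (h1.comp_continuous D.continuous_sigma D.sigma_mem_cl)
  have i2 := integrable_kk_mul (g := fun t => W2 (D.sigma t)) hz hz'
    (h2.comp_continuous D.continuous_sigma D.sigma_mem_cl)
  rw [AV_eq hz hz' h1, AV_eq hz hz' h2, AV_eq (W := fun w => W1 w + W2 w) hz hz' (h1.add h2)]
  have : ∫ t in (0:ℝ)..(2 * π), (W1 (D.sigma t) + W2 (D.sigma t)) * (D.kk z t : ℂ) =
      (∫ t in (0:ℝ)..(2 * π), W1 (D.sigma t) * (D.kk z t : ℂ)) +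
      ∫ t in (0:ℝ)..(2 * π), W2 (D.sigma t) * (D.kk z t : ℂ) := by
    rw [← intervalIntegral.integral_add i1 i2]
    refine intervalIntegral.integral_congr fun t _ => ?_
    exact add_mul _ _ _
  rw [this]; ring

omit hz hz' in
theorem AV_const_mul (c : ℂ) (W : ℂ → ℂ) : D.AV z (fun w => c * W w) = c * D.AV z W := by
  unfold AV
  rw [mul_add, ← intervalIntegral.integral_const_mul]
  congr 1
  refine intervalIntegral.integral_congr fun t _ => ?_
  show (c * W (D.sigma t) - c * W z) * _ = c * ((W (D.sigma t) - W z) * _)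
  ring

omit hz hz' in
theorem AV_const (c : ℂ) : D.AV z (fun _ => c) = c := by
  unfold AV; simp

omit hz hz' in
theorem AV_conj (W : ℂ → ℂ) : D.AV z (fun w => conj (W w)) = conj (D.AV z W) := by
  unfold AV
  rw [map_add, ii_conj]
  congr 1
  refine intervalIntegral.integral_congr fun t _ => ?_
  simp

theorem AV_mono {W : ℂ → ℂ} (hW : ContinuousOn W D.cl) {c : ℝ} (h0 : c ≤ (W z).re)
    (h1 : ∀ t, c ≤ (W (D.sigma t)).re) : c ≤ (D.AV z W).re := by
  have hWs : Continuous (fun t => W (D.sigma t)) :=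
    hW.comp_continuous D.continuous_sigma D.sigma_mem_cl
  obtain ⟨k1, k2⟩ := D.kk_bdry hz hz'
  have i1 := integrable_kk_mul hz hz' hWs
  rw [AV_eq hz hz' hW, Complex.add_re]
  set M := ∫ t in (0:ℝ)..(2 * π), D.kk z t with hM
  have e1 : ((1 - (M : ℂ)) * W z).re = (1 - M) * (W z).re := by
    rw [show (1 - (M : ℂ)) = ((1 - M : ℝ) : ℂ) by push_cast; ring, Complex.re_ofReal_mul]
  have e2 : (∫ t in (0:ℝ)..(2 * π), W (D.sigma t) * (D.kk z t : ℂ)).re =
      ∫ t in (0:ℝ)..(2 * π), (W (D.sigma t)).re * D.kk z t := by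
    have h3 := Complex.reCLM.intervalIntegral_comp_comm i1
    have h4 : (∫ t in (0:ℝ)..(2 * π), W (D.sigma t) * (D.kk z t : ℂ)).re =
      ∫ t in (0:ℝ)..(2 * π), (W (D.sigma t) * (D.kk z t : ℂ)).re := h3.symm
    rw [h4]
    refine intervalIntegral.integral_congr fun t _ => ?_
    simp only [Complex.re_mul_ofReal]
  have hre : Continuous (fun t => (W (D.sigma t)).re) := Complex.continuous_re.comp hWs
  have e3 : c * M ≤ ∫ t in (0:ℝ)..(2 * π), (W (D.sigma t)).re * D.kk z t := by
    rw [hM, ← intervalIntegral.integral_const_mul]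
    refine intervalIntegral.integral_mono_on (by positivity) (k1.const_mul c)
      (k1.continuousOn_mul hre.continuousOn) fun t _ => ?_
    exact mul_le_mul_of_nonneg_right (h1 t) (D.kk_nonneg hz t)
  rw [e1, e2]
  have : (1 - M) * c ≤ (1 - M) * (W z).re := mul_le_mul_of_nonneg_left h0 (by linarith)
  linarith

theorem AV_norm_le {W : ℂ → ℂ} (hW : ContinuousOn W D.cl) {m : ℝ} (h0 : ‖W z‖ ≤ m)
    (h1 : ∀ t, ‖W (D.sigma t)‖ ≤ m) : ‖D.AV z W‖ ≤ m := by
  by_cases h : D.AV z W = 0
  · rw [h, norm_zero]; exact (norm_nonneg _).trans h0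
  · have hn : 0 < ‖D.AV z W‖ := norm_pos_iff.2 h
    set c : ℂ := -(conj (D.AV z W) / (‖D.AV z W‖ : ℂ)) with hc
    have hc1 : ‖c‖ = 1 := by
      rw [hc, norm_neg, norm_div, RCLike.norm_conj, Complex.norm_real, norm_norm, div_self hn.ne']
    have h2 : -m ≤ (D.AV z (fun w => c * W w)).re := by
      refine AV_mono (W := fun w => c * W w) hz hz' (continuousOn_const.mul hW) ?_ fun t => ?_
      · have := Complex.abs_re_le_norm (c * W z)
        rw [norm_mul, hc1, one_mul] at this
        linarith [(abs_le.1 (this.trans h0)).1]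
      · have := Complex.abs_re_le_norm (c * W (D.sigma t))
        rw [norm_mul, hc1, one_mul] at this
        linarith [(abs_le.1 (this.trans (h1 t))).1]
    rw [AV_const_mul] at h2
    have h3 : (c * D.AV z W).re = -‖D.AV z W‖ := by
      rw [hc]
      have h4 : -(conj (D.AV z W) / (‖D.AV z W‖ : ℂ)) * D.AV z W = ((-‖D.AV z W‖ : ℝ) : ℂ) := by
        have h5 : D.AV z W * conj (D.AV z W) = ((‖D.AV z W‖ ^ 2 : ℝ) : ℂ) := by
          rw [Complex.mul_conj, Complex.normSq_eq_norm_sq]
        have h6 : (‖D.AV z W‖ : ℂ) ≠ 0 := by exact_mod_cast hn.ne'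
        push_cast at h5 ⊢
        field_simp
        linear_combination (-1 : ℂ) * h5
      rw [h4, Complex.ofReal_re]
    rw [h3] at h2
    linarith

end SDom

end

end Vale.P123
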