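import Vale.Agent.P123.Dom

open scoped Real
open Set Filter Topology

namespace Vale.P123

noncomputable section

namespace SDom

variable (D : SDom)

/-- the auxiliary function `p' sin - p cos` -/
def aux (z : ℂ) (t0 s : ℝ) : ℝ := D.p1 z (t0 + s) * Real.sin s - D.p z (t0 + s) * Real.cos s

theorem hasDerivAt_aux (z : ℂ) (t0 s : ℝ) :
    HasDerivAt (D.aux z t0) (D.rho (t0 + s) * Real.sin s) s := by
  have h1 : HasDerivAt (fun s => D.p1 z (t0 + s)) (D.rho (t0 + s) - D.p z (t0 + s)) s :=
    (D.hasDerivAt_p1 z (t0 + s)).comp_const_add t0 s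
  have h2 : HasDerivAt (fun s => D.p z (t0 + s)) (D.p1 z (t0 + s)) s :=
    (D.hasDerivAt_p z (t0 + s)).comp_const_add t0 s
  refine ((h1.mul (Real.hasDerivAt_sin s)).sub (h2.mul (Real.hasDerivAt_cos s))).congr_deriv ?_
  ring

theorem continuous_aux (z : ℂ) (t0 : ℝ) : Continuous (D.aux z t0) :=
  continuous_iff_continuousAt.2 fun t => (D.hasDerivAt_aux z t0 t).continuousAt

theorem aux_zero {z : ℂ} {t0 : ℝ} (h0 : D.p z t0 = 0) : D.aux z t0 0 = 0 := by
  unfold aux; simp [h0]

theorem aux_pos_right {z : ℂ} {t0 : ℝ} (h0 : D.p z t0 = 0) {s : ℝ} (hs : 0 < s) (hs' : s ≤ π) :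
    0 < D.aux z t0 s := by
  have hmono : StrictMonoOn (D.aux z t0) (Icc 0 π) := by
    refine strictMonoOn_of_deriv_pos (convex_Icc 0 π) (D.continuous_aux z t0).continuousOn ?_
    intro x hx
    rw [interior_Icc] at hx
    rw [(D.hasDerivAt_aux z t0 x).deriv]
    exact mul_pos (D.rho_pos' _) (Real.sin_pos_of_pos_of_lt_pi hx.1 hx.2)
  have := hmono ⟨le_rfl, Real.pi_pos.le⟩ ⟨hs.le, hs'⟩ hs
  rwa [D.aux_zero h0] at this

theorem aux_pos_left {z : ℂ} {t0 : ℝ} (h0 : D.p z t0 = 0) {s : ℝ} (hs : s < 0) (hs' : -π ≤ s) :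
    0 < D.aux z t0 s := by
  have hmono : StrictAntiOn (D.aux z t0) (Icc (-π) 0) := by
    refine strictAntiOn_of_deriv_neg (convex_Icc (-π) 0) (D.continuous_aux z t0).continuousOn ?_
    intro x hx
    rw [interior_Icc] at hx
    rw [(D.hasDerivAt_aux z t0 x).deriv]
    exact mul_neg_of_pos_of_neg (D.rho_pos' _) (Real.sin_neg_of_neg_of_neg_pi_lt hx.2 hx.1)
  have := hmono ⟨hs', hs.le⟩ ⟨by linarith [Real.pi_pos], le_rfl⟩ hs
  rwa [D.aux_zero h0] at this

theorem p1_eq_zero {z : ℂ} (hz : z ∈ D.cl) {t : ℝ} (h0 : D.p z t = 0) : D.p1 z t = 0 := by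
  have hmin : IsLocalMin (D.p z) t := by
    refine Filter.Eventually.of_forall fun s => ?_
    rw [h0]; exact D.p_nonneg hz s
  exact hmin.hasDerivAt_eq_zero (D.hasDerivAt_p z t)

theorem p_pos_of_ne {z : ℂ} (hz : z ∈ D.cl) {t0 : ℝ} (h0 : D.p z t0 = 0) {s : ℝ}
    (hs : s ≠ 0) (h1 : -π ≤ s) (h2 : s ≤ π) : 0 < D.p z (t0 + s) := by
  rcases (D.p_nonneg hz (t0 + s)).eq_or_lt with h | h
  · exfalso
    have hp := h.symm
    have hp1 := D.p1_eq_zero hz hp
    have : D.aux z t0 s = 0 := by unfold aux; rw [hp, hp1]; ring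
    rcases lt_or_gt_of_ne hs with h' | h'
    · have := D.aux_pos_left h0 h' h1; linarith
    · have := D.aux_pos_right h0 h' h2; linarith
  · exact h

theorem p_pos_of_mem {z : ℂ} (hz : z ∈ D.cl) {t0 : ℝ} (h0 : D.p z t0 = 0) {s : ℝ}
    (h1 : 0 < s) (h2 : s < 2 * π) : 0 < D.p z (t0 + s) := by
  rcases le_or_gt s π with h | h
  · exact D.p_pos_of_ne hz h0 h1.ne' (by linarith [Real.pi_pos]) h
  · have := D.p_pos_of_ne hz h0 (s := s - 2 * π) (by linarith) (by linarith) (by linarith [Real.pi_pos])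
    rw [← D.p_per] at this
    convert this using 2; ring

/-- boundary points -/
theorem exists_of_frontier {z : ℂ} (hz : z ∈ D.cl) (hz' : z ∉ D.Om) :
    ∃ t0, D.p z t0 = 0 ∧ z = D.sigma t0 := by
  have : ∃ t0, D.h t0 ≤ ell t0 z := by
    by_contra hcon
    push Not at hcon
    exact hz' hcon
  obtain ⟨t0, ht0⟩ := this
  have hp : D.p z t0 = 0 := by
    unfold p; have := hz t0; linarith
  refine ⟨t0, hp, ?_⟩
  have h2 := D.sigma_sub z t0
  rw [hp, D.p1_eq_zero hz hp] at h2
  simp at h2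
  exact (sub_eq_zero.1 h2).symm

theorem sigma_mem_cl (t : ℝ) : D.sigma t ∈ D.cl := by
  -- q(s) = p (sigma t) (t + s), vanishing to first order at s = 0
  have hq0 : D.p (D.sigma t) t = 0 ∧ D.p1 (D.sigma t) t = 0 := by
    have h := D.sigma_sub (D.sigma t) t
    rw [sub_self] at h
    have h2 : ((D.p (D.sigma t) t : ℂ) + Complex.I * (D.p1 (D.sigma t) t : ℂ)) = 0 := by
      rcases mul_eq_zero.1 h.symm with h | h
      · exact h
      · exact absurd h (Complex.exp_ne_zero _)
    have h3 := congrArg Complex.re h2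
    have h4 := congrArg Complex.im h2
    simp at h3 h4
    exact ⟨h3, h4⟩
  set z := D.sigma t with hz
  -- the second auxiliary function
  have key : ∀ s, |s| ≤ π → 0 ≤ D.p z (t + s) := by
    intro s hs
    let G : ℝ → ℝ := fun x => D.p z (t + x) * Real.cos (s - x) + D.p1 z (t + x) * Real.sin (s - x)
    have hG : ∀ x, HasDerivAt G (D.rho (t + x) * Real.sin (s - x)) x := by
      intro x
      have h1 : HasDerivAt (fun s => D.p1 z (t + s)) (D.rho (t + x) - D.p z (t + x)) x :=
        (D.hasDerivAt_p1 z (t + x)).comp_const_add t x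
      have h2 : HasDerivAt (fun s => D.p z (t + s)) (D.p1 z (t + x)) x :=
        (D.hasDerivAt_p z (t + x)).comp_const_add t x
      have h3 : HasDerivAt (fun x => Real.cos (s - x)) (-Real.sin (s - x) * (-1)) x := by
        exact (Real.hasDerivAt_cos (s - x)).comp x ((hasDerivAt_id x).const_sub s)
      have h4 : HasDerivAt (fun x => Real.sin (s - x)) (Real.cos (s - x) * (-1)) x := by
        exact (Real.hasDerivAt_sin (s - x)).comp x ((hasDerivAt_id x).const_sub s)
      refine ((h2.mul h3).add (h1.mul h4)).congr_deriv ?_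
      ring
    have hGc : Continuous G := continuous_iff_continuousAt.2 fun x => (hG x).continuousAt
    have hG0 : G 0 = 0 := by simp [G, hq0.1, hq0.2]
    have hGs : G s = D.p z (t + s) := by simp [G]
    rw [← hGs]
    rcases le_total 0 s with h | h
    · have hmono : MonotoneOn G (Icc 0 s) := by
        refine monotoneOn_of_deriv_nonneg (convex_Icc 0 s) hGc.continuousOn
          (fun x _ => (hG x).differentiableAt.differentiableWithinAt) ?_
        intro x hx
        rw [interior_Icc] at hx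
        rw [(hG x).deriv]
        refine mul_nonneg (D.rho_pos' _).le (Real.sin_nonneg_of_nonneg_of_le_pi (by linarith [hx.2]) ?_)
        have := (abs_le.1 hs).2; linarith [hx.1]
      have := hmono ⟨le_rfl, h⟩ ⟨h, le_rfl⟩ h
      rwa [hG0] at this
    · have hmono : AntitoneOn G (Icc s 0) := by
        refine antitoneOn_of_deriv_nonpos (convex_Icc s 0) hGc.continuousOn
          (fun x _ => (hG x).differentiableAt.differentiableWithinAt) ?_
        intro x hx
        rw [interior_Icc] at hx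
        rw [(hG x).deriv]
        refine mul_nonpos_of_nonneg_of_nonpos (D.rho_pos' _).le
          (Real.sin_nonpos_of_nonpos_of_neg_pi_le (by linarith [hx.1]) ?_)
        have := (abs_le.1 hs).1; linarith [hx.2]
      have := hmono ⟨le_rfl, h⟩ ⟨h, le_rfl⟩ h
      rwa [hG0] at this
  intro s
  have hper : Function.Periodic (D.p z) (2 * π) := D.p_per z
  obtain ⟨y, hy, hty⟩ := hper.exists_mem_Ico (by positivity) s (t - π)
  have h1 := key (y - t) (abs_le.2 ⟨by linarith [hy.1], by linarith [hy.2]⟩)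
  rw [add_sub_cancel, ← hty] at h1
  exact sub_nonneg.1 h1

end SDom

end

end Vale.P123
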