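import Vale.Agent.P123.Kernel

open scoped Real
open Set Filter Topology MeasureTheory

namespace Vale.P123

noncomputable section

/-- Cauchy transform of the boundary values of `W`, written so that it makes sense on `cl` -/
def SDom.CT (D : SDom) (W : ℂ → ℂ) (z : ℂ) : ℂ :=
  W z + ∫ t in (0:ℝ)..(2 * π), (W (D.sigma t) - W z) * D.kap z t

end

end Vale.P123
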