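import Vale.Agent.P123.CTDef

open scoped Real NNReal
open Set Filter Topology MeasureTheory

namespace Vale.P123

noncomputable section

namespace SDom

variable (D : SDom)

def cc (t : ℝ) : ℂ := ((D.rho t / (2 * π) : ℝ) : ℂ) * Complex.exp (Complex.I * t)

theorem continuous_cc : Continuous D.cc := by
  unfold cc
  have h1 := D.continuous_rho
  fun_prop

theorem norm_kap_mul (z : ℂ) (t : ℝ) : ‖D.kap z t‖ * ‖D.sigma t - z‖ ≤ D.rho t / (2 * π) := by
  have h0 : 0 ≤ D.rho t / (2 * π) := div_nonneg (D.rho_pos' t).le (by positivity)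
  unfold kap
  rw [norm_div, ← norm_sigma_sub, Complex.norm_real, Real.norm_of_nonneg h0]
  by_cases h : ‖D.sigma t - z‖ = 0
  · rw [h]; simpa using h0
  · rw [div_mul_cancel₀ _ h]

theorem continuous_comp_sigma {W : ℂ → ℂ} (hW : ContinuousOn W D.cl) :
    Continuous fun t => W (D.sigma t) := by
  rw [← continuousOn_univ]
  exact hW.comp D.continuous_sigma.continuousOn fun t _ => D.sigma_mem_cl t

theorem CT_eq {W : ℂ → ℂ} (hW : ContinuousOn W D.cl) {z : ℂ} (hz : z ∈ D.Om) :
    D.CT W z = ∫ t in (0:ℝ)..(2 * π), W (D.sigma t) * D.kap z t := by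
  unfold CT
  have h1 : Continuous fun t => W (D.sigma t) * D.kap z t :=
    (D.continuous_comp_sigma hW).mul (D.continuous_kap hz)
  have h2 : Continuous fun t => W z * D.kap z t := continuous_const.mul (D.continuous_kap hz)
  have h3 : ∫ t in (0:ℝ)..(2 * π), (W (D.sigma t) - W z) * D.kap z t =
      (∫ t in (0:ℝ)..(2 * π), W (D.sigma t) * D.kap z t) - W z := by
    simp_rw [sub_mul]
    rw [intervalIntegral.integral_sub (h1.intervalIntegrable _ _) (h2.intervalIntegrable _ _),
      intervalIntegral.integral_const_mul, D.integral_kap hz, mul_one]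
  rw [h3]
  ring

theorem differentiableOn_CT {W : ℂ → ℂ} (hW : ContinuousOn W D.cl) :
    DifferentiableOn ℂ (D.CT W) D.Om := by
  intro z0 hz0
  obtain ⟨m, hm, hmz⟩ := exists_lower (D.continuous_p z0) (D.p_per z0) (D.p_pos hz0)
  have hlow : ∀ z ∈ Metric.ball z0 (m / 2), ∀ t, m / 2 ≤ ‖D.sigma t - z‖ := by
    intro z hz t
    have h1 : m ≤ ‖D.sigma t - z0‖ := by
      rw [norm_sigma_sub]
      refine (hmz t).trans ?_
      have := Complex.abs_re_le_norm ((D.p z0 t : ℂ) + Complex.I * (D.p1 z0 t : ℂ))
      simp at this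
      exact (le_abs_self _).trans this
    have h2 : ‖z - z0‖ < m / 2 := by simpa [dist_eq_norm] using hz
    have h3 : ‖D.sigma t - z0‖ ≤ ‖D.sigma t - z‖ + ‖z - z0‖ := by
      have := norm_add_le (D.sigma t - z) (z - z0)
      simpa using this
    linarith
  have hWs := D.continuous_comp_sigma hW
  have hcc := D.continuous_cc
  have hsg := D.continuous_sigma
  have hcont : ∀ z ∈ Metric.ball z0 (m / 2),
      Continuous fun t => W (D.sigma t) * (D.cc t / (D.sigma t - z)) := by
    intro z hz
    refine hWs.mul (hcc.div (hsg.sub continuous_const) fun t h => ?_)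
    have := hlow z hz t
    rw [h, norm_zero] at this
    linarith
  have hcont' : Continuous fun t => W (D.sigma t) * (D.cc t / (D.sigma t - z0) ^ 2) := by
    refine hWs.mul (hcc.div ((hsg.sub continuous_const).pow 2) fun t h => ?_)
    have := hlow z0 (Metric.mem_ball_self (by positivity)) t
    rw [pow_eq_zero_iff two_ne_zero] at h
    rw [h, norm_zero] at this
    linarith
  have key := intervalIntegral.hasDerivAt_integral_of_dominated_loc_of_deriv_le
    (μ := volume) (a := 0) (b := 2 * π) (𝕜 := ℂ)
    (F := fun z t => W (D.sigma t) * (D.cc t / (D.sigma t - z)))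
    (F' := fun z t => W (D.sigma t) * (D.cc t / (D.sigma t - z) ^ 2))
    (x₀ := z0) (s := Metric.ball z0 (m / 2))
    (bound := fun t => ‖W (D.sigma t)‖ * (‖D.cc t‖ / (m / 2) ^ 2))
    (Metric.ball_mem_nhds z0 (by positivity))
    (by
      filter_upwards [Metric.ball_mem_nhds z0 (show 0 < m / 2 by positivity)] with z hz
      exact (hcont z hz).aestronglyMeasurable)
    ((hcont z0 (Metric.mem_ball_self (by positivity))).intervalIntegrable _ _)
    hcont'.aestronglyMeasurable
    (by
      refine Eventually.of_forall fun t _ z hz => ?_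
      rw [norm_mul, norm_div, norm_pow]
      have := hlow z hz t
      gcongr)
    ((hWs.norm.mul (hcc.norm.div_const _)).intervalIntegrable _ _)
    (by
      refine Eventually.of_forall fun t _ z hz => ?_
      have hne : D.sigma t - z ≠ 0 := by
        intro h
        have := hlow z hz t
        rw [h, norm_zero] at this
        linarith
      have h1 : HasDerivAt (fun z => D.sigma t - z) (-1) z := by
        simpa using (hasDerivAt_id z).const_sub (D.sigma t)
      have h2 := ((hasDerivAt_const z (D.cc t)).div h1 hne).const_mul (W (D.sigma t))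
      refine h2.congr_deriv ?_
      ring)
  have heq : D.CT W =ᶠ[𝓝 z0] fun z => ∫ t in (0:ℝ)..(2 * π), W (D.sigma t) * (D.cc t / (D.sigma t - z)) := by
    filter_upwards [D.isOpen_Om.mem_nhds hz0] with z hz
    rw [D.CT_eq hW hz]
    refine intervalIntegral.integral_congr fun t _ => ?_
    rw [D.kap_eq' (D.sigma_ne hz t)]
    rfl
  exact (key.2.differentiableAt.congr_of_eventuallyEq heq).differentiableWithinAt

theorem continuousOn_CT {W : ℂ → ℂ} {L : ℝ≥0} (hW : LipschitzOnWith L W D.cl) :
    ContinuousOn (D.CT W) D.cl := by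
  intro z0 hz0
  have hWc : ContinuousOn W D.cl := hW.continuousOn
  have hWs := D.continuous_comp_sigma hWc
  unfold CT
  refine (hWc z0 hz0).add ?_
  refine intervalIntegral.continuousWithinAt_of_dominated_interval
    (bound := fun t => L * (D.rho t / (2 * π))) ?_ ?_ ?_ ?_
  · refine Eventually.of_forall fun z => ?_
    exact ((hWs.measurable.sub measurable_const).mul (D.measurable_kap z)).aestronglyMeasurable
  · filter_upwards [self_mem_nhdsWithin] with z hz
    refine Eventually.of_forall fun t _ => ?_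
    rw [norm_mul]
    have h1 := hW.norm_sub_le (D.sigma_mem_cl t) hz
    have h2 := D.norm_kap_mul z t
    calc ‖W (D.sigma t) - W z‖ * ‖D.kap z t‖ ≤ (L * ‖D.sigma t - z‖) * ‖D.kap z t‖ := by gcongr
      _ = L * (‖D.kap z t‖ * ‖D.sigma t - z‖) := by ring
      _ ≤ L * (D.rho t / (2 * π)) := by gcongr
  · have h1 := D.continuous_rho
    exact Continuous.intervalIntegrable (by fun_prop) _ _
  · have hsub : ({t | D.sigma t = z0} ∩ Ioc 0 (2 * π)).Subsingleton := by
      have key : ∀ t t' : ℝ, D.sigma t = z0 → D.sigma t' = z0 → 0 < t → t' ≤ 2 * π → t < t' → False := by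
        intro t t' ht ht' h0 h1 hlt
        have hp : ∀ s, D.sigma s = z0 → D.p z0 s = 0 := by
          intro s hs
          have h2 := D.sigma_sub z0 s
          rw [hs, sub_self] at h2
          rcases mul_eq_zero.1 h2.symm with h3 | h3
          · have := congrArg Complex.re h3
            simpa using this
          · exact absurd h3 (Complex.exp_ne_zero _)
        have h2 := D.p_pos_of_mem hz0 (hp t ht) (s := t' - t) (by linarith) (by linarith)
        rw [add_sub_cancel, hp t' ht'] at h2
        exact lt_irrefl _ h2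
      rintro t ⟨ht, ht1⟩ t' ⟨ht', ht1'⟩
      rcases lt_trichotomy t t' with h | h | h
      · exact (key t t' ht ht' ht1.1 ht1'.2 h).elim
      · exact h
      · exact (key t' t ht' ht ht1'.1 ht1.2 h).elim
    have hnull : volume ({t | D.sigma t = z0} ∩ Ioc 0 (2 * π)) = 0 := hsub.measure_zero _
    have hae : ∀ᵐ t ∂(volume : Measure ℝ), t ∉ ({t | D.sigma t = z0} ∩ Ioc 0 (2 * π)) :=
      measure_eq_zero_iff_ae_notMem.mp hnull
    filter_upwards [hae] with t ht htI
    rw [uIoc_of_le (by positivity)] at htI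
    have hne : D.sigma t ≠ z0 := fun h => ht ⟨h, htI⟩
    refine ContinuousWithinAt.mul (continuousWithinAt_const.sub (hWc z0 hz0)) ?_
    refine ContinuousAt.continuousWithinAt ?_
    unfold kap
    refine ContinuousAt.div continuousAt_const ?_ ?_
    · refine Continuous.continuousAt ?_
      unfold p p1 ell ell'
      fun_prop
    · intro h0
      have h2 := D.sigma_sub z0 t
      rw [h0, zero_mul] at h2
      exact hne (sub_eq_zero.1 h2)

theorem CT_of_mem_Om {U : Set ℂ} (hU : IsOpen U) (hUc : Convex ℝ U)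
    (hcl : D.cl ⊆ U) {f : ℂ → ℂ} (hf : DifferentiableOn ℂ f U) {z : ℂ} (hz : z ∈ D.Om) :
    D.CT f z = f z := by
  have hzU : z ∈ U := hcl (D.Om_subset_cl hz)
  have hg : DifferentiableOn ℂ (dslope f z) U :=
    (Complex.differentiableOn_dslope (hU.mem_nhds hzU)).2 hf
  obtain ⟨G, hG⟩ := Convex.exists_forall_hasDerivWithinAt hUc hg
  have hG' : ∀ w ∈ U, HasDerivAt G (dslope f z w) w := fun w hw =>
    (hG w hw).hasDerivAt (hU.mem_nhds hw)
  unfold CT
  have h0 : ∫ t in (0:ℝ)..(2 * π), (f (D.sigma t) - f z) * D.kap z t = 0 := by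
    let H : ℝ → ℂ := fun t => (1 / (2 * π * Complex.I)) * G (D.sigma t)
    have hpi : (π : ℂ) ≠ 0 := by exact_mod_cast Real.pi_ne_zero
    have hH : ∀ t, HasDerivAt H ((f (D.sigma t) - f z) * D.kap z t) t := by
      intro t
      have h1 : HasDerivAt (fun t => G (D.sigma t))
          (dslope f z (D.sigma t) * (Complex.I * D.rho t * Complex.exp (Complex.I * t))) t :=
        HasDerivAt.comp_of_eq t (hG' _ (hcl (D.sigma_mem_cl t))) (D.hasDerivAt_sigma t) rfl
      refine (h1.const_mul _).congr_deriv ?_
      have hne := D.sigma_ne hz t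
      have hne' : D.sigma t - z ≠ 0 := sub_ne_zero.2 hne
      rw [D.kap_eq' hne, dslope_of_ne _ hne, slope_def_field]
      push_cast
      have hI := Complex.I_ne_zero
      field_simp
    have hcont : Continuous fun t => (f (D.sigma t) - f z) * D.kap z t :=
      ((D.continuous_comp_sigma (hf.continuousOn.mono hcl)).sub continuous_const).mul
        (D.continuous_kap hz)
    rw [intervalIntegral.integral_eq_sub_of_hasDerivAt (fun t _ => hH t)
      (hcont.intervalIntegrable _ _)]
    have h2 := D.sigma_per 0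
    rw [zero_add] at h2
    simp only [H, h2, sub_self]
  rw [h0, add_zero]

theorem lipschitz_of_differentiableOn {U : Set ℂ} (hU : IsOpen U) (hcl : D.cl ⊆ U) {f : ℂ → ℂ}
    (hf : DifferentiableOn ℂ f U) : ∃ L : ℝ≥0, LipschitzOnWith L f D.cl := by
  have hd : ContinuousOn (deriv f) D.cl :=
    ((hf.deriv hU).continuousOn).mono hcl
  obtain ⟨K, hK⟩ := D.isCompact_cl.exists_bound_of_continuousOn hd
  refine ⟨K.toNNReal, D.convex_cl.lipschitzOnWith_of_nnnorm_deriv_le
    (fun x hx => (hf x (hcl hx)).differentiableAt (hU.mem_nhds (hcl hx))) fun x hx => ?_⟩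
  rw [← NNReal.coe_le_coe, coe_nnnorm]
  exact (hK x hx).trans (Real.le_coe_toNNReal K)

theorem CT_of_differentiableOn {U : Set ℂ} (hU : IsOpen U) (hUc : Convex ℝ U)
    (hcl : D.cl ⊆ U) {f : ℂ → ℂ} (hf : DifferentiableOn ℂ f U) {z : ℂ} (hz : z ∈ D.cl) :
    D.CT f z = f z := by
  obtain ⟨L, hL⟩ := D.lipschitz_of_differentiableOn hU hcl hf
  have h1 : EqOn (D.CT f) f D.Om := fun w hw => D.CT_of_mem_Om hU hUc hcl hf hw
  exact Set.EqOn.of_subset_closure h1 (D.continuousOn_CT hL) hL.continuousOn D.Om_subset_cl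
    D.cl_subset_closure hz

end SDom

end

end Vale.P123
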