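import Mathlib

/-!
Finite-dimensional operators: perturbation to a split squarefree annihilating polynomial and
spectral idempotents.
-/

universe u

open Polynomial

namespace Vale.P123

noncomputable section

/-- intertwining passes to polynomials -/
theorem aeval_intertwine {U V : Type u} [NormedAddCommGroup U] [InnerProductSpace ℂ U]
    [NormedAddCommGroup V] [InnerProductSpace ℂ V] (B : V →L[ℂ] V) (D : U →L[ℂ] U)
    (ι : U →L[ℂ] V) (h : ∀ u, B (ι u) = ι (D u)) (P : Polynomial ℂ) (u : U) :
    Polynomial.aeval B P (ι u) = ι (Polynomial.aeval D P u) := by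
  have hpow : ∀ i : ℕ, (B ^ i) (ι u) = ι ((D ^ i) u) := by
    intro i
    induction i with
    | zero => simp
    | succ i ih =>
      rw [pow_succ', pow_succ']
      change B ((B ^ i) (ι u)) = ι (D ((D ^ i) u))
      rw [ih, h]
  rw [Polynomial.aeval_eq_sum_range, Polynomial.aeval_eq_sum_range]
  simp only [sum_apply, smul_apply, map_sum, map_smul, hpow]

theorem exists_close_notMem (S : Finset ℂ) (l : ℂ) {ε : ℝ} (hε : 0 < ε) :
    ∃ m : ℂ, m ∉ S ∧ ‖m - l‖ ≤ ε := by
  have hinf : (Metric.closedBall l ε).Infinite := by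
    apply Set.infinite_of_injective_forall_mem (f := fun n : ℕ => l + ((ε / (n + 1) : ℝ) : ℂ))
    · intro a b hab
      simp only [add_right_inj, Complex.ofReal_inj] at hab
      have ha : (0:ℝ) < (a:ℝ) + 1 := by positivity
      have hb : (0:ℝ) < (b:ℝ) + 1 := by positivity
      rw [div_eq_div_iff ha.ne' hb.ne'] at hab
      have := mul_left_cancel₀ hε.ne' hab
      have h2 : (b:ℝ) = a := by linarith
      exact_mod_cast h2.symm
    · intro n
      rw [Metric.mem_closedBall, dist_eq_norm, add_sub_cancel_left, Complex.norm_real,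
        Real.norm_of_nonneg (by positivity)]
      apply div_le_self hε.le
      have : (0:ℝ) ≤ n := Nat.cast_nonneg n
      linarith
  obtain ⟨m, hm1, hm2⟩ := hinf.exists_notMem_finset S
  refine ⟨m, hm2, ?_⟩
  rwa [Metric.mem_closedBall, dist_eq_norm] at hm1

theorem exists_near_split_aux (n : ℕ) : ∀ (V : Type u) [NormedAddCommGroup V]
    [InnerProductSpace ℂ V] [FiniteDimensional ℂ V] (B : V →L[ℂ] V) (ε : ℝ),
    Module.finrank ℂ V = n → 0 < ε →
    ∃ B' : V →L[ℂ] V, ‖B' - B‖ ≤ ε ∧ ∃ S : Finset ℂ,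
      Polynomial.aeval B' (∏ l ∈ S, (Polynomial.X - Polynomial.C l)) = 0 := by
  induction n with
  | zero =>
    intro V _ _ _ B ε hn hε
    have : Subsingleton V := Module.finrank_zero_iff.1 hn
    refine ⟨B, by simpa using hε.le, ∅, ?_⟩
    ext x
    exact Subsingleton.elim _ _
  | succ n ih =>
    intro V _ _ _ B ε hn hε
    classical
    have hV : Nontrivial V := Module.nontrivial_of_finrank_pos (R := ℂ) (by omega)
    have hcs : CompleteSpace V := FiniteDimensional.complete ℂ V
    -- eigenvector of the adjoint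
    obtain ⟨μ, hμ⟩ := Module.End.exists_eigenvalue ((ContinuousLinearMap.adjoint B : V →L[ℂ] V) : V →ₗ[ℂ] V)
    obtain ⟨e0, he0⟩ := hμ.exists_hasEigenvector
    have he0' : ContinuousLinearMap.adjoint B e0 = μ • e0 := he0.apply_eq_smul
    have he0ne : e0 ≠ 0 := he0.2
    obtain ⟨e, he⟩ : ∃ e : V, e = (((‖e0‖ : ℝ) : ℂ)⁻¹) • e0 := ⟨_, rfl⟩
    have hn0 : ‖e0‖ ≠ 0 := norm_ne_zero_iff.2 he0ne
    have he1 : ‖e‖ = 1 := by
      rw [he, norm_smul, norm_inv, Complex.norm_real, norm_norm, inv_mul_cancel₀ hn0]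
    have hee : ContinuousLinearMap.adjoint B e = μ • e := by
      rw [he, map_smul, he0', smul_comm]
    -- the invariant complement
    let L : Submodule ℂ V := ℂ ∙ e
    let U : Submodule ℂ V := Lᗮ
    have hLfin : Module.finrank ℂ L = 1 := finrank_span_singleton (by
      intro h; rw [h, norm_zero] at he1; norm_num at he1)
    have hUfin : Module.finrank ℂ U = n := by
      have := Submodule.finrank_add_finrank_orthogonal L
      change Module.finrank ℂ (Lᗮ : Submodule ℂ V) = n
      omega
    have hUmem : ∀ u : V, u ∈ U ↔ inner ℂ e u = 0 := fun u =>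
      Submodule.mem_orthogonal_singleton_iff_inner_right
    have hinv : ∀ u ∈ U, B u ∈ U := by
      intro u hu
      rw [hUmem] at hu ⊢
      rw [← ContinuousLinearMap.adjoint_inner_left, hee, inner_smul_left, hu, mul_zero]
    let BU : U →L[ℂ] U := (B.comp U.subtypeL).codRestrict U (fun u => hinv u u.2)
    obtain ⟨D, hD, S, hS⟩ := ih U BU (ε / 2) hUfin (by linarith)
    obtain ⟨l, hlS, hl⟩ := exists_close_notMem S (inner ℂ e (B e)) (ε := ε / 2) (by linarith)
    let PU : V →L[ℂ] U := U.orthogonalProjectionOnto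
    let φ : V →L[ℂ] ℂ := innerSL ℂ e
    have hφ : ∀ x, φ x = inner ℂ e x := fun x => rfl
    have hφn : ‖φ‖ ≤ 1 := by
      rw [innerSL_apply_norm, he1]
    have hPUn : ‖PU‖ ≤ 1 := U.orthogonalProjectionOnto_norm_le
    -- decomposition x = PU x + φ x • e
    have hdec : ∀ x : V, ((PU x : U) : V) = x - φ x • e := by
      intro x
      have h1 : x - φ x • e ∈ U := by
        rw [hUmem, inner_sub_right, inner_smul_right, inner_self_eq_norm_sq_to_K, he1, hφ]
        simp
      have h2 : φ x • e ∈ Uᗮ := by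
        have : e ∈ Uᗮ := by
          change e ∈ Lᗮᗮ
          rw [Submodule.orthogonal_orthogonal]
          exact Submodule.mem_span_singleton_self e
        exact Submodule.smul_mem _ _ this
      have h3 : PU x = PU (x - φ x • e) + PU (φ x • e) := by
        rw [← map_add, sub_add_cancel]
      have h4 : PU (φ x • e) = 0 := Submodule.orthogonalProjectionOnto_apply_of_mem_orthogonal h2
      have h5 : PU (x - φ x • e) = ⟨x - φ x • e, h1⟩ :=
        Submodule.orthogonalProjectionOnto_mem_subspace_eq_self (⟨x - φ x • e, h1⟩ : U)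
      rw [h3, h4, add_zero, h5]
    let u0 : V := B e - (inner ℂ e (B e) : ℂ) • e
    have hu0 : u0 ∈ U := by
      rw [hUmem, inner_sub_right, inner_smul_right, inner_self_eq_norm_sq_to_K, he1]
      simp
    let B' : V →L[ℂ] V := (U.subtypeL.comp (D.comp PU)) + (φ.smulRight (l • e + u0))
    have hB' : ∀ x, B' x = ((D (PU x) : U) : V) + φ x • (l • e + u0) := fun x => rfl
    refine ⟨B', ?_, insert l S, ?_⟩
    · apply ContinuousLinearMap.opNorm_le_bound _ hε.le
      intro x
      have h1 : (B' - B) x = (((D - BU) (PU x) : U) : V) + φ x • ((l - inner ℂ e (B e)) • e) := by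
        have h2 : B x = B ((PU x : U) : V) + φ x • B e := by
          rw [hdec x, map_sub, map_smul]; abel
        have h3 : (((D - BU) (PU x) : U) : V) = ((D (PU x) : U) : V) - B ((PU x : U) : V) := rfl
        have h4 : (B' - B) x = B' x - B x := rfl
        rw [h4, hB', h2, h3]
        simp only [u0, sub_smul, smul_add, smul_sub]
        abel
      rw [h1]
      have h5 : ‖(((D - BU) (PU x) : U) : V)‖ ≤ ε / 2 * ‖x‖ := by
        calc ‖(((D - BU) (PU x) : U) : V)‖ = ‖(D - BU) (PU x)‖ := rfl
          _ ≤ ‖D - BU‖ * ‖PU x‖ := ContinuousLinearMap.le_opNorm _ _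
          _ ≤ (ε / 2) * (1 * ‖x‖) := by
            have h6 : ‖PU x‖ ≤ 1 * ‖x‖ := (PU.le_opNorm x).trans (by gcongr)
            gcongr
          _ = ε / 2 * ‖x‖ := by ring
      have h7 : ‖φ x • ((l - inner ℂ e (B e)) • e)‖ ≤ ε / 2 * ‖x‖ := by
        rw [norm_smul, norm_smul, he1, mul_one]
        have h8 : ‖φ x‖ ≤ 1 * ‖x‖ := (φ.le_opNorm x).trans (by gcongr)
        calc ‖φ x‖ * ‖l - inner ℂ e (B e)‖ ≤ (1 * ‖x‖) * (ε / 2) := by gcongr
          _ = ε / 2 * ‖x‖ := by ring
      calc _ ≤ _ := norm_add_le _ _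
        _ ≤ ε / 2 * ‖x‖ + ε / 2 * ‖x‖ := add_le_add h5 h7
        _ = ε * ‖x‖ := by ring
    · rw [Finset.prod_insert hlS, mul_comm, map_mul]
      ext x
      have hsub : (Polynomial.aeval B' (Polynomial.X - Polynomial.C l)) x = B' x - l • x := by
        rw [map_sub, Polynomial.aeval_X, Polynomial.aeval_C]; rfl
      have hmem : B' x - l • x ∈ U := by
        have hx : x = ((PU x : U) : V) + φ x • e := by rw [hdec x]; abel
        have : B' x - l • x = ((D (PU x) : U) : V) + φ x • u0 - l • ((PU x : U) : V) := by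
          rw [hB']
          conv_lhs => rw [show l • x = l • (((PU x : U) : V) + φ x • e) by rw [← hx]]
          rw [smul_add, smul_add, smul_comm l (φ x) e]
          abel
        rw [this]
        exact U.sub_mem (U.add_mem (D (PU x)).2 (U.smul_mem _ hu0)) (U.smul_mem _ (PU x).2)
      have hint : ∀ u : U, B' (U.subtypeL u) = U.subtypeL (D u) := by
        intro u
        have h1 : PU (u : V) = u := Submodule.orthogonalProjectionOnto_mem_subspace_eq_self u
        have h2 : φ (u : V) = 0 := (hUmem u).1 u.2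
        change B' (u : V) = ((D u : U) : V)
        rw [hB', h1, h2, zero_smul, add_zero]
      have hker := aeval_intertwine B' D U.subtypeL hint (∏ l ∈ S, (Polynomial.X - Polynomial.C l))
        ⟨B' x - l • x, hmem⟩
      rw [hS] at hker
      change (Polynomial.aeval B' (∏ l ∈ S, (Polynomial.X - Polynomial.C l)))
        ((Polynomial.aeval B' (Polynomial.X - Polynomial.C l)) x) = 0
      rw [hsub]
      simpa using hker

theorem exists_near_split (V : Type u) [NormedAddCommGroup V] [InnerProductSpace ℂ V]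
    [FiniteDimensional ℂ V] (B : V →L[ℂ] V) (ε : ℝ) (hε : 0 < ε) :
    ∃ B' : V →L[ℂ] V, ‖B' - B‖ ≤ ε ∧ ∃ S : Finset ℂ,
      Polynomial.aeval B' (∏ l ∈ S, (Polynomial.X - Polynomial.C l)) = 0 :=
  exists_near_split_aux _ V B ε rfl hε

/-- spectral idempotents; `T` consists of eigenvalues -/
theorem exists_idem {V : Type u} [NormedAddCommGroup V] [InnerProductSpace ℂ V]
    [FiniteDimensional ℂ V] (B : V →L[ℂ] V) (S : Finset ℂ)
    (h : Polynomial.aeval B (∏ l ∈ S, (Polynomial.X - Polynomial.C l)) = 0) :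
    ∃ (T : Finset ℂ) (E : ℂ → V →L[ℂ] V),
      (∀ l ∈ T, ∃ v : V, ‖v‖ = 1 ∧ B v = l • v) ∧
      (∑ l ∈ T, E l = 1) ∧
      (∀ l ∈ T, ∀ m ∈ T, E l * E m = if l = m then E l else 0) ∧
      (∀ P : Polynomial ℂ, Polynomial.aeval B P = ∑ l ∈ T, P.eval l • E l) := by
  classical
  let Lg : ℂ → Polynomial ℂ := fun l => Lagrange.basis S id l
  let E : ℂ → V →L[ℂ] V := fun l => Polynomial.aeval B (Lg l)
  have hself : ∀ l ∈ S, (Lg l).eval l = 1 := fun l hl =>
    Lagrange.eval_basis_self (Set.injOn_id _) hl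
  have hne : ∀ l ∈ S, ∀ m ∈ S, l ≠ m → (Lg l).eval m = 0 := fun l _ m hm hlm =>
    Lagrange.eval_basis_of_ne (v := id) hlm hm
  have hP : ∀ P : Polynomial ℂ, Polynomial.aeval B P = ∑ l ∈ S, P.eval l • E l := by
    intro P
    have hdvd : (∏ l ∈ S, (Polynomial.X - Polynomial.C l)) ∣
        (P - ∑ l ∈ S, Polynomial.C (P.eval l) * Lg l) := by
      apply Finset.prod_dvd_of_coprime
      · intro a _ b _ hab
        exact Polynomial.isCoprime_X_sub_C_of_isUnit_sub (sub_ne_zero.2 hab).isUnit
      · intro m hm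
        rw [Polynomial.dvd_iff_isRoot, Polynomial.IsRoot.def, Polynomial.eval_sub,
          Polynomial.eval_finsetSum, Finset.sum_eq_single m]
        · rw [Polynomial.eval_mul, Polynomial.eval_C, hself m hm, mul_one, sub_self]
        · intro l hl hlm
          rw [Polynomial.eval_mul, hne l hl m hm hlm, mul_zero]
        · intro hm'; exact absurd hm hm'
    obtain ⟨Q, hQ⟩ := hdvd
    have h1 : Polynomial.aeval B (P - ∑ l ∈ S, Polynomial.C (P.eval l) * Lg l) = 0 := by
      rw [hQ, map_mul, h, zero_mul]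
    rw [map_sub, sub_eq_zero] at h1
    rw [h1, map_sum]
    apply Finset.sum_congr rfl
    intro l _
    rw [map_mul, Polynomial.aeval_C, Algebra.algebraMap_eq_smul_one, smul_mul_assoc, one_mul]
  let T : Finset ℂ := S.filter fun l => E l ≠ 0
  have hPT : ∀ P : Polynomial ℂ, Polynomial.aeval B P = ∑ l ∈ T, P.eval l • E l := by
    intro P
    rw [hP P]
    symm
    apply Finset.sum_subset (Finset.filter_subset _ _)
    intro l hl hlT
    have : E l = 0 := by
      by_contra hne0
      exact hlT (Finset.mem_filter.2 ⟨hl, hne0⟩)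
    rw [this, smul_zero]
  have hTS : ∀ l ∈ T, l ∈ S := fun l hl => (Finset.mem_filter.1 hl).1
  refine ⟨T, E, ?_, ?_, ?_, hPT⟩
  · intro l hl
    have hEl : E l ≠ 0 := (Finset.mem_filter.1 hl).2
    obtain ⟨w, hw⟩ : ∃ w, E l w ≠ 0 := by
      by_contra hcon
      push Not at hcon
      exact hEl (ContinuousLinearMap.ext hcon)
    have hBE : B * E l = l • E l := by
      have h1 : B * E l = Polynomial.aeval B (Polynomial.X * Lg l) := by
        rw [map_mul, Polynomial.aeval_X]
      rw [h1, hPT, Finset.sum_eq_single l]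
      · rw [Polynomial.eval_mul, Polynomial.eval_X, hself l (hTS l hl), mul_one]
      · intro m hm hml
        rw [Polynomial.eval_mul, hne l (hTS l hl) m (hTS m hm) (Ne.symm hml), mul_zero, zero_smul]
      · intro hl'; exact absurd hl hl'
    have hn0 : ‖E l w‖ ≠ 0 := norm_ne_zero_iff.2 hw
    refine ⟨(((‖E l w‖ : ℝ) : ℂ)⁻¹) • E l w, ?_, ?_⟩
    · rw [norm_smul, norm_inv, Complex.norm_real, norm_norm, inv_mul_cancel₀ hn0]
    · have h2 : B (E l w) = l • E l w := by
        have := congrArg (fun f : V →L[ℂ] V => f w) hBE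
        exact this
      rw [map_smul, h2, smul_comm]
  · have := hPT 1
    rw [map_one] at this
    rw [this]
    apply Finset.sum_congr rfl
    intro l _
    rw [Polynomial.eval_one, one_smul]
  · intro l hl m hm
    have h1 : E l * E m = Polynomial.aeval B (Lg l * Lg m) := by rw [map_mul]
    rw [h1, hPT, Finset.sum_eq_single l]
    · rw [Polynomial.eval_mul, hself l (hTS l hl), one_mul]
      by_cases hlm : l = m
      · subst hlm
        rw [hself l (hTS l hl), one_smul, if_pos rfl]
      · rw [hne m (hTS m hm) l (hTS l hl) (Ne.symm hlm), zero_smul, if_neg hlm]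
    · intro k hk hkl
      rw [Polynomial.eval_mul, hne l (hTS l hl) k (hTS k hk) (Ne.symm hkl), zero_mul, zero_smul]
    · intro hl'; exact absurd hl hl'

end

end Vale.P123
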