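import Mathlib

open scoped Real
open Set Filter Topology

namespace Vale.P123

noncomputable section

/-- `Re (exp (-i t) z)` -/
def ell (t : ℝ) (z : ℂ) : ℝ := z.re * Real.cos t + z.im * Real.sin t

/-- `Im (exp (-i t) z)` -/
def ell' (t : ℝ) (z : ℂ) : ℝ := z.im * Real.cos t - z.re * Real.sin t

/-- a smooth strictly convex domain containing `0`, given by its support function `h` -/
structure SDom where
  h : ℝ → ℝ
  h1 : ℝ → ℝ
  h2 : ℝ → ℝ
  hd : ∀ t, HasDerivAt h (h1 t) t
  hd1 : ∀ t, HasDerivAt h1 (h2 t) t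
  cont2 : Continuous h2
  per : ∀ t, h (t + 2 * π) = h t
  rho_pos : ∀ t, 0 < h t + h2 t
  pos : ∀ t, 0 < h t

theorem hasDerivAt_ell (z : ℂ) (t : ℝ) : HasDerivAt (fun t => ell t z) (ell' t z) t := by
  have := ((Real.hasDerivAt_cos t).const_mul z.re).add ((Real.hasDerivAt_sin t).const_mul z.im)
  refine this.congr_deriv ?_
  unfold ell'; ring

theorem hasDerivAt_ell' (z : ℂ) (t : ℝ) : HasDerivAt (fun t => ell' t z) (-ell t z) t := by
  have := ((Real.hasDerivAt_cos t).const_mul z.im).sub ((Real.hasDerivAt_sin t).const_mul z.re)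
  refine this.congr_deriv ?_
  unfold ell; ring

theorem ell_add_two_pi (t : ℝ) (z : ℂ) : ell (t + 2 * π) z = ell t z := by
  unfold ell; rw [Real.cos_add_two_pi, Real.sin_add_two_pi]

theorem ell'_add_two_pi (t : ℝ) (z : ℂ) : ell' (t + 2 * π) z = ell' t z := by
  unfold ell'; rw [Real.cos_add_two_pi, Real.sin_add_two_pi]

theorem ell_eq (t : ℝ) (z : ℂ) : ell t z = (Complex.exp (-(Complex.I * t)) * z).re := by
  rw [show -(Complex.I * (t:ℂ)) = ((-t : ℝ) : ℂ) * Complex.I by push_cast; ring,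
    Complex.mul_re, Complex.exp_ofReal_mul_I_re, Complex.exp_ofReal_mul_I_im]
  unfold ell; simp; ring

theorem ell'_eq (t : ℝ) (z : ℂ) : ell' t z = (Complex.exp (-(Complex.I * t)) * z).im := by
  rw [show -(Complex.I * (t:ℂ)) = ((-t : ℝ) : ℂ) * Complex.I by push_cast; ring,
    Complex.mul_im, Complex.exp_ofReal_mul_I_re, Complex.exp_ofReal_mul_I_im]
  unfold ell'; simp; ring

theorem abs_ell_le (t : ℝ) (z : ℂ) : |ell t z| ≤ ‖z‖ := by
  rw [ell_eq]
  refine (Complex.abs_re_le_norm _).trans ?_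
  rw [norm_mul, show -(Complex.I * (t:ℂ)) = ((-t : ℝ) : ℂ) * Complex.I by push_cast; ring,
    Complex.norm_exp_ofReal_mul_I, one_mul]

theorem ell_sub (t : ℝ) (z w : ℂ) : ell t (z - w) = ell t z - ell t w := by
  unfold ell; simp; ring

theorem ell_add (t : ℝ) (z w : ℂ) : ell t (z + w) = ell t z + ell t w := by
  unfold ell; simp; ring

theorem ell_smul (t r : ℝ) (z : ℂ) : ell t ((r:ℂ) * z) = r * ell t z := by
  unfold ell; simp; ring

namespace SDom

variable (D : SDom)

theorem continuous_h : Continuous D.h := continuous_iff_continuousAt.2 fun t => (D.hd t).continuousAt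
theorem continuous_h1 : Continuous D.h1 := continuous_iff_continuousAt.2 fun t => (D.hd1 t).continuousAt

theorem per1 (t : ℝ) : D.h1 (t + 2 * π) = D.h1 t := by
  have h1 : HasDerivAt (fun s => D.h (s + 2 * π)) (D.h1 (t + 2 * π)) t := by
    have := (D.hd (t + 2 * π)).comp_add_const t (2 * π)
    exact this
  have h2 : (fun s => D.h (s + 2 * π)) = D.h := funext D.per
  rw [h2] at h1
  exact h1.unique (D.hd t)

theorem per2 (t : ℝ) : D.h2 (t + 2 * π) = D.h2 t := by
  have h1 : HasDerivAt (fun s => D.h1 (s + 2 * π)) (D.h2 (t + 2 * π)) t :=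
    (D.hd1 (t + 2 * π)).comp_add_const t (2 * π)
  have h2 : (fun s => D.h1 (s + 2 * π)) = D.h1 := funext D.per1
  rw [h2] at h1
  exact h1.unique (D.hd1 t)

/-- `h + h''` -/
def rho (t : ℝ) : ℝ := D.h t + D.h2 t

theorem continuous_rho : Continuous D.rho := D.continuous_h.add D.cont2

theorem rho_pos' (t : ℝ) : 0 < D.rho t := D.rho_pos t

def p (z : ℂ) (t : ℝ) : ℝ := D.h t - ell t z
def p1 (z : ℂ) (t : ℝ) : ℝ := D.h1 t - ell' t z

theorem hasDerivAt_p (z : ℂ) (t : ℝ) : HasDerivAt (D.p z) (D.p1 z t) t :=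
  (D.hd t).sub (hasDerivAt_ell z t)

theorem hasDerivAt_p1 (z : ℂ) (t : ℝ) : HasDerivAt (D.p1 z) (D.rho t - D.p z t) t := by
  refine ((D.hd1 t).sub (hasDerivAt_ell' z t)).congr_deriv ?_
  unfold rho p; ring

theorem p_per (z : ℂ) (t : ℝ) : D.p z (t + 2 * π) = D.p z t := by
  unfold p; rw [D.per, ell_add_two_pi]

theorem p1_per (z : ℂ) (t : ℝ) : D.p1 z (t + 2 * π) = D.p1 z t := by
  unfold p1; rw [D.per1, ell'_add_two_pi]

theorem continuous_p (z : ℂ) : Continuous (D.p z) :=
  continuous_iff_continuousAt.2 fun t => (D.hasDerivAt_p z t).continuousAt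
theorem continuous_p1 (z : ℂ) : Continuous (D.p1 z) :=
  continuous_iff_continuousAt.2 fun t => (D.hasDerivAt_p1 z t).continuousAt

def Om : Set ℂ := {z | ∀ t, ell t z < D.h t}
def cl : Set ℂ := {z | ∀ t, ell t z ≤ D.h t}

theorem Om_subset_cl : D.Om ⊆ D.cl := fun _ hz t => (hz t).le

theorem p_pos {z : ℂ} (hz : z ∈ D.Om) (t : ℝ) : 0 < D.p z t := sub_pos.2 (hz t)
theorem p_nonneg {z : ℂ} (hz : z ∈ D.cl) (t : ℝ) : 0 ≤ D.p z t := sub_nonneg.2 (hz t)

/-- lower bound for a positive `2π`-periodic continuous function -/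
theorem exists_lower {g : ℝ → ℝ} (hg : Continuous g) (hp : ∀ t, g (t + 2 * π) = g t)
    (h0 : ∀ t, 0 < g t) : ∃ m > 0, ∀ t, m ≤ g t := by
  obtain ⟨t0, -, ht0⟩ := (isCompact_Icc (a := (0:ℝ)) (b := 2 * π)).exists_isMinOn
    ⟨0, by constructor <;> positivity⟩ hg.continuousOn
  refine ⟨g t0, h0 t0, fun t => ?_⟩
  have hper : Function.Periodic g (2 * π) := hp
  obtain ⟨y, hy, hty⟩ := hper.exists_mem_Ico₀ (by positivity) t
  rw [hty]
  exact ht0 ⟨hy.1, hy.2.le⟩

theorem isOpen_Om : IsOpen D.Om := by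
  rw [Metric.isOpen_iff]
  intro z hz
  obtain ⟨m, hm, hmz⟩ := exists_lower (D.continuous_p z) (D.p_per z) (D.p_pos hz)
  refine ⟨m, hm, fun w hw t => ?_⟩
  have h1 : |ell t (w - z)| ≤ ‖w - z‖ := abs_ell_le t (w - z)
  rw [ell_sub] at h1
  have h2 : ‖w - z‖ < m := by simpa [dist_eq_norm] using hw
  have h3 := hmz t
  unfold p at h3
  have := (abs_le.1 h1).2
  linarith

theorem continuous_ell (t : ℝ) : Continuous (ell t) := by
  unfold ell; fun_prop

theorem isClosed_cl : IsClosed D.cl := by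
  have : D.cl = ⋂ t, {z | ell t z ≤ D.h t} := by
    ext z; simp [cl, Set.mem_iInter]
  rw [this]
  exact isClosed_iInter fun t => isClosed_le (continuous_ell t) continuous_const

theorem convex_Om : Convex ℝ D.Om := by
  intro z hz w hw a b ha hb hab t
  have : ell t (a • z + b • w) = a * ell t z + b * ell t w := by
    rw [ell_add]; unfold ell; simp; ring
  rw [this]
  have h1 := hz t
  have h2 := hw t
  have h3 : D.h t = a * D.h t + b * D.h t := by rw [← add_mul, hab, one_mul]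
  rw [h3]
  rcases ha.eq_or_lt with rfl | ha'
  · have : b = 1 := by linarith
    subst this; simpa using h2
  · have := mul_lt_mul_of_pos_left h1 ha'
    have := mul_le_mul_of_nonneg_left h2.le hb
    linarith

theorem convex_cl : Convex ℝ D.cl := by
  intro z hz w hw a b ha hb hab t
  have : ell t (a • z + b • w) = a * ell t z + b * ell t w := by
    rw [ell_add]; unfold ell; simp; ring
  rw [this]
  have h3 : D.h t = a * D.h t + b * D.h t := by rw [← add_mul, hab, one_mul]
  rw [h3]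
  have := mul_le_mul_of_nonneg_left (hz t) ha
  have := mul_le_mul_of_nonneg_left (hw t) hb
  linarith

theorem isBounded_cl : Bornology.IsBounded D.cl := by
  rw [isBounded_iff_forall_norm_le]
  refine ⟨max (D.h 0) (D.h π) + max (D.h (π/2)) (D.h (-(π/2))), fun z hz => ?_⟩
  have h1 := hz 0
  have h2 := hz π
  have h3 := hz (π/2)
  have h4 := hz (-(π/2))
  unfold ell at h1 h2 h3 h4
  simp at h1 h2 h3 h4
  have h5 : |z.re| ≤ max (D.h 0) (D.h π) := abs_le.2 ⟨by
    have := le_max_right (D.h 0) (D.h π); linarith, h1.trans (le_max_left _ _)⟩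
  have h6 : |z.im| ≤ max (D.h (π/2)) (D.h (-(π/2))) := abs_le.2 ⟨by
    have := le_max_right (D.h (π/2)) (D.h (-(π/2))); linarith, h3.trans (le_max_left _ _)⟩
  exact (Complex.norm_le_abs_re_add_abs_im z).trans (add_le_add h5 h6)

theorem isCompact_cl : IsCompact D.cl :=
  Metric.isCompact_of_isClosed_isBounded D.isClosed_cl D.isBounded_cl

theorem isBounded_Om : Bornology.IsBounded D.Om := D.isBounded_cl.subset D.Om_subset_cl

theorem smul_mem_Om {z : ℂ} (hz : z ∈ D.cl) {r : ℝ} (hr0 : 0 ≤ r) (hr1 : r < 1) :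
    (r : ℂ) * z ∈ D.Om := by
  intro t
  rw [ell_smul]
  have h1 := hz t
  have h2 := D.pos t
  nlinarith

theorem zero_mem_Om : (0:ℂ) ∈ D.Om := by
  intro t; unfold ell; simpa using D.pos t

theorem cl_subset_closure : D.cl ⊆ closure D.Om := by
  intro z hz
  have h1 : Tendsto (fun r : ℝ => (r : ℂ) * z) (𝓝[<] 1) (𝓝 z) := by
    have : Tendsto (fun r : ℝ => (r : ℂ) * z) (𝓝 1) (𝓝 (((1:ℝ) : ℂ) * z)) := by
      have : Continuous (fun r : ℝ => (r : ℂ) * z) := by fun_prop
      exact this.tendsto 1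
    simp only [Complex.ofReal_one, one_mul] at this
    exact this.mono_left nhdsWithin_le_nhds
  refine mem_closure_of_tendsto h1 ?_
  have : ∀ᶠ r : ℝ in 𝓝[<] 1, r ∈ Ioo (0:ℝ) 1 := Ioo_mem_nhdsLT (by norm_num)
  filter_upwards [this] with r hr
  exact D.smul_mem_Om hz hr.1.le hr.2

theorem closure_Om : closure D.Om = D.cl :=
  Subset.antisymm (closure_minimal D.Om_subset_cl D.isClosed_cl) D.cl_subset_closure

def sigma (t : ℝ) : ℂ := ((D.h t : ℂ) + Complex.I * (D.h1 t : ℂ)) * Complex.exp (Complex.I * t)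

theorem hasDerivAt_exp (t : ℝ) :
    HasDerivAt (fun t : ℝ => Complex.exp (Complex.I * t)) (Complex.I * Complex.exp (Complex.I * t)) t := by
  have h1 : HasDerivAt (fun t : ℝ => Complex.I * (t : ℂ)) (Complex.I * 1) t :=
    (Complex.ofRealCLM.hasDerivAt (x := t)).const_mul Complex.I
  have := h1.cexp
  convert this using 1; ring

theorem hasDerivAt_sigma (t : ℝ) :
    HasDerivAt D.sigma (Complex.I * D.rho t * Complex.exp (Complex.I * t)) t := by
  have h1 : HasDerivAt (fun t => (D.h t : ℂ)) (D.h1 t : ℂ) t := (D.hd t).ofReal_comp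
  have h2 : HasDerivAt (fun t => (D.h1 t : ℂ)) (D.h2 t : ℂ) t := (D.hd1 t).ofReal_comp
  have h3 := (h1.add (h2.const_mul Complex.I)).mul (hasDerivAt_exp t)
  refine h3.congr_deriv ?_
  unfold rho; push_cast
  simp only [Pi.add_apply]
  linear_combination (D.h1 t : ℂ) * Complex.exp (Complex.I * t) * Complex.I_mul_I

theorem continuous_sigma : Continuous D.sigma :=
  continuous_iff_continuousAt.2 fun t => (D.hasDerivAt_sigma t).continuousAt

theorem exp_per (t : ℝ) : Complex.exp (Complex.I * ((t + 2 * π : ℝ) : ℂ)) = Complex.exp (Complex.I * t) := by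
  push_cast
  rw [mul_add, Complex.exp_add, show Complex.I * (2 * (π:ℂ)) = 2 * π * Complex.I by ring,
    Complex.exp_two_pi_mul_I, mul_one]

theorem sigma_per (t : ℝ) : D.sigma (t + 2 * π) = D.sigma t := by
  unfold sigma; rw [D.per, D.per1, exp_per]

theorem sigma_sub (z : ℂ) (t : ℝ) :
    D.sigma t - z = ((D.p z t : ℂ) + Complex.I * (D.p1 z t : ℂ)) * Complex.exp (Complex.I * t) := by
  have h : z = ((ell t z : ℂ) + Complex.I * (ell' t z : ℂ)) * Complex.exp (Complex.I * t) := by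
    have h1 : ((ell t z : ℂ) + Complex.I * (ell' t z : ℂ)) = Complex.exp (-(Complex.I * t)) * z := by
      rw [ell_eq, ell'_eq]
      conv_rhs => rw [← Complex.re_add_im (Complex.exp (-(Complex.I * t)) * z)]
      ring
    rw [h1, mul_assoc, mul_comm z, ← mul_assoc, ← Complex.exp_add]; simp
  conv_lhs => rw [h]
  unfold sigma p p1
  push_cast
  ring

theorem norm_sigma_sub (z : ℂ) (t : ℝ) :
    ‖D.sigma t - z‖ = ‖(D.p z t : ℂ) + Complex.I * (D.p1 z t : ℂ)‖ := by
  rw [sigma_sub, norm_mul, mul_comm Complex.I (t:ℂ), Complex.norm_exp_ofReal_mul_I, mul_one]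

end SDom

end

end Vale.P123
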