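import Mathlib

open scoped Real ComplexConjugate

namespace Vale.P123

noncomputable section

theorem sup_est {f0 G0 e : ℂ} {τ ω k δ C t : ℝ} (he : ‖e‖ = 1) (hτ0 : 0 ≤ τ) (hτ1 : τ ≤ 1)
    (hf : f0 = τ * e) (hG : ‖G0‖ ≤ 3) (hω0 : 0 ≤ ω) (hω : ω ≤ 4) (hk : 2 ≤ k) (hδ0 : 0 ≤ δ)
    (hδ1 : δ ≤ 1) (hC : 0 ≤ C)
    (hkey : 1 + δ - C * (1 - τ) ≤ k * (conj e * G0).re - ω)
    (ht0 : 0 ≤ t) (ht1 : t ≤ 1 / 16) (htC : t * C ≤ 1 / 4) :
    ‖f0 - t * G0‖ * Real.exp (t * (ω / k)) ≤ 1 - t * ((1 + δ) / k) + 20 * t ^ 2 := by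
  have hk0 : 0 < k := by linarith
  set a := (conj e * G0).re with ha
  set w := ω / k with hw
  set β := (1 + δ) / k with hβ
  have hw0 : 0 ≤ w := by positivity
  have hw2 : w ≤ 2 := by rw [hw, div_le_iff₀ hk0]; linarith
  have hβ0 : 0 ≤ β := by positivity
  have hβ1 : β ≤ 1 := by rw [hβ, div_le_one hk0]; linarith
  -- norm
  have h1 : ‖f0 - t * G0‖ = ‖(τ : ℂ) - t * (conj e * G0)‖ := by
    have h2 : f0 - t * G0 = e * ((τ : ℂ) - t * (conj e * G0)) := by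
      have : e * conj e = 1 := by
        rw [Complex.mul_conj, Complex.normSq_eq_norm_sq, he]; simp
      rw [hf]
      linear_combination (t * G0 : ℂ) * this
    rw [h2, norm_mul, he, one_mul]
  have h3 : ‖(τ : ℂ) - t * (conj e * G0)‖ ^ 2 ≤ τ ^ 2 - 2 * t * τ * a + 9 * t ^ 2 := by
    have hn : ‖conj e * G0‖ ≤ 3 := by
      rw [norm_mul, RCLike.norm_conj, he, one_mul]; exact hG
    have h4 : ‖(τ : ℂ) - t * (conj e * G0)‖ ^ 2 =
        τ ^ 2 - 2 * t * τ * a + t ^ 2 * ‖conj e * G0‖ ^ 2 := by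
      rw [← Complex.normSq_eq_norm_sq, ← Complex.normSq_eq_norm_sq, Complex.normSq_apply,
        Complex.normSq_apply, ha]
      simp only [Complex.sub_re, Complex.sub_im, Complex.ofReal_re, Complex.ofReal_im,
        Complex.re_ofReal_mul, Complex.im_ofReal_mul]
      ring
    rw [h4]
    have : ‖conj e * G0‖ ^ 2 ≤ 9 := by nlinarith [norm_nonneg (conj e * G0)]
    nlinarith [sq_nonneg t]
  have h5 : ‖(τ : ℂ) - t * (conj e * G0)‖ ≤ (1 + τ ^ 2) / 2 - t * τ * a + 9 / 2 * t ^ 2 := by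
    nlinarith [sq_nonneg (‖(τ : ℂ) - t * (conj e * G0)‖ - 1)]
  have h6 : β + w - C / k * (1 - τ) ≤ a := by
    have : (1 + δ - C * (1 - τ) + ω) / k ≤ a := by
      rw [div_le_iff₀ hk0]; linarith
    have h7 : (1 + δ - C * (1 - τ) + ω) / k = β + w - C / k * (1 - τ) := by
      rw [hβ, hw]; field_simp; ring
    linarith
  have hCk : 0 ≤ C / k := by positivity
  have hCk2 : C / k ≤ C / 2 := by
    apply div_le_div_of_nonneg_left hC (by norm_num) hk
  have h11 : t * (β + w) ≤ 3 / 16 := by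
    have : t * (β + w) ≤ 1 / 16 * 3 := mul_le_mul ht1 (by linarith) (by linarith) (by norm_num)
    linarith
  have h11' : 0 ≤ t * (β + w) := mul_nonneg ht0 (by linarith)
  have h8 : ‖(τ : ℂ) - t * (conj e * G0)‖ ≤ 1 - t * (β + w) + 9 / 2 * t ^ 2 := by
    have h9 : t * τ * (β + w - C / k * (1 - τ)) ≤ t * τ * a :=
      mul_le_mul_of_nonneg_left h6 (mul_nonneg ht0 hτ0)
    have h12 : t * τ * (C / k) ≤ 1 / 8 := by
      have h13 : t * τ ≤ t := mul_le_of_le_one_right ht0 hτ1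
      calc t * τ * (C / k) ≤ t * (C / k) := mul_le_mul_of_nonneg_right h13 hCk
        _ ≤ t * (C / 2) := mul_le_mul_of_nonneg_left hCk2 ht0
        _ ≤ 1 / 8 := by linarith
    have h10 : 0 ≤ (1 - τ) * ((1 + τ) / 2 - t * (β + w) - t * τ * (C / k)) :=
      mul_nonneg (by linarith) (by linarith)
    have h20 : (1 - τ) * ((1 + τ) / 2 - t * (β + w) - t * τ * (C / k)) =
      1 - t * (β + w) - ((1 + τ ^ 2) / 2 - t * τ * (β + w - C / k * (1 - τ))) := by ring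
    linarith
  have hx0 : 0 ≤ t * w := mul_nonneg ht0 hw0
  have hx1 : t * w ≤ 1 / 8 := by
    have : t * w ≤ 1 / 16 * 2 := mul_le_mul ht1 hw2 hw0 (by norm_num)
    linarith
  have h14 : Real.exp (t * w) ≤ 1 + t * w + (t * w) ^ 2 := by
    have := Real.abs_exp_sub_one_sub_id_le (x := t * w) (by rw [abs_of_nonneg hx0]; linarith)
    linarith [(abs_le.1 this).2]
  rw [h1]
  have hb : 0 ≤ 1 - t * (β + w) + 9 / 2 * t ^ 2 := by
    have := sq_nonneg t
    linarith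
  calc ‖(τ : ℂ) - t * (conj e * G0)‖ * Real.exp (t * w)
      ≤ (1 - t * (β + w) + 9 / 2 * t ^ 2) * (1 + t * w + (t * w) ^ 2) :=
        mul_le_mul h8 h14 (Real.exp_pos _).le hb
    _ ≤ 1 - t * β + 20 * t ^ 2 := by
        have e1 : (1 - t * (β + w) + 9 / 2 * t ^ 2) * (1 + t * w + (t * w) ^ 2) =
          1 - t * β + t ^ 2 * (w ^ 2 - (β + w) * w + 9 / 2 * (1 + t * w + (t * w) ^ 2) - (t * (β + w)) * w ^ 2) := by ring
        rw [e1]
        have h15 : w ^ 2 - (β + w) * w + 9 / 2 * (1 + t * w + (t * w) ^ 2) - (t * (β + w)) * w ^ 2 ≤ 20 := by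
          have h16 : 0 ≤ (t * (β + w)) * w ^ 2 := by positivity
          have h17 : 0 ≤ β * w := by positivity
          have h18 : (t * w) ^ 2 ≤ 1 := by
            have := mul_le_mul hx1 hx1 hx0 (by norm_num : (0:ℝ) ≤ 1 / 8)
            nlinarith
          have h19 : w ^ 2 - (β + w) * w = -(β * w) := by ring
          rw [h19]; linarith
        have h21 := mul_le_mul_of_nonneg_left h15 (sq_nonneg t)
        linarith

theorem pert_est {f0 G0 q : ℂ} {t Q : ℝ} (hf : ‖f0‖ ≤ 1) (hG : ‖G0‖ ≤ 3) (hq : ‖q‖ ≤ Q)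
    (ht0 : 0 ≤ t) (ht1 : t ≤ 1) (htQ : t * Q ≤ 1) :
    ‖(f0 - t * G0) * Complex.exp (t * q) - (f0 - t * G0 + t * (f0 * q))‖ ≤ t ^ 2 * (3 * Q + 4 * Q ^ 2) := by
  have hQ : 0 ≤ Q := (norm_nonneg _).trans hq
  have h1 : (f0 - t * G0) * Complex.exp (t * q) - (f0 - t * G0 + t * (f0 * q)) =
      -((t : ℂ) ^ 2 * (G0 * q)) + (f0 - t * G0) * (Complex.exp (t * q) - 1 - t * q) := by ring
  have hn : ‖(t : ℂ) * q‖ ≤ t * Q := by
    rw [norm_mul, Complex.norm_real, Real.norm_of_nonneg ht0]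
    exact mul_le_mul_of_nonneg_left hq ht0
  have h2 : ‖Complex.exp (t * q) - 1 - t * q‖ ≤ (t * Q) ^ 2 := by
    refine (Complex.norm_exp_sub_one_sub_id_le (hn.trans htQ)).trans ?_
    exact pow_le_pow_left₀ (norm_nonneg _) hn 2
  have h3 : ‖f0 - t * G0‖ ≤ 4 := by
    calc ‖f0 - t * G0‖ ≤ ‖f0‖ + ‖(t : ℂ) * G0‖ := norm_sub_le _ _
      _ ≤ 1 + 1 * 3 := by
        refine add_le_add hf ?_
        rw [norm_mul, Complex.norm_real, Real.norm_of_nonneg ht0]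
        exact mul_le_mul ht1 hG (norm_nonneg _) (by norm_num)
      _ = 4 := by norm_num
  rw [h1]
  calc ‖-((t : ℂ) ^ 2 * (G0 * q)) + (f0 - t * G0) * (Complex.exp (t * q) - 1 - t * q)‖
      ≤ ‖-((t : ℂ) ^ 2 * (G0 * q))‖ + ‖(f0 - t * G0) * (Complex.exp (t * q) - 1 - t * q)‖ := norm_add_le _ _
    _ ≤ t ^ 2 * (3 * Q) + 4 * (t * Q) ^ 2 := by
        refine add_le_add ?_ ?_
        · rw [norm_neg, norm_mul, norm_pow, Complex.norm_real, Real.norm_of_nonneg ht0, norm_mul]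
          exact mul_le_mul_of_nonneg_left (mul_le_mul hG hq (norm_nonneg _) (by norm_num)) (by positivity)
        · rw [norm_mul]
          exact mul_le_mul h3 h2 (norm_nonneg _) (by norm_num)
    _ = t ^ 2 * (3 * Q + 4 * Q ^ 2) := by ring

end

end Vale.P123
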