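import Mathlib

open scoped ComplexConjugate

namespace Vale.P123

noncomputable section

theorem i11_quad (X Y : ℝ) :
    0 ≤ 206 / 1000 + 17 / 40 * X + 19 / 120 * Y + 11 / 126 * (X * Y) +
      247 / 1000 * X ^ 2 + 1213 / 10000 * Y ^ 2 := by
  nlinarith [sq_nonneg (X + 7956 / 10000 + 1767 / 10000 * (Y + 3662 / 10000)), sq_nonneg (Y + 3662 / 10000)]

theorem i11_core {X Y S Z p R n N1 N2 : ℝ} (hn : 0 ≤ n) (hS : S ^ 2 = 1 - X ^ 2 - n)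
    (hZ : Z ^ 2 ≤ 1 - Y ^ 2) (hR : R = X * Y - S * Z) (hp : X * Y + S * Z - n ≤ p)
    (h1 : N1 = (19 / 20 - 1 / 12 * X) ^ 2 + (1 / 6 * S) ^ 2)
    (h2 : N2 ≤ (19 / 20 - 1 / 8 * Y) ^ 2 + (1 / 8 * Z) ^ 2 - 17 / 25 * n + (1 / 24) ^ 2 +
      1 / 12 * (19 / 20 * Y - 1 / 8 * (Y ^ 2 - Z ^ 2))) :
    2 + 1 / 25 ≤ 14 / 3 * (19 / 20 - 1 / 8 * X) + 6 / 7 * (1 / 24 * X) + 14 / 3 * (1 / 24 * p) +
      6 / 7 * (19 / 20 * X - 1 / 8 * R) - N1 - N2 := by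
  have hSZ : -(3 / 4 * S ^ 2 + 1 / 3 * Z ^ 2) ≤ S * Z := by
    have e : (3 * S + 2 * Z) ^ 2 = 9 * S ^ 2 + 12 * (S * Z) + 4 * Z ^ 2 := by ring
    have := sq_nonneg (3 * S + 2 * Z)
    rw [e] at this
    linarith
  have hq := i11_quad X Y
  have e1 : (19 / 20 - 1 / 12 * X) ^ 2 + (1 / 6 * S) ^ 2 =
    361 / 400 - 19 / 120 * X + 1 / 144 * X ^ 2 + 1 / 36 * S ^ 2 := by ring
  have e2 : (19 / 20 - 1 / 8 * Y) ^ 2 + (1 / 8 * Z) ^ 2 - 17 / 25 * n + (1 / 24) ^ 2 +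
      1 / 12 * (19 / 20 * Y - 1 / 8 * (Y ^ 2 - Z ^ 2)) =
    361 / 400 - 19 / 80 * Y + 1 / 64 * Y ^ 2 + 1 / 64 * Z ^ 2 - 17 / 25 * n + 1 / 576 +
      19 / 240 * Y - 1 / 96 * Y ^ 2 + 1 / 96 * Z ^ 2 := by ring
  rw [e1] at h1
  rw [e2] at h2
  rw [h1, hR]
  have hX := sq_nonneg X
  have hY := sq_nonneg Y
  linarith

theorem i11_mono {X p R k : ℝ} (hk : 7 / 3 ≤ k) (hX1 : X ≤ 1) (hp2 : -1 ≤ p) (hR2 : -1 ≤ R) :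
    14 / 3 * (19 / 20 - 1 / 8 * X) + 6 / 7 * (1 / 24 * X) + 14 / 3 * (1 / 24 * p) +
      6 / 7 * (19 / 20 * X - 1 / 8 * R) ≤
      2 * k * (19 / 20 - 1 / 8 * X) + 2 / k * (1 / 24 * X) + 2 * k * (1 / 24 * p) +
      2 / k * (19 / 20 * X - 1 / 8 * R) := by
  have hk0 : 0 < k := by linarith
  have h1 : 2 / k = 6 / 7 - (k - 7 / 3) * (6 / (7 * k)) := by field_simp; ring
  have h2 : 6 / (7 * k) ≤ 18 / 49 := by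
    rw [div_le_iff₀ (by positivity)]; linarith
  have h3 : 0 ≤ 6 / (7 * k) := by positivity
  set c := 6 / (7 * k) with hc
  set Q := 1 / 24 * X + (19 / 20 * X - 1 / 8 * R) with hQ
  have hQ1 : Q ≤ 3 / 2 := by rw [hQ]; linarith
  have h4 : c * Q ≤ 18 / 49 * (3 / 2) := by
    calc c * Q ≤ c * (3 / 2) := mul_le_mul_of_nonneg_left hQ1 h3
      _ ≤ 18 / 49 * (3 / 2) := mul_le_mul_of_nonneg_right h2 (by norm_num)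
  have h5 : 0 ≤ (k - 7 / 3) * (2 * (19 / 20 - 1 / 8 * X) + 2 * (1 / 24 * p) - c * Q) :=
    mul_nonneg (by linarith) (by linarith)
  rw [h1]
  have e : 2 * k * (19 / 20 - 1 / 8 * X) + (6 / 7 - (k - 7 / 3) * c) * (1 / 24 * X) + 2 * k * (1 / 24 * p) +
      (6 / 7 - (k - 7 / 3) * c) * (19 / 20 * X - 1 / 8 * R) -
      (14 / 3 * (19 / 20 - 1 / 8 * X) + 6 / 7 * (1 / 24 * X) + 14 / 3 * (1 / 24 * p) +
      6 / 7 * (19 / 20 * X - 1 / 8 * R)) =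
      (k - 7 / 3) * (2 * (19 / 20 - 1 / 8 * X) + 2 * (1 / 24 * p) - c * Q) := by
    rw [hQ]; ring
  linarith

theorem ineq11_real {X S p q k : ℝ} (hu : X ^ 2 + S ^ 2 ≤ 1) (hv : p ^ 2 + q ^ 2 ≤ 1) (hk : 7 / 3 ≤ k) :
    2 + 1 / 25 ≤ 2 * k * (19 / 20 - 1 / 8 * X) + 2 / k * (1 / 24 * X) + 2 * k * (1 / 24 * p) +
      2 / k * (19 / 20 * X - 1 / 8 * (X ^ 2 * p - 2 * X * S * q - S ^ 2 * p)) -
      ((19 / 20 - 1 / 12 * X) ^ 2 + (1 / 6 * S) ^ 2) -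
      ((X * (19 / 20 - 1 / 8 * (X * p - S * q)) - S * (-(1 / 8) * (X * q + S * p)) + 1 / 24 * p) ^ 2 +
       (S * (19 / 20 - 1 / 8 * (X * p - S * q)) + X * (-(1 / 8) * (X * q + S * p)) - 1 / 24 * q) ^ 2) := by
  have hX1 : X ≤ 1 := by nlinarith only [hu, sq_nonneg (X - 1), sq_nonneg S]
  have hp2 : -1 ≤ p := by nlinarith only [hv, sq_nonneg (p + 1), sq_nonneg q]
  have hu0 : 0 ≤ X ^ 2 + S ^ 2 := by positivity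
  have hv0 : 0 ≤ p ^ 2 + q ^ 2 := by positivity
  have hR2 : -1 ≤ X ^ 2 * p - 2 * X * S * q - S ^ 2 * p := by
    have hRJ : (X ^ 2 * p - 2 * X * S * q - S ^ 2 * p) ^ 2 + (2 * X * S * p + (X ^ 2 - S ^ 2) * q) ^ 2 =
        (X ^ 2 + S ^ 2) ^ 2 * (p ^ 2 + q ^ 2) := by ring
    have hRJ1 : (X ^ 2 + S ^ 2) ^ 2 * (p ^ 2 + q ^ 2) ≤ 1 := by
      have h1 : (X ^ 2 + S ^ 2) ^ 2 ≤ 1 := pow_le_one₀ hu0 hu
      calc (X ^ 2 + S ^ 2) ^ 2 * (p ^ 2 + q ^ 2) ≤ 1 * 1 := mul_le_mul h1 hv hv0 (by norm_num)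
        _ = 1 := by norm_num
    have h2 := sq_nonneg (2 * X * S * p + (X ^ 2 - S ^ 2) * q)
    have h3 : (X ^ 2 * p - 2 * X * S * q - S ^ 2 * p) ^ 2 ≤ 1 := by linarith
    exact (abs_le.1 ((sq_le_one_iff_abs_le_one _).1 h3)).1
  have hmono := i11_mono hk hX1 hp2 hR2
  -- Y = Re (u v), Z = Im (u v)
  obtain ⟨Y, hY⟩ : ∃ Y, Y = X * p - S * q := ⟨_, rfl⟩
  obtain ⟨Z, hZ⟩ : ∃ Z, Z = X * q + S * p := ⟨_, rfl⟩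
  have hYZ : Y ^ 2 + Z ^ 2 = (X ^ 2 + S ^ 2) * (p ^ 2 + q ^ 2) := by rw [hY, hZ]; ring
  have hYZ1 : Y ^ 2 + Z ^ 2 ≤ 1 := by
    rw [hYZ]
    calc (X ^ 2 + S ^ 2) * (p ^ 2 + q ^ 2) ≤ 1 * 1 := mul_le_mul hu hv hv0 (by norm_num)
      _ = 1 := by norm_num
  have hY1 : Y ≤ 1 := by nlinarith only [hYZ1, sq_nonneg (Y - 1), sq_nonneg Z]
  have hRe : X ^ 2 * p - 2 * X * S * q - S ^ 2 * p = X * Y - S * Z := by rw [hY, hZ]; ring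
  have hP : (X ^ 2 + S ^ 2) * p = X * Y + S * Z := by rw [hY, hZ]; ring
  have hN2 : (X * (19 / 20 - 1 / 8 * (X * p - S * q)) - S * (-(1 / 8) * (X * q + S * p)) + 1 / 24 * p) ^ 2 +
       (S * (19 / 20 - 1 / 8 * (X * p - S * q)) + X * (-(1 / 8) * (X * q + S * p)) - 1 / 24 * q) ^ 2 =
       (X ^ 2 + S ^ 2) * ((19 / 20 - 1 / 8 * Y) ^ 2 + (1 / 8 * Z) ^ 2) + (1 / 24) ^ 2 * (p ^ 2 + q ^ 2) +
       2 * (1 / 24) * (19 / 20 * Y - 1 / 8 * (Y ^ 2 - Z ^ 2)) := by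
    rw [hY, hZ]; ring
  have hlow : (17 / 25 : ℝ) ≤ (19 / 20 - 1 / 8 * Y) ^ 2 + (1 / 8 * Z) ^ 2 := by
    have h0 : 33 / 40 ≤ 19 / 20 - 1 / 8 * Y := by linarith
    have h2 : (33 / 40 : ℝ) ^ 2 ≤ (19 / 20 - 1 / 8 * Y) ^ 2 := pow_le_pow_left₀ (by norm_num) h0 2
    have h3 := sq_nonneg (1 / 8 * Z)
    linarith
  have hgain : (1 - (X ^ 2 + S ^ 2)) * (17 / 25) ≤
      (1 - (X ^ 2 + S ^ 2)) * ((19 / 20 - 1 / 8 * Y) ^ 2 + (1 / 8 * Z) ^ 2) :=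
    mul_le_mul_of_nonneg_left hlow (by linarith)
  have hploss : X * Y + S * Z - (1 - (X ^ 2 + S ^ 2)) ≤ p := by
    have h1 : 0 ≤ (1 - (X ^ 2 + S ^ 2)) * (1 + p) := mul_nonneg (by linarith) (by linarith)
    have h2 : (1 - (X ^ 2 + S ^ 2)) * (1 + p) = 1 - (X ^ 2 + S ^ 2) + p - (X ^ 2 + S ^ 2) * p := by ring
    rw [h2, hP] at h1
    linarith
  have hcore := i11_core (X := X) (Y := Y) (S := S) (Z := Z) (p := p)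
    (R := X ^ 2 * p - 2 * X * S * q - S ^ 2 * p) (n := 1 - (X ^ 2 + S ^ 2)) (by linarith) (by ring)
    (by linarith) hRe hploss rfl (N2 := (X * (19 / 20 - 1 / 8 * (X * p - S * q)) - S * (-(1 / 8) * (X * q + S * p)) + 1 / 24 * p) ^ 2 +
       (S * (19 / 20 - 1 / 8 * (X * p - S * q)) + X * (-(1 / 8) * (X * q + S * p)) - 1 / 24 * q) ^ 2) (by
      rw [hN2]
      have e : (1 - (X ^ 2 + S ^ 2)) * ((19 / 20 - 1 / 8 * Y) ^ 2 + (1 / 8 * Z) ^ 2) =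
        ((19 / 20 - 1 / 8 * Y) ^ 2 + (1 / 8 * Z) ^ 2) - (X ^ 2 + S ^ 2) * ((19 / 20 - 1 / 8 * Y) ^ 2 + (1 / 8 * Z) ^ 2) := by
        ring
      rw [e] at hgain
      linarith)
  linarith

end

end Vale.P123
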