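import Mathlib

/-!
Reduction of a polynomial norm estimate to finite-dimensional compressions.
-/

universe u

namespace Vale.P123

noncomputable section

/-- Powers intertwine along a map defined on an initial segment of a Krylov chain. -/
theorem aeval_apply_of_pow {V H : Type u} [NormedAddCommGroup V] [InnerProductSpace ℂ V]
    [NormedAddCommGroup H] [InnerProductSpace ℂ H] (B : V →L[ℂ] V) (A : H →L[ℂ] H)
    (ι : V →L[ℂ] H) (v : V) (w : H) (P : Polynomial ℂ)
    (h : ∀ i ≤ P.natDegree, ι ((B ^ i) v) = (A ^ i) w) :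
    ι (Polynomial.aeval B P v) = Polynomial.aeval A P w := by
  rw [Polynomial.aeval_eq_sum_range, Polynomial.aeval_eq_sum_range]
  simp only [sum_apply, smul_apply, map_sum, map_smul]
  apply Finset.sum_congr rfl
  intro i hi
  rw [h i (Nat.lt_succ_iff.1 (Finset.mem_range.1 hi))]

theorem reduce_fin (C : ℝ)
    (hfin : ∀ (V : Type u) [NormedAddCommGroup V] [InnerProductSpace ℂ V] [FiniteDimensional ℂ V]
      [Nontrivial V] (B : V →L[ℂ] V) (P : Polynomial ℂ) (M : ℝ),
      (∀ x : V, ‖x‖ = 1 → ‖P.eval (inner ℂ x (B x))‖ ≤ M) → ‖Polynomial.aeval B P‖ ≤ C * M)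
    (H : Type u) [NormedAddCommGroup H] [InnerProductSpace ℂ H] [Nontrivial H]
    (A : H →L[ℂ] H) (P : Polynomial ℂ) (M : ℝ)
    (hM : ∀ x : H, ‖x‖ = 1 → ‖P.eval (inner ℂ x (A x))‖ ≤ M) :
    ‖Polynomial.aeval A P‖ ≤ C * M := by
  have key : ∀ w : H, w ≠ 0 → 0 ≤ C * M ∧ ‖Polynomial.aeval A P w‖ ≤ C * M * ‖w‖ := by
    intro w hw
    let K : Submodule ℂ H := Submodule.span ℂ (Set.range fun i : Fin (P.natDegree + 1) => (A ^ (i : ℕ)) w)
    have hKfin : FiniteDimensional ℂ K := FiniteDimensional.span_of_finite ℂ (Set.finite_range _)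
    have hmem : ∀ i ≤ P.natDegree, (A ^ i) w ∈ K := fun i hi =>
      Submodule.subset_span ⟨⟨i, Nat.lt_succ_iff.2 hi⟩, rfl⟩
    have hw0 : w ∈ K := by
      have := hmem 0 (Nat.zero_le _)
      simpa using this
    have hKnt : Nontrivial K := ⟨⟨⟨w, hw0⟩, 0, fun h => hw (congrArg Subtype.val h)⟩⟩
    let B : K →L[ℂ] K := K.orthogonalProjectionOnto.comp (A.comp K.subtypeL)
    have hB : ∀ x : K, B x = K.orthogonalProjectionOnto (A (x : H)) := fun x => rfl
    have hpow : ∀ i ≤ P.natDegree, K.subtypeL ((B ^ i) ⟨w, hw0⟩) = (A ^ i) w := by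
      intro i
      induction i with
      | zero => intro _; simp
      | succ i ih =>
        intro hi
        have h1 := ih (by omega)
        rw [pow_succ', pow_succ']
        change ((B ((B ^ i) ⟨w, hw0⟩) : K) : H) = A ((A ^ i) w)
        rw [hB]
        have h2 : (((B ^ i) ⟨w, hw0⟩ : K) : H) = (A ^ i) w := h1
        rw [h2]
        have h3 : A ((A ^ i) w) ∈ K := by
          have := hmem (i + 1) hi
          rwa [pow_succ'] at this
        exact Submodule.orthogonalProjectionOnto_mem_subspace_eq_self (⟨A ((A ^ i) w), h3⟩ : K) ▸ rfl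
    have hle := hfin K B P M (by
      intro x hx
      have h1 : inner ℂ x (B x) = inner ℂ (x : H) (A (x : H)) := by
        rw [hB]
        exact Submodule.inner_orthogonalProjectionOnto_eq_of_mem_left x (A (x : H))
      rw [h1]
      exact hM x hx)
    refine ⟨(norm_nonneg _).trans hle, ?_⟩
    have h1 := aeval_apply_of_pow B A K.subtypeL ⟨w, hw0⟩ w P hpow
    rw [← h1]
    calc ‖K.subtypeL (Polynomial.aeval B P ⟨w, hw0⟩)‖ = ‖Polynomial.aeval B P ⟨w, hw0⟩‖ := rfl
      _ ≤ ‖Polynomial.aeval B P‖ * ‖(⟨w, hw0⟩ : K)‖ := ContinuousLinearMap.le_opNorm _ _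
      _ ≤ C * M * ‖w‖ := by
        have : ‖(⟨w, hw0⟩ : K)‖ = ‖w‖ := rfl
        rw [this]
        gcongr
  obtain ⟨w0, hw0⟩ := exists_ne (0 : H)
  apply ContinuousLinearMap.opNorm_le_bound _ (key w0 hw0).1
  intro w
  by_cases hw : w = 0
  · rw [hw]; simp
  · exact (key w hw).2

end

end Vale.P123
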