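import Vale.Agent.P123.Dom

open scoped Real
open Set Filter Topology MeasureTheory

namespace Vale.P123

noncomputable section

/-- box average -/
def avg (η : ℝ) (f : ℝ → ℝ) (t : ℝ) : ℝ := (2 * η)⁻¹ * ∫ s in (t - η)..(t + η), f s

theorem hasDerivAt_avg {η : ℝ} {f : ℝ → ℝ} (hf : Continuous f) (t : ℝ) :
    HasDerivAt (avg η f) ((2 * η)⁻¹ * (f (t + η) - f (t - η))) t := by
  have h0 : ∀ x, HasDerivAt (fun x => ∫ s in (0:ℝ)..x, f s) (f x) x := fun x =>
    intervalIntegral.integral_hasDerivAt_right (hf.intervalIntegrable _ _)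
      (hf.stronglyMeasurableAtFilter _ _) hf.continuousAt
  have h1 : HasDerivAt (fun t => ∫ s in (0:ℝ)..(t + η), f s) (f (t + η)) t :=
    (h0 (t + η)).comp_add_const t η
  have h2 : HasDerivAt (fun t => ∫ s in (0:ℝ)..(t - η), f s) (f (t - η)) t :=
    (h0 (t - η)).comp_sub_const t η
  have h3 : avg η f = fun t => (2 * η)⁻¹ *
      ((∫ s in (0:ℝ)..(t + η), f s) - ∫ s in (0:ℝ)..(t - η), f s) := by
    funext t
    unfold avg
    congr 1
    rw [intervalIntegral.integral_interval_sub_left (hf.intervalIntegrable _ _)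
      (hf.intervalIntegrable _ _)]
  rw [h3]
  exact (h1.sub h2).const_mul _

theorem continuous_avg {η : ℝ} {f : ℝ → ℝ} (hf : Continuous f) : Continuous (avg η f) :=
  continuous_iff_continuousAt.2 fun t => (hasDerivAt_avg hf t).continuousAt

theorem avg_per {η : ℝ} {f : ℝ → ℝ} (hf : ∀ t, f (t + 2 * π) = f t) (t : ℝ) :
    avg η f (t + 2 * π) = avg η f t := by
  unfold avg
  congr 1
  have := intervalIntegral.integral_comp_add_right (a := t - η) (b := t + η) f (2 * π)
  rw [show t + 2 * π - η = t - η + 2 * π by ring, show t + 2 * π + η = t + η + 2 * π by ring,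
    ← this]
  exact intervalIntegral.integral_congr fun s _ => hf s

theorem abs_avg_sub_le {η : ℝ} (hη : 0 < η) {f : ℝ → ℝ} (hf : Continuous f) {t c C : ℝ}
    (h : ∀ s, |s - t| ≤ η → |f s - c| ≤ C) : |avg η f t - c| ≤ C := by
  have h1 : avg η f t - c = (2 * η)⁻¹ * ∫ s in (t - η)..(t + η), (f s - c) := by
    rw [intervalIntegral.integral_sub (hf.intervalIntegrable _ _)
      (continuous_const.intervalIntegrable _ _), intervalIntegral.integral_const]
    unfold avg
    simp only [smul_eq_mul]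
    field_simp
    ring
  have h2 : ‖∫ s in (t - η)..(t + η), (f s - c)‖ ≤ C * |t + η - (t - η)| := by
    apply intervalIntegral.norm_integral_le_of_norm_le_const
    intro s hs
    rw [uIoc_of_le (by linarith)] at hs
    exact h s (abs_le.2 ⟨by linarith [hs.1], by linarith [hs.2]⟩)
  rw [h1, abs_mul, abs_of_pos (by positivity : (0:ℝ) < (2 * η)⁻¹)]
  rw [Real.norm_eq_abs, show t + η - (t - η) = 2 * η by ring, abs_of_pos (by positivity : (0:ℝ) < 2 * η)] at h2
  calc (2 * η)⁻¹ * |∫ s in (t - η)..(t + η), (f s - c)| ≤ (2 * η)⁻¹ * (C * (2 * η)) := by gcongr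
    _ = C := by field_simp

/-- support function of a set -/
def supp (W : Set ℂ) (t : ℝ) : ℝ := sSup ((fun w => ell t w) '' W)

theorem exists_sdom {W : Set ℂ} (hb : Bornology.IsBounded W) (h0 : (0:ℂ) ∈ W) {ε : ℝ} (hε : 0 < ε) :
    ∃ D : SDom, (∀ t, ∀ w ∈ W, ell t w + ε / 2 ≤ D.h t) ∧
      (∀ t c, (∀ w ∈ W, ell t w ≤ c) → D.h t ≤ c + ε) := by
  obtain ⟨R, hR⟩ := isBounded_iff_forall_norm_le.1 hb
  have hR0 : 0 ≤ R := by simpa using hR 0 h0
  set H : ℝ → ℝ := supp W with hH
  have hbdd : ∀ t, BddAbove ((fun w => ell t w) '' W) := by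
    intro t
    refine ⟨R, ?_⟩
    rintro _ ⟨w, hw, rfl⟩
    exact (le_abs_self _).trans ((abs_ell_le t w).trans (hR w hw))
  have hne : ∀ t, ((fun w => ell t w) '' W).Nonempty := fun t => ⟨_, 0, h0, rfl⟩
  have hle : ∀ t, ∀ w ∈ W, ell t w ≤ H t := fun t w hw => le_csSup (hbdd t) ⟨w, hw, rfl⟩
  have hsup : ∀ t c, (∀ w ∈ W, ell t w ≤ c) → H t ≤ c := by
    intro t c hc
    apply csSup_le (hne t)
    rintro _ ⟨w, hw, rfl⟩
    exact hc w hw
  have hH0 : ∀ t, 0 ≤ H t := by
    intro t
    have := hle t 0 h0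
    unfold ell at this
    simpa using this
  have hper : ∀ t, H (t + 2 * π) = H t := by
    intro t
    simp only [hH, supp, ell_add_two_pi]
  -- Lipschitz
  have hell : ∀ s t : ℝ, ∀ w : ℂ, |ell s w - ell t w| ≤ ‖w‖ * |s - t| := by
    intro s t w
    have h1 : ∀ x ∈ (univ : Set ℝ), HasDerivWithinAt (fun t => ell t w) (ell' x w) univ x :=
      fun x _ => (hasDerivAt_ell w x).hasDerivWithinAt
    have h2 : ∀ x ∈ (univ : Set ℝ), ‖ell' x w‖ ≤ ‖w‖ := by
      intro x _
      rw [ell'_eq, Real.norm_eq_abs]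
      refine (Complex.abs_im_le_norm _).trans ?_
      rw [norm_mul, show -(Complex.I * (x:ℂ)) = ((-x : ℝ) : ℂ) * Complex.I by push_cast; ring,
        Complex.norm_exp_ofReal_mul_I, one_mul]
    have := convex_univ.norm_image_sub_le_of_norm_hasDerivWithin_le h1 h2 (mem_univ t) (mem_univ s)
    simpa [Real.norm_eq_abs] using this
  have hLip1 : ∀ s t : ℝ, H s ≤ H t + R * |s - t| := by
    intro s t
    apply hsup
    intro w hw
    have h1 := (abs_le.1 (hell s t w)).2
    have h2 := hle t w hw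
    have h3 : ‖w‖ * |s - t| ≤ R * |s - t| := mul_le_mul_of_nonneg_right (hR w hw) (abs_nonneg _)
    linarith
  have hLip : ∀ s t : ℝ, |H s - H t| ≤ R * |s - t| := by
    intro s t
    rw [abs_le]
    have h1 := hLip1 s t
    have h2 := hLip1 t s
    rw [abs_sub_comm t s] at h2
    constructor <;> linarith
  have hHc : Continuous H := by
    have : LipschitzWith (Real.toNNReal R) H := by
      apply LipschitzWith.of_dist_le_mul
      intro s t
      rw [Real.dist_eq, Real.dist_eq, Real.coe_toNNReal R hR0]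
      exact hLip s t
    exact this.continuous
  -- second difference inequality
  have hdiff : ∀ t δ : ℝ, 0 ≤ Real.cos δ → 2 * Real.cos δ * H t ≤ H (t + δ) + H (t - δ) := by
    intro t δ hδ
    rcases hδ.eq_or_lt with h | h
    · rw [← h]; simp; linarith [hH0 (t + δ), hH0 (t - δ)]
    · have key : H t ≤ (H (t + δ) + H (t - δ)) / (2 * Real.cos δ) := by
        apply hsup
        intro w hw
        rw [le_div_iff₀ (by positivity)]
        have e : ell t w * (2 * Real.cos δ) = ell (t + δ) w + ell (t - δ) w := by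
          unfold ell
          rw [Real.cos_add, Real.sin_add, Real.cos_sub, Real.sin_sub]
          ring
        rw [e]
        exact add_le_add (hle _ w hw) (hle _ w hw)
      rw [le_div_iff₀ (by positivity)] at key
      linarith
  -- smoothing
  set η : ℝ := min (1 / 2) (ε / (8 * (R + 1))) with hη
  have hη0 : 0 < η := lt_min (by norm_num) (by positivity)
  have hη1 : η ≤ 1 / 2 := min_le_left _ _
  have hηR : R * η ≤ ε / 8 := by
    have h1 : η ≤ ε / (8 * (R + 1)) := min_le_right _ _
    calc R * η ≤ (R + 1) * (ε / (8 * (R + 1))) := by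
          apply mul_le_mul (by linarith) h1 hη0.le (by linarith)
      _ = ε / 8 := by field_simp
  set F1 : ℝ → ℝ := avg η H with hF1
  set F2 : ℝ → ℝ := avg η F1 with hF2
  have hF1c : Continuous F1 := continuous_avg hHc
  have hb1 : ∀ t, |F1 t - H t| ≤ ε / 8 := by
    intro t
    apply abs_avg_sub_le hη0 hHc
    intro s hs
    refine (hLip s t).trans ?_
    exact (mul_le_mul_of_nonneg_left hs hR0).trans hηR
  have hb2 : ∀ t, |F2 t - H t| ≤ ε / 4 := by
    intro t
    apply abs_avg_sub_le hη0 hF1c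
    intro s hs
    have h1 := hb1 s
    have h2 := (hLip s t).trans ((mul_le_mul_of_nonneg_left hs hR0).trans hηR)
    calc |F1 s - H t| = |(F1 s - H s) + (H s - H t)| := by ring_nf
      _ ≤ |F1 s - H s| + |H s - H t| := abs_add_le _ _
      _ ≤ ε / 4 := by linarith
  let h1 : ℝ → ℝ := fun t => (2 * η)⁻¹ * (F1 (t + η) - F1 (t - η))
  let h2 : ℝ → ℝ := fun t => (2 * η)⁻¹ * ((2 * η)⁻¹ * (H (t + η + η) - H (t + η - η)) -
    (2 * η)⁻¹ * (H (t - η + η) - H (t - η - η)))
  refine ⟨{ h := fun t => F2 t + 3 * ε / 4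
            h1 := h1
            h2 := h2
            hd := fun t => (hasDerivAt_avg hF1c t).add_const _
            hd1 := fun t => ?_
            cont2 := ?_
            per := fun t => ?_
            rho_pos := fun t => ?_
            pos := fun t => ?_ }, fun t w hw => ?_, fun t c hc => ?_⟩
  · have e1 : HasDerivAt (fun t => F1 (t + η)) ((2 * η)⁻¹ * (H (t + η + η) - H (t + η - η))) t :=
      (hasDerivAt_avg hHc (t + η)).comp_add_const t η
    have e2 : HasDerivAt (fun t => F1 (t - η)) ((2 * η)⁻¹ * (H (t - η + η) - H (t - η - η))) t :=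
      (hasDerivAt_avg hHc (t - η)).comp_sub_const t η
    exact (e1.sub e2).const_mul _
  · simp only [h2]
    fun_prop
  · show avg η F1 (t + 2 * π) + _ = _
    rw [avg_per (fun t => avg_per hper t)]
  · show 0 < F2 t + 3 * ε / 4 + h2 t
    have e1 : h2 t = ((2 * η)⁻¹) ^ 2 * (H (t + 2 * η) + H (t - 2 * η) - 2 * H t) := by
      simp only [h2]
      rw [show t + η + η = t + 2 * η by ring, show t + η - η = t by ring,
        show t - η + η = t by ring, show t - η - η = t - 2 * η by ring]
      ring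
    have hcos : 0 ≤ Real.cos (2 * η) := by
      apply Real.cos_nonneg_of_mem_Icc
      constructor <;> linarith [Real.pi_gt_three]
    have e2 := hdiff t (2 * η) hcos
    have e3 : 1 - (2 * η) ^ 2 / 2 ≤ Real.cos (2 * η) := Real.one_sub_sq_div_two_le_cos
    have e4 : -(2 * η) ^ 2 * H t ≤ H (t + 2 * η) + H (t - 2 * η) - 2 * H t := by
      have := hH0 t
      nlinarith
    have e5 : -H t ≤ h2 t := by
      rw [e1]
      calc -H t = ((2 * η)⁻¹) ^ 2 * (-(2 * η) ^ 2 * H t) := by field_simp
        _ ≤ _ := by gcongr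
    have e6 := (abs_le.1 (hb2 t)).1
    linarith
  · have e6 := (abs_le.1 (hb2 t)).1
    have := hH0 t
    show 0 < F2 t + 3 * ε / 4
    linarith
  · have e6 := (abs_le.1 (hb2 t)).1
    have := hle t w hw
    show ell t w + ε / 2 ≤ F2 t + 3 * ε / 4
    linarith
  · have e6 := (abs_le.1 (hb2 t)).2
    have := hsup t c hc
    show F2 t + 3 * ε / 4 ≤ c + ε
    linarith

theorem exists_near {W : Set ℂ} (hne : W.Nonempty) (hc : Convex ℝ W) {z : ℂ} {ε : ℝ} (hε : 0 ≤ ε)
    (h : ∀ t c, (∀ w ∈ W, ell t w ≤ c) → ell t z ≤ c + ε) : ∃ w ∈ closure W, ‖z - w‖ ≤ ε := by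
  obtain ⟨w, hw, hmin⟩ := exists_norm_eq_iInf_of_complete_convex (K := closure W) hne.closure
    isClosed_closure.isComplete hc.closure z
  have hchar := (norm_eq_iInf_iff_real_inner_le_zero hc.closure hw).1 hmin
  refine ⟨w, hw, ?_⟩
  by_cases hzw : z = w
  · rw [hzw, sub_self, norm_zero]; exact hε
  have hpos : 0 < ‖z - w‖ := norm_pos_iff.2 (sub_ne_zero.2 hzw)
  set t : ℝ := Complex.arg (z - w) with ht
  have hell : ∀ v : ℂ, ‖z - w‖ * ell t v = inner ℝ (z - w) v := by
    intro v
    rw [Complex.inner]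
    have e1 : ‖z - w‖ * Real.cos t = (z - w).re := by
      rw [ht, Complex.cos_arg (sub_ne_zero.2 hzw)]
      field_simp
    have e2 : ‖z - w‖ * Real.sin t = (z - w).im := by
      rw [ht, Complex.sin_arg]
      field_simp
    unfold ell
    rw [Complex.mul_re, Complex.conj_re, Complex.conj_im]
    calc ‖z - w‖ * (v.re * Real.cos t + v.im * Real.sin t)
        = (‖z - w‖ * Real.cos t) * v.re + (‖z - w‖ * Real.sin t) * v.im := by ring
      _ = _ := by rw [e1, e2]; ring
  have hc' : ∀ v ∈ W, ell t v ≤ ell t w := by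
    intro v hv
    have h1 := hchar v (subset_closure hv)
    rw [← hell, ell_sub] at h1
    by_contra hcon
    push Not at hcon
    have : 0 < ‖z - w‖ * (ell t v - ell t w) := mul_pos hpos (by linarith)
    linarith
  have h2 := h t _ hc'
  have h3 : ‖z - w‖ * ell t (z - w) = ‖z - w‖ * ‖z - w‖ := by
    rw [hell, real_inner_self_eq_norm_mul_norm]
  have h4 := mul_left_cancel₀ hpos.ne' h3
  rw [ell_sub] at h4
  linarith

end

end Vale.P123
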