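import Mathlib

open Set Filter Topology

universe u

namespace Vale.P123

noncomputable section

/-- a unimodular number killing an imaginary part -/
theorem exists_unimodular (α β : ℂ) :
    ∃ u : ℂ, ‖u‖ = 1 ∧ ((starRingEnd ℂ u) * α + u * β).im = 0 := by
  have key : ∀ u : ℂ, ((starRingEnd ℂ u) * α + u * β).im = (u * (β - starRingEnd ℂ α)).im := by
    intro u
    simp only [Complex.add_im, Complex.mul_im, Complex.conj_re, Complex.conj_im, Complex.sub_re,
      Complex.sub_im]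
    ring
  by_cases h : β - starRingEnd ℂ α = 0
  · refine ⟨1, by simp, ?_⟩
    rw [key, h]; simp
  · refine ⟨starRingEnd ℂ (β - starRingEnd ℂ α) / (‖β - starRingEnd ℂ α‖ : ℂ), ?_, ?_⟩
    · rw [norm_div, Complex.norm_real, norm_norm, RCLike.norm_conj]
      exact div_self (norm_ne_zero_iff.2 h)
    · rw [key, div_mul_eq_mul_div, mul_comm, Complex.mul_conj]
      rw [← Complex.ofReal_div, Complex.ofReal_im]

/-- Toeplitz-Hausdorff. -/
theorem convex_numRange {V : Type u} [NormedAddCommGroup V] [InnerProductSpace ℂ V] (A : V →L[ℂ] V) :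
    Convex ℝ {z : ℂ | ∃ x : V, ‖x‖ = 1 ∧ inner ℂ x (A x) = z} := by
  rintro a ⟨x, hx, rfl⟩ b ⟨y, hy, rfl⟩ r s hr hs hrs
  set a : ℂ := inner ℂ x (A x) with ha
  set b : ℂ := inner ℂ y (A y) with hb
  by_cases hab : a = b
  · refine ⟨x, hx, ?_⟩
    rw [← ha, ← hab, ← add_smul, hrs, one_smul]
  set c : ℂ := r • a + s • b with hc
  have hcr : c = (1 - s : ℝ) * a + (s : ℂ) * b := by
    rw [hc, Complex.real_smul, Complex.real_smul]
    congr 2
    have : r = 1 - s := by linarith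
    rw [this]
  set d : ℂ := starRingEnd ℂ (b - a) with hd
  -- cross terms
  set α : ℂ := d * (inner ℂ x (A y) - c * inner ℂ x y) with hα
  set β : ℂ := d * (inner ℂ y (A x) - c * inner ℂ y x) with hβ
  obtain ⟨u, hu1, hu2⟩ := exists_unimodular α β
  let z : ℝ → V := fun t => ((1 - t : ℝ) : ℂ) • (u • x) + ((t : ℝ) : ℂ) • y
  let q : ℝ → ℂ := fun t => d * (inner ℂ (z t) (A (z t)) - c * inner ℂ (z t) (z t))
  have huu : (starRingEnd ℂ u) * u = 1 := by
    rw [mul_comm, Complex.mul_conj, Complex.normSq_eq_norm_sq, hu1]; norm_num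
  have hxx : inner ℂ x x = (1 : ℂ) := by
    rw [inner_self_eq_norm_sq_to_K, hx]; norm_num
  have hyy : inner ℂ y y = (1 : ℂ) := by
    rw [inner_self_eq_norm_sq_to_K, hy]; norm_num
  have hq : ∀ t : ℝ, q t = ((1 - t : ℝ) : ℂ) ^ 2 * (d * (a - c)) + ((t : ℝ) : ℂ) ^ 2 * (d * (b - c)) +
      ((1 - t : ℝ) : ℂ) * (t : ℂ) * ((starRingEnd ℂ u) * α + u * β) := by
    intro t
    simp only [q, z, map_add, map_smul, inner_add_left, inner_add_right, inner_smul_left,
      inner_smul_right, Complex.conj_ofReal, hxx, hyy, ← ha, ← hb, hα, hβ]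
    linear_combination (((1 - t : ℝ) : ℂ) ^ 2 * d * (a - c)) * huu
  have hdd : d * (b - a) = ((‖b - a‖ ^ 2 : ℝ) : ℂ) := by
    rw [hd, mul_comm, Complex.mul_conj, Complex.normSq_eq_norm_sq]
  have h1 : d * (a - c) = ((-(s * ‖b - a‖ ^ 2) : ℝ) : ℂ) := by
    have : a - c = -(s : ℂ) * (b - a) := by rw [hcr]; push_cast; ring
    rw [this]; push_cast; push_cast at hdd; linear_combination (-(s:ℂ)) * hdd
  have h2 : d * (b - c) = (((1 - s) * ‖b - a‖ ^ 2 : ℝ) : ℂ) := by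
    have : b - c = (1 - s : ℂ) * (b - a) := by rw [hcr]; push_cast; ring
    rw [this]; push_cast; push_cast at hdd; linear_combination ((1 - s:ℂ)) * hdd
  have him : ∀ t : ℝ, (q t).im = 0 := by
    intro t
    rw [hq, h1, h2]
    have e : ((1 - t : ℝ) : ℂ) ^ 2 * ((-(s * ‖b - a‖ ^ 2) : ℝ) : ℂ) +
        ((t : ℝ) : ℂ) ^ 2 * (((1 - s) * ‖b - a‖ ^ 2 : ℝ) : ℂ) +
        ((1 - t : ℝ) : ℂ) * (t : ℂ) * ((starRingEnd ℂ u) * α + u * β) =
        (((1 - t) ^ 2 * (-(s * ‖b - a‖ ^ 2)) + t ^ 2 * ((1 - s) * ‖b - a‖ ^ 2) : ℝ) : ℂ) +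
        (((1 - t) * t : ℝ) : ℂ) * ((starRingEnd ℂ u) * α + u * β) := by
      push_cast; ring
    rw [e, Complex.add_im, Complex.ofReal_im, Complex.im_ofReal_mul, hu2]; ring
  have hcont : Continuous fun t => (q t).re := by
    have hz : Continuous z := by
      simp only [z]; fun_prop
    have : Continuous q := by
      simp only [q]
      exact continuous_const.mul ((hz.inner (A.continuous.comp hz)).sub
        (continuous_const.mul (hz.inner hz)))
    exact Complex.continuous_re.comp this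
  have h0 : (q 0).re ≤ 0 := by
    rw [hq, h1, h2]
    have e : ((1 - (0:ℝ) : ℝ) : ℂ) ^ 2 * ((-(s * ‖b - a‖ ^ 2) : ℝ) : ℂ) +
        (((0:ℝ) : ℝ) : ℂ) ^ 2 * (((1 - s) * ‖b - a‖ ^ 2 : ℝ) : ℂ) +
        ((1 - (0:ℝ) : ℝ) : ℂ) * ((0:ℝ) : ℂ) * ((starRingEnd ℂ u) * α + u * β) =
        ((-(s * ‖b - a‖ ^ 2) : ℝ) : ℂ) := by push_cast; ring
    rw [e, Complex.ofReal_re]
    have : 0 ≤ s * ‖b - a‖ ^ 2 := by positivity
    linarith
  have h1' : 0 ≤ (q 1).re := by
    rw [hq, h1, h2]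
    have e : ((1 - (1:ℝ) : ℝ) : ℂ) ^ 2 * ((-(s * ‖b - a‖ ^ 2) : ℝ) : ℂ) +
        (((1:ℝ) : ℝ) : ℂ) ^ 2 * (((1 - s) * ‖b - a‖ ^ 2 : ℝ) : ℂ) +
        ((1 - (1:ℝ) : ℝ) : ℂ) * ((1:ℝ) : ℂ) * ((starRingEnd ℂ u) * α + u * β) =
        (((1 - s) * ‖b - a‖ ^ 2 : ℝ) : ℂ) := by push_cast; ring
    rw [e, Complex.ofReal_re]
    have : 0 ≤ 1 - s := by linarith
    positivity
  obtain ⟨t, ht, hqt⟩ : ∃ t ∈ Icc (0:ℝ) 1, (q t).re = 0 := by
    have := intermediate_value_Icc (zero_le_one (α := ℝ)) hcont.continuousOn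
    obtain ⟨t, ht, h⟩ := this ⟨h0, h1'⟩
    exact ⟨t, ht, h⟩
  have hqz : q t = 0 := Complex.ext hqt (him t)
  have hdne : d ≠ 0 := by
    rw [hd]
    intro h
    have := (map_eq_zero (starRingEnd ℂ)).1 h
    exact hab (sub_eq_zero.1 this).symm
  have hzz : inner ℂ (z t) (A (z t)) = c * inner ℂ (z t) (z t) := by
    rcases mul_eq_zero.1 hqz with h | h
    · exact absurd h hdne
    · exact sub_eq_zero.1 h
  -- z t ≠ 0
  have hzne : z t ≠ 0 := by
    intro hz0
    have e1 : ((1 - t : ℝ) : ℂ) • (u • x) = -(((t : ℝ) : ℂ) • y) := by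
      have : ((1 - t : ℝ) : ℂ) • (u • x) + ((t : ℝ) : ℂ) • y = 0 := hz0
      exact eq_neg_of_add_eq_zero_left this
    have e2 := congrArg norm e1
    rw [norm_neg, norm_smul, norm_smul, norm_smul, hx, hy, hu1, Complex.norm_real,
      Complex.norm_real, Real.norm_of_nonneg (by linarith [ht.2]), Real.norm_of_nonneg ht.1] at e2
    have et : t = 1 / 2 := by linarith
    subst et
    have e3 : u • x = -y := by
      have hhalf : (((1 / 2 : ℝ)) : ℂ) ≠ 0 := by norm_num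
      have : ((1 - 1 / 2 : ℝ) : ℂ) = (((1 / 2 : ℝ)) : ℂ) := by norm_num
      rw [this, ← smul_neg] at e1
      exact smul_right_injective V hhalf e1
    have e4 : inner ℂ (u • x) (A (u • x)) = a := by
      rw [map_smul, inner_smul_left, inner_smul_right, ← mul_assoc, huu, one_mul]
    rw [e3, map_neg, inner_neg_neg] at e4
    exact hab e4.symm
  have hnz : (‖z t‖ : ℂ) ≠ 0 := by
    exact_mod_cast norm_ne_zero_iff.2 hzne
  refine ⟨((‖z t‖ : ℂ)⁻¹) • z t, ?_, ?_⟩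
  · rw [norm_smul, norm_inv, Complex.norm_real, norm_norm]
    exact inv_mul_cancel₀ (norm_ne_zero_iff.2 hzne)
  · rw [map_smul, inner_smul_left, inner_smul_right, hzz, inner_self_eq_norm_sq_to_K]
    rw [map_inv₀, Complex.conj_ofReal]
    simp only [Complex.coe_algebraMap]
    field_simp

end

end Vale.P123
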