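import Vale.Agent.P123.Oper
import Vale.Agent.P123.TH
import Vale.Agent.P123.Smooth
import Vale.Agent.P123.Diag
import Vale.Agent.P123.Krylov

open scoped Real NNReal
open Set Filter Topology MeasureTheory

universe u

namespace Vale.P123

noncomputable section

/-- the numerical range -/
def nr {V : Type u} [NormedAddCommGroup V] [InnerProductSpace ℂ V] (A : V →L[ℂ] V) : Set ℂ :=
  {z : ℂ | ∃ x : V, ‖x‖ = 1 ∧ inner ℂ x (A x) = z}

theorem norm_inner_unit_le {V : Type u} [NormedAddCommGroup V] [InnerProductSpace ℂ V]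
    (A : V →L[ℂ] V) {x : V} (hx : ‖x‖ = 1) : ‖(inner ℂ x (A x) : ℂ)‖ ≤ ‖A‖ := by
  calc ‖(inner ℂ x (A x) : ℂ)‖ ≤ ‖x‖ * ‖A x‖ := norm_inner_le_norm _ _
    _ ≤ ‖x‖ * (‖A‖ * ‖x‖) := mul_le_mul_of_nonneg_left (A.le_opNorm x) (norm_nonneg _)
    _ = ‖A‖ := by rw [hx]; ring

theorem nr_bounded {V : Type u} [NormedAddCommGroup V] [InnerProductSpace ℂ V]
    (A : V →L[ℂ] V) : Bornology.IsBounded (nr A) := by
  rw [isBounded_iff_forall_norm_le]
  refine ⟨‖A‖, ?_⟩
  rintro _ ⟨x, hx, rfl⟩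
  exact norm_inner_unit_le A hx

/-- the finite-dimensional case with `0` in the numerical range -/
theorem fin_zero (C : ℝ) (hC : 0 ≤ C)
    {V : Type u} [NormedAddCommGroup V] [InnerProductSpace ℂ V] [FiniteDimensional ℂ V]
    (hmain : ∀ (D : SDom) (A : Dat D V) (P : Polynomial ℂ) (M : ℝ),
      (∀ z ∈ D.Om, ‖P.eval z‖ ≤ M) → ‖A.f (fun z => P.eval z)‖ ≤ C * M)
    (B : V →L[ℂ] V) (P : Polynomial ℂ) (M : ℝ)
    (hM : ∀ x : V, ‖x‖ = 1 → ‖P.eval (inner ℂ x (B x))‖ ≤ M) (h0 : (0 : ℂ) ∈ nr B) :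
    ‖Polynomial.aeval B P‖ ≤ C * M := by
  have hPc : Continuous (fun z : ℂ => P.eval z) := P.continuous
  -- `η`-statement
  have key : ∀ η : ℝ, 0 < η → ‖Polynomial.aeval B P‖ ≤ C * (M + η) + η := by
    intro η hη
    -- uniform continuity of `P` on a ball
    have huc : UniformContinuousOn (fun z : ℂ => P.eval z) (Metric.closedBall 0 (‖B‖ + 1)) :=
      (isCompact_closedBall _ _).uniformContinuousOn_of_continuous hPc.continuousOn
    rw [Metric.uniformContinuousOn_iff_le] at huc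
    obtain ⟨δ, hδ, hδ'⟩ := huc η hη
    -- continuity of `aeval`
    have hac : Continuous (fun B' : V →L[ℂ] V => Polynomial.aeval B' P) :=
      Polynomial.continuous_aeval P
    obtain ⟨δ2, hδ2, hδ2'⟩ := Metric.continuous_iff'.1 hac B η hη |> Metric.eventually_nhds_iff_ball.1
    -- the domain
    obtain ⟨ε, hε, hεδ, hε1⟩ : ∃ ε : ℝ, 0 < ε ∧ ε ≤ δ ∧ ε ≤ 1 :=
      ⟨min δ 1, lt_min hδ one_pos, min_le_left _ _, min_le_right _ _⟩
    obtain ⟨D, hD1, hD2⟩ := exists_sdom (nr_bounded B) h0 hε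
    obtain ⟨B', hB', S, hS⟩ := exists_near_split V B (min (ε / 8) (δ2 / 2))
      (lt_min (by positivity) (by positivity))
    have hB1 : ‖B' - B‖ ≤ ε / 8 := hB'.trans (min_le_left _ _)
    have hB2 : ‖B' - B‖ < δ2 := (hB'.trans (min_le_right _ _)).trans_lt (by linarith)
    obtain ⟨T, E, hT, hsum, horth, hP⟩ := exists_idem B' S hS
    have hnum : ∀ v : V, ‖v‖ = 1 → ∀ t, ell t (inner ℂ v (B' v)) < D.h t := by
      intro v hv t
      have e1 : (inner ℂ v (B' v) : ℂ) = inner ℂ v (B v) + inner ℂ v ((B' - B) v) := by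
        rw [sub_apply, inner_sub_right]; ring
      have e2 : ell t (inner ℂ v ((B' - B) v)) ≤ ε / 8 :=
        (le_abs_self _).trans ((abs_ell_le t _).trans ((norm_inner_unit_le (B' - B) hv).trans hB1))
      have e3 := hD1 t _ ⟨v, hv, rfl⟩
      rw [e1, ell_add]
      linarith
    have hX : fc T E (fun l => l) = B' := by
      have := hP Polynomial.X
      rw [Polynomial.aeval_X] at this
      rw [this]
      unfold fc
      simp
    let A : Dat D V :=
      { T := T
        E := E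
        sum_one := hsum
        orth := horth
        mem := by
          intro l hl t
          obtain ⟨v, hv, hBv⟩ := hT l hl
          have := hnum v hv t
          rw [hBv, inner_smul_right, inner_self_eq_norm_sq_to_K, hv] at this
          simpa using this
        num := by
          intro v hv t
          rw [hX]
          exact (hnum v hv t).le }
    have hAf : A.f (fun z => P.eval z) = Polynomial.aeval B' P := (hP P).symm
    have hconv : Convex ℝ (nr B) := convex_numRange B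
    have hbd : ∀ w ∈ closure (nr B), ‖w‖ ≤ ‖B‖ ∧ ‖P.eval w‖ ≤ M := by
      have hcl : IsClosed {w : ℂ | ‖w‖ ≤ ‖B‖ ∧ ‖P.eval w‖ ≤ M} :=
        (isClosed_le continuous_norm continuous_const).inter
          (isClosed_le hPc.norm continuous_const)
      refine fun w hw => closure_minimal ?_ hcl hw
      rintro _ ⟨x, hx, rfl⟩
      exact ⟨norm_inner_unit_le B hx, hM x hx⟩
    have hOm : ∀ z ∈ D.Om, ‖P.eval z‖ ≤ M + η := by
      intro z hz
      obtain ⟨w, hw, hzw⟩ := exists_near (W := nr B) ⟨0, h0⟩ hconv (z := z) hε.le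
        (fun t c hc => (hz t).le.trans (hD2 t c hc))
      obtain ⟨hw1, hw2⟩ := hbd w hw
      have hz1 : z ∈ Metric.closedBall (0 : ℂ) (‖B‖ + 1) := by
        rw [mem_closedBall_zero_iff]
        calc ‖z‖ = ‖w + (z - w)‖ := by rw [add_sub_cancel]
          _ ≤ ‖w‖ + ‖z - w‖ := norm_add_le _ _
          _ ≤ ‖B‖ + 1 := by linarith
      have hw3 : w ∈ Metric.closedBall (0 : ℂ) (‖B‖ + 1) := by
        rw [mem_closedBall_zero_iff]; linarith
      have h4 := hδ' z hz1 w hw3 (by rw [dist_eq_norm]; exact hzw.trans hεδ)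
      rw [dist_eq_norm] at h4
      calc ‖P.eval z‖ = ‖P.eval w + (P.eval z - P.eval w)‖ := by rw [add_sub_cancel]
        _ ≤ ‖P.eval w‖ + ‖P.eval z - P.eval w‖ := norm_add_le _ _
        _ ≤ M + η := add_le_add hw2 h4
    have h5 := hmain D A P (M + η) hOm
    rw [hAf] at h5
    have h6 : ‖Polynomial.aeval B' P - Polynomial.aeval B P‖ < η := by
      have := hδ2' B' (by rw [mem_ball_iff_norm]; exact hB2)
      rwa [dist_eq_norm] at this
    calc ‖Polynomial.aeval B P‖ =
        ‖Polynomial.aeval B' P - (Polynomial.aeval B' P - Polynomial.aeval B P)‖ := by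
          rw [sub_sub_cancel]
      _ ≤ ‖Polynomial.aeval B' P‖ + ‖Polynomial.aeval B' P - Polynomial.aeval B P‖ :=
          norm_sub_le _ _
      _ ≤ C * (M + η) + η := add_le_add h5 h6.le
  refine le_of_forall_pos_le_add fun e he => ?_
  have h1 := key (e / (C + 1)) (by positivity)
  have h2 : C * (M + e / (C + 1)) + e / (C + 1) = C * M + e := by
    field_simp
    ring
  rw [h2] at h1
  exact h1

/-- assembly: the finite-dimensional smooth estimate implies the full one -/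
theorem final_of_dat (C : ℝ) (hC : 0 ≤ C)
    (hmain : ∀ (V : Type u) [NormedAddCommGroup V] [InnerProductSpace ℂ V]
      [FiniteDimensional ℂ V] [Nontrivial V] (D : SDom) (A : Dat D V) (P : Polynomial ℂ) (M : ℝ),
      (∀ z ∈ D.Om, ‖P.eval z‖ ≤ M) → ‖A.f (fun z => P.eval z)‖ ≤ C * M)
    (H : Type u) [NormedAddCommGroup H] [InnerProductSpace ℂ H] [Nontrivial H]
    (A : H →L[ℂ] H) (P : Polynomial ℂ) (M : ℝ)
    (hM : ∀ x : H, ‖x‖ = 1 → ‖P.eval (inner ℂ x (A x))‖ ≤ M) :
    ‖Polynomial.aeval A P‖ ≤ C * M := by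
  refine reduce_fin C ?_ H A P M hM
  intro V _ _ _ _ B P M hM
  obtain ⟨x0, hx0⟩ : ∃ x : V, ‖x‖ = 1 := by
    obtain ⟨y, hy⟩ := exists_ne (0 : V)
    refine ⟨((‖y‖⁻¹ : ℝ) : ℂ) • y, ?_⟩
    rw [norm_smul, Complex.norm_real, norm_inv, norm_norm,
      inv_mul_cancel₀ (norm_ne_zero_iff.2 hy)]
  obtain ⟨z0, hz0⟩ : ∃ z0 : ℂ, z0 = inner ℂ x0 (B x0) := ⟨_, rfl⟩
  have hinn : ∀ x : V, ‖x‖ = 1 →
      inner ℂ x ((B - z0 • (1 : V →L[ℂ] V)) x) = inner ℂ x (B x) - z0 := by
    intro x hx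
    rw [sub_apply, smul_apply, one_apply_eq_self, inner_sub_right, inner_smul_right,
      inner_self_eq_norm_sq_to_K, hx]
    simp
  have h1 : Polynomial.aeval (B - z0 • (1 : V →L[ℂ] V)) (P.comp (Polynomial.X + Polynomial.C z0)) =
      Polynomial.aeval B P := by
    rw [Polynomial.aeval_comp]
    congr 1
    simp [Algebra.algebraMap_eq_smul_one]
  rw [← h1]
  refine fin_zero C hC (fun D A P M h => hmain V D A P M h) (B - z0 • (1 : V →L[ℂ] V))
    (P.comp (Polynomial.X + Polynomial.C z0)) M ?_ ?_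
  · intro x hx
    rw [hinn x hx]
    simpa using hM x hx
  · exact ⟨x0, hx0, by rw [hinn x0 hx0, ← hz0, sub_self]⟩

end

end Vale.P123
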