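import Vale.Agent.P123.Pert

open scoped Real NNReal ComplexConjugate
open Set Filter Topology MeasureTheory

universe u

namespace Vale.P123

noncomputable section

variable {D : SDom} {V : Type u} [NormedAddCommGroup V] [InnerProductSpace ℂ V]

/-- norms of the functional calculus over the unit ball of `H^∞(Om)` -/
def Dat.normSet (A : Dat D V) : Set ℝ :=
  {r | ∃ u : ℂ → ℂ, DifferentiableOn ℂ u D.Om ∧ (∀ z ∈ D.Om, ‖u z‖ ≤ 1) ∧ r = ‖A.f u‖}

theorem Dat.normSet_nonempty (A : Dat D V) : A.normSet.Nonempty :=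
  ⟨‖A.f (fun _ => 0)‖, fun _ => 0, differentiableOn_const _, fun z _ => by simp, rfl⟩

theorem Dat.normSet_bddAbove (A : Dat D V) : BddAbove A.normSet := by
  refine ⟨1 * A.S, ?_⟩
  rintro r ⟨u, -, hu1, rfl⟩
  exact norm_fc_le u fun l hl => hu1 l (A.mem l hl)

theorem Dat.f_const_mul (A : Dat D V) (c : ℂ) (u : ℂ → ℂ) :
    A.f (fun z => c * u z) = c • A.f u := fc_const_mul c u

theorem Dat.norm_f_le_sSup (A : Dat D V) {v : ℂ → ℂ} (hv : DifferentiableOn ℂ v D.Om) {m : ℝ}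
    (hm : 0 < m) (hvm : ∀ z ∈ D.Om, ‖v z‖ ≤ m) : ‖A.f v‖ ≤ sSup A.normSet * m := by
  have h1 : ‖A.f (fun z => ((m⁻¹ : ℝ) : ℂ) * v z)‖ ≤ sSup A.normSet := by
    refine le_csSup A.normSet_bddAbove ⟨fun z => ((m⁻¹ : ℝ) : ℂ) * v z, hv.const_mul _, ?_, rfl⟩
    intro z hz
    rw [norm_mul, Complex.norm_real, Real.norm_of_nonneg (by positivity), inv_mul_le_iff₀ hm]
    simpa using hvm z hz
  rw [A.f_const_mul, norm_smul, Complex.norm_real, Real.norm_of_nonneg (by positivity),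
    inv_mul_le_iff₀ hm] at h1
  linarith

theorem Dat.tendsto_dilate (A : Dat D V) {u : ℂ → ℂ} (hu : DifferentiableOn ℂ u D.Om) :
    Tendsto (fun r : ℝ => ‖A.f (fun z => u ((r : ℂ) * z))‖) (𝓝[<] 1) (𝓝 ‖A.f u‖) := by
  refine Tendsto.norm ?_
  unfold Dat.f fc
  refine tendsto_finsetSum _ fun l hl => ?_
  refine Tendsto.smul ?_ tendsto_const_nhds
  have hlO := A.mem l hl
  have hc : ContinuousAt u l := (hu.differentiableAt (D.isOpen_Om.mem_nhds hlO)).continuousAt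
  have h1 : Tendsto (fun r : ℝ => (r : ℂ) * l) (𝓝 1) (𝓝 l) := by
    have h2 : Continuous (fun r : ℝ => (r : ℂ) * l) := by fun_prop
    have h3 := h2.tendsto 1
    simpa using h3
  exact (hc.tendsto.comp h1).mono_left nhdsWithin_le_nhds

theorem main_bound (K0 δ : ℝ) (hK0 : 2 ≤ K0) (hδ : 0 < δ) (hδ1 : δ ≤ 1)
    (htest : ∀ Kmax : ℝ, ∃ C : ℝ, 0 ≤ C ∧ ∀ (D : SDom) (f : ℂ → ℂ) (U : Set ℂ), IsOpen U →
      Convex ℝ U → D.cl ⊆ U → DifferentiableOn ℂ f U → (∀ z ∈ U, ‖f z‖ ≤ 1) →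
      ∀ k : ℝ, K0 ≤ k → k ≤ Kmax → Nonempty (Test D f k δ C))
    {V : Type u} [NormedAddCommGroup V] [InnerProductSpace ℂ V] [FiniteDimensional ℂ V]
    [Nontrivial V] {D : SDom} (A : Dat D V) {u : ℂ → ℂ} (hu : DifferentiableOn ℂ u D.Om)
    (hu1 : ∀ z ∈ D.Om, ‖u z‖ ≤ 1) : ‖A.f u‖ ≤ K0 := by
  have hle : ‖A.f u‖ ≤ sSup A.normSet := le_csSup A.normSet_bddAbove ⟨u, hu, hu1, rfl⟩
  refine hle.trans ?_
  by_contra hcon
  push Not at hcon
  set K := sSup A.normSet with hK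
  obtain ⟨C, hC, hT⟩ := htest K
  have hQ := A.Q_nonneg
  have hS := A.S_nonneg
  set B0 := (3 * (2 * A.Q) + 4 * (2 * A.Q) ^ 2) * A.S with hB0
  have hB0n : 0 ≤ B0 := by positivity
  set B := B0 + 20 * K with hB
  have hKpos : 0 < K := by linarith
  have hBn : 0 ≤ B := by positivity
  -- choose t
  obtain ⟨t, ht0, ht1, htC, htQ, htB⟩ : ∃ t : ℝ, 0 < t ∧ t ≤ 1 / 16 ∧ t * C ≤ 1 / 4 ∧
      t * (2 * A.Q) ≤ 1 ∧ t * B ≤ δ / 2 := by
    have p1 : (0:ℝ) < 1 / (4 * (C + 1)) := by positivity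
    have p2 : (0:ℝ) < 1 / (2 * A.Q + 1) := by positivity
    have p3 : (0:ℝ) < δ / (2 * (B + 1)) := by positivity
    refine ⟨min (1 / 16) (min (1 / (4 * (C + 1))) (min (1 / (2 * A.Q + 1)) (δ / (2 * (B + 1))))),
      ?_, min_le_left _ _, ?_, ?_, ?_⟩
    · exact lt_min (by norm_num) (lt_min p1 (lt_min p2 p3))
    · have h1 := (min_le_right (1 / 16 : ℝ) (min (1 / (4 * (C + 1)))
        (min (1 / (2 * A.Q + 1)) (δ / (2 * (B + 1)))))).trans (min_le_left _ _)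
      calc _ ≤ 1 / (4 * (C + 1)) * C := mul_le_mul_of_nonneg_right h1 hC
        _ ≤ 1 / 4 := by
          rw [div_mul_eq_mul_div, div_le_div_iff₀ (by positivity) (by norm_num)]; linarith
    · have h1 := ((min_le_right (1 / 16 : ℝ) (min (1 / (4 * (C + 1)))
        (min (1 / (2 * A.Q + 1)) (δ / (2 * (B + 1)))))).trans (min_le_right _ _)).trans
        (min_le_left _ _)
      calc _ ≤ 1 / (2 * A.Q + 1) * (2 * A.Q) := mul_le_mul_of_nonneg_right h1 (by positivity)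
        _ ≤ 1 := by
          rw [div_mul_eq_mul_div, div_le_one (by positivity)]; linarith
    · have h1 := ((min_le_right (1 / 16 : ℝ) (min (1 / (4 * (C + 1)))
        (min (1 / (2 * A.Q + 1)) (δ / (2 * (B + 1)))))).trans (min_le_right _ _)).trans
        (min_le_right _ _)
      calc _ ≤ δ / (2 * (B + 1)) * B := mul_le_mul_of_nonneg_right h1 hBn
        _ ≤ δ / 2 := by
          rw [div_mul_eq_mul_div, div_le_div_iff₀ (by positivity) (by norm_num)]; nlinarith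
  -- choose the almost extremal function
  set e1 := min (t * δ / 4) ((K - K0) / 2) with he1
  have he1pos : 0 < e1 := lt_min (by positivity) (by linarith)
  have he1a : e1 ≤ t * δ / 4 := min_le_left _ _
  have he1b : e1 ≤ (K - K0) / 2 := min_le_right _ _
  obtain ⟨_, ⟨w, hw, hw1, rfl⟩, hwK⟩ := exists_lt_of_lt_csSup A.normSet_nonempty
    (show K - e1 < sSup A.normSet by rw [← hK]; linarith)
  have hev1 := (A.tendsto_dilate hw).eventually (lt_mem_nhds hwK)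
  have hev2 : ∀ᶠ r : ℝ in 𝓝[<] 1, r ∈ Ioo (0:ℝ) 1 := Ioo_mem_nhdsLT (by norm_num)
  obtain ⟨r, hr1, hr2⟩ := (hev1.and hev2).exists
  set f : ℂ → ℂ := fun z => w ((r : ℂ) * z) with hf
  set k := ‖A.f f‖ with hk
  let U : Set ℂ := {z | (r : ℂ) * z ∈ D.Om}
  have hmulc : Continuous (fun z : ℂ => (r : ℂ) * z) := by fun_prop
  have hUo : IsOpen U := D.isOpen_Om.preimage hmulc
  have hUc : Convex ℝ U := by
    intro z hz v hv a b ha hb hab
    have h1 := D.convex_Om hz hv ha hb hab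
    have h2 : (r : ℂ) * (a • z + b • v) = a • ((r : ℂ) * z) + b • ((r : ℂ) * v) := by
      simp only [Complex.real_smul]; ring
    change (r : ℂ) * (a • z + b • v) ∈ D.Om
    rw [h2]; exact h1
  have hclU : D.cl ⊆ U := fun z hz => D.smul_mem_Om hz hr2.1.le hr2.2
  have hfU : DifferentiableOn ℂ f U := by
    refine hw.comp (differentiableOn_id.const_mul _) fun z hz => hz
  have hf1 : ∀ z ∈ U, ‖f z‖ ≤ 1 := fun z hz => hw1 _ hz
  have hfd : DifferentiableOn ℂ f D.Om := hfU.mono (D.Om_subset_cl.trans hclU)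
  have hfc : ContinuousOn f D.cl := hfU.continuousOn.mono hclU
  have hfcl : ∀ z ∈ D.cl, ‖f z‖ ≤ 1 := fun z hz => hf1 z (hclU hz)
  have hkK : k ≤ K := le_csSup A.normSet_bddAbove
    ⟨f, hfd, fun z hz => hfcl z (D.Om_subset_cl hz), rfl⟩
  have hkK0 : K0 ≤ k := by linarith
  have hk0 : 0 < k := by linarith
  obtain ⟨τ⟩ := hT D f U hUo hUc hclU hfU hf1 k hkK0 hkK
  obtain ⟨v, hvd, hvm, hvk⟩ := step A hfd hfc hfcl rfl (by linarith) hδ.le hδ1 hC τ ht0.le ht1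
    htC htQ
  have hm : 0 < 1 - t * ((1 + δ) / k) + 20 * t ^ 2 := by
    have h1 : (1 + δ) / k ≤ 1 := by rw [div_le_one hk0]; linarith
    have h2 : t * ((1 + δ) / k) ≤ 1 / 16 * 1 :=
      mul_le_mul ht1 h1 (by positivity) (by norm_num)
    have h3 : 0 ≤ 20 * t ^ 2 := by positivity
    linarith
  have hvK := A.norm_f_le_sSup hvd hm hvm
  rw [← hK] at hvK
  have h4 : (1 + δ) * t ≤ K * (t * ((1 + δ) / k)) := by
    have h5 : K * (t * ((1 + δ) / k)) = (1 + δ) * t * (K / k) := by ring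
    rw [h5]
    have h6 : 1 ≤ K / k := by rw [one_le_div hk0]; exact hkK
    exact le_mul_of_one_le_right (by positivity) h6
  have h7 : t * (t * B) ≤ t * (δ / 2) := mul_le_mul_of_nonneg_left htB ht0.le
  have h8 : 0 < t * δ := mul_pos ht0 hδ
  have h9 : t * (t * B) = t ^ 2 * B0 + 20 * K * t ^ 2 := by rw [hB]; ring
  have h10 : K - e1 < k := hr1
  have h11 : t ^ 2 * (3 * (2 * A.Q) + 4 * (2 * A.Q) ^ 2) * A.S = t ^ 2 * B0 := by rw [hB0]; ring
  have hvk' : k - t - t ^ 2 * B0 ≤ ‖A.f v‖ := by rw [← h11]; exact hvk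
  have h12 : K * (1 - t * ((1 + δ) / k) + 20 * t ^ 2) =
    K - K * (t * ((1 + δ) / k)) + 20 * K * t ^ 2 := by ring
  nlinarith

/-- polynomial form -/
theorem main_poly (K0 δ : ℝ) (hK0 : 2 ≤ K0) (hδ : 0 < δ) (hδ1 : δ ≤ 1)
    (htest : ∀ Kmax : ℝ, ∃ C : ℝ, 0 ≤ C ∧ ∀ (D : SDom) (f : ℂ → ℂ) (U : Set ℂ), IsOpen U →
      Convex ℝ U → D.cl ⊆ U → DifferentiableOn ℂ f U → (∀ z ∈ U, ‖f z‖ ≤ 1) →
      ∀ k : ℝ, K0 ≤ k → k ≤ Kmax → Nonempty (Test D f k δ C))
    {V : Type u} [NormedAddCommGroup V] [InnerProductSpace ℂ V] [FiniteDimensional ℂ V]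
    [Nontrivial V] {D : SDom} (A : Dat D V) (P : Polynomial ℂ) (M : ℝ)
    (hM : ∀ z ∈ D.Om, ‖P.eval z‖ ≤ M) : ‖A.f (fun z => P.eval z)‖ ≤ K0 * M := by
  have hM0 : 0 ≤ M := (norm_nonneg _).trans (hM 0 D.zero_mem_Om)
  rcases hM0.eq_or_lt with h0 | hpos
  · have h1 : A.f (fun z => P.eval z) = 0 := by
      have h2 : A.f (fun z => P.eval z) = A.f (fun z => (0 : ℂ) * (fun _ => (0:ℂ)) z) := by
        refine fc_congr fun l hl => ?_
        have h3 := hM l (A.mem l hl)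
        rw [← h0] at h3
        simpa using h3
      rw [h2, A.f_const_mul, zero_smul]
    rw [h1, norm_zero, ← h0, mul_zero]
  · have h1 := main_bound K0 δ hK0 hδ hδ1 htest A
      (u := fun z => ((M⁻¹ : ℝ) : ℂ) * P.eval z) (P.differentiable.differentiableOn.const_mul _)
      (fun z hz => by
        rw [norm_mul, Complex.norm_real, Real.norm_of_nonneg (by positivity),
          inv_mul_le_iff₀ hpos]
        simpa using hM z hz)
    rw [A.f_const_mul, norm_smul, Complex.norm_real, Real.norm_of_nonneg (by positivity),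
      inv_mul_le_iff₀ hpos] at h1
    linarith

end

end Vale.P123
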