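import Vale.Agent.P123.TestD
import Vale.Agent.P123.Ineq11
import Vale.Agent.P123.SupArg
import Vale.Agent.P123.Reduce

open scoped Real NNReal ComplexConjugate
open Set Filter Topology MeasureTheory

universe u

namespace Vale.P123

noncomputable section

theorem norm_sq_ri (w : ℂ) : ‖w‖ ^ 2 = w.re ^ 2 + w.im ^ 2 := by
  rw [← Complex.normSq_eq_norm_sq, Complex.normSq_apply]; ring

theorem ineq11 {k : ℝ} (hk : 7 / 3 ≤ k) {u v : ℂ} (hu : ‖u‖ ≤ 1) (hv : ‖v‖ ≤ 1) :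
    2 + 2 * (1 / 50 : ℝ) ≤ jj (19 / 20) (-(1 / 8)) (1 / 24) 0 k (conj u) ((conj u) ^ 2) +
      tt (19 / 20) (-(1 / 8)) (1 / 24) 0 k u v (v ^ 2) := by
  have hu2 : u.re ^ 2 + u.im ^ 2 ≤ 1 := by
    rw [← norm_sq_ri]; exact pow_le_one₀ (norm_nonneg _) hu
  have hv2 : v.re ^ 2 + v.im ^ 2 ≤ 1 := by
    rw [← norm_sq_ri]; exact pow_le_one₀ (norm_nonneg _) hv
  have h := ineq11_real hu2 hv2 hk
  unfold jj tt
  rw [norm_sq_ri, norm_sq_ri]
  simp only [Complex.add_re, Complex.mul_re, Complex.conj_re, Complex.conj_im, Complex.add_im,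
    Complex.mul_im, Complex.ofReal_re, Complex.ofReal_im, Complex.ofReal_zero, Complex.zero_re,
    Complex.zero_im, zero_mul, mul_zero, sub_zero, add_zero, zero_add, neg_mul, mul_neg, neg_neg]
  refine le_trans (le_trans (by norm_num) h) (le_of_eq ?_)
  ring

theorem crouzeix_seven_thirds (H : Type u) [NormedAddCommGroup H] [InnerProductSpace ℂ H]
    [Nontrivial H] (A : H →L[ℂ] H) (P : Polynomial ℂ) (M : ℝ)
    (hM : ∀ x : H, ‖x‖ = 1 → ‖P.eval (inner ℂ x (A x))‖ ≤ M) :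
    ‖Polynomial.aeval A P‖ ≤ 7 / 3 * M := by
  refine final_of_dat (7 / 3) (by norm_num) (fun V _ _ _ _ D A P M hPM => ?_) H A P M hM
  refine main_poly (7 / 3) (1 / 100) (by norm_num) (by norm_num) (by norm_num)
    (fun Kmax => ?_) A P M hPM
  refine ⟨4 * max Kmax 0 + 40, by positivity, fun D f U hU hUc hcl hf hf1 k hk hkm => ?_⟩
  have h := exists_test (D := D) hU hUc hcl hf hf1 (a0 := 19 / 20) (a1 := -(1 / 8)) (c1 := 1 / 24)
    (c2 := 0) (δ := 1 / 50) (k := k) (Kmax := max Kmax 0) (by norm_num [abs_of_nonneg]) (by norm_num)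
    (by linarith) (hkm.trans (le_max_left _ _)) (fun u v hu hv => ineq11 hk hu hv)
  have e : (1 / 50 : ℝ) / 2 = 1 / 100 := by norm_num
  rw [e] at h
  exact h

end

end Vale.P123
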