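import Vale.Agent.P123.Bdry

open scoped Real
open Set Filter Topology MeasureTheory

namespace Vale.P123

noncomputable section

namespace SDom

variable (D : SDom)

/-- the complex kernel -/
def kap (z : ℂ) (t : ℝ) : ℂ :=
  ((D.rho t / (2 * π) : ℝ) : ℂ) / ((D.p z t : ℂ) + Complex.I * (D.p1 z t : ℂ))

/-- the real kernel -/
def kk (z : ℂ) (t : ℝ) : ℝ := D.rho t / π * (D.p z t / (D.p z t ^ 2 + D.p1 z t ^ 2))

theorem re_inv (a b : ℝ) : ((((a:ℂ) + Complex.I * b))⁻¹).re = a / (a ^ 2 + b ^ 2) := by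
  rw [Complex.inv_re, Complex.normSq_apply]; simp [sq]

theorem two_re_kap (z : ℂ) (t : ℝ) : 2 * (D.kap z t).re = D.kk z t := by
  unfold kap kk
  rw [div_eq_mul_inv, Complex.re_ofReal_mul, re_inv]
  field_simp

theorem kap_add_conj (z : ℂ) (t : ℝ) : D.kap z t + (starRingEnd ℂ) (D.kap z t) = (D.kk z t : ℂ) := by
  rw [Complex.add_conj, ← two_re_kap]

theorem kk_nonneg {z : ℂ} (hz : z ∈ D.cl) (t : ℝ) : 0 ≤ D.kk z t := by
  unfold kk
  have := D.rho_pos' t
  have := D.p_nonneg hz t
  positivity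

theorem kap_per (z : ℂ) (t : ℝ) : D.kap z (t + 2 * π) = D.kap z t := by
  unfold kap; rw [p_per, p1_per]; congr 2; unfold rho; rw [D.per, D.per2]

theorem kk_per (z : ℂ) (t : ℝ) : D.kk z (t + 2 * π) = D.kk z t := by
  rw [← two_re_kap, ← two_re_kap, kap_per]

theorem kap_eq (z : ℂ) (t : ℝ) :
    D.kap z t * (D.sigma t - z) = ((D.rho t / (2 * π) : ℝ) : ℂ) * Complex.exp (Complex.I * t) ∨ D.sigma t = z := by
  by_cases h : D.sigma t = z
  · exact Or.inr h
  · left
    have h2 := D.sigma_sub z t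
    have h3 : ((D.p z t : ℂ) + Complex.I * (D.p1 z t : ℂ)) ≠ 0 := by
      intro h0; rw [h0, zero_mul] at h2; exact h (sub_eq_zero.1 h2)
    rw [h2]; unfold kap; field_simp

theorem kap_eq' {z : ℂ} {t : ℝ} (h : D.sigma t ≠ z) :
    D.kap z t = ((D.rho t / (2 * π) : ℝ) : ℂ) * Complex.exp (Complex.I * t) / (D.sigma t - z) := by
  rw [eq_div_iff (sub_ne_zero.2 h)]
  rcases D.kap_eq z t with h1 | h1
  · exact h1
  · exact absurd h1 h

theorem measurable_kap (z : ℂ) : Measurable (D.kap z) := by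
  unfold kap
  have h1 := D.continuous_rho.measurable
  have h2 := (D.continuous_p z).measurable
  have h3 := (D.continuous_p1 z).measurable
  fun_prop

theorem sigma_ne {z : ℂ} (hz : z ∈ D.Om) (t : ℝ) : D.sigma t ≠ z := by
  intro h
  have h2 := D.sigma_sub z t
  rw [h, sub_self] at h2
  rcases mul_eq_zero.1 h2.symm with h3 | h3
  · have := congrArg Complex.re h3
    simp at this
    exact (D.p_pos hz t).ne' this
  · exact Complex.exp_ne_zero _ h3

theorem den_ne {z : ℂ} {t : ℝ} (hp : 0 < D.p z t) :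
    ((D.p z t : ℂ) + Complex.I * (D.p1 z t : ℂ)) ≠ 0 := by
  intro h3
  have := congrArg Complex.re h3
  simp at this
  exact hp.ne' this

theorem continuous_kap {z : ℂ} (hz : z ∈ D.Om) : Continuous (D.kap z) := by
  unfold kap
  have h1 := D.continuous_rho
  have h2 := D.continuous_p z
  have h3 := D.continuous_p1 z
  refine Continuous.div (by fun_prop) (by fun_prop) fun t => D.den_ne (D.p_pos hz t)

theorem integral_kap {z : ℂ} (hz : z ∈ D.Om) : ∫ t in (0:ℝ)..(2 * π), D.kap z t = 1 := by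
  let q : ℝ → ℂ := fun t => (D.p z t : ℂ) + Complex.I * (D.p1 z t : ℂ)
  have hq : ∀ t, HasDerivAt q ((D.p1 z t : ℂ) + Complex.I * ((D.rho t - D.p z t : ℝ) : ℂ)) t := by
    intro t
    exact ((D.hasDerivAt_p z t).ofReal_comp).add (((D.hasDerivAt_p1 z t).ofReal_comp).const_mul Complex.I)
  let G : ℝ → ℂ := fun t => (1 / (2 * π) : ℂ) * ((t : ℂ) - Complex.I * Complex.log (q t))
  have hpi : (π : ℂ) ≠ 0 := by exact_mod_cast Real.pi_ne_zero
  have hG : ∀ t, HasDerivAt G (D.kap z t) t := by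
    intro t
    have hslit : q t ∈ Complex.slitPlane := by
      left; simpa [q] using D.p_pos hz t
    have h1 := (hq t).clog_real hslit
    have h2 : HasDerivAt (fun t : ℝ => (t : ℂ)) 1 t := Complex.ofRealCLM.hasDerivAt
    refine ((h2.sub (h1.const_mul Complex.I)).const_mul (1 / (2 * π) : ℂ)).congr_deriv ?_
    have hne : q t ≠ 0 := D.den_ne (D.p_pos hz t)
    have hkap : D.kap z t = ((D.rho t : ℂ) / (2 * π)) / q t := by
      unfold kap; push_cast; rfl
    rw [hkap]
    field_simp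
    simp only [q]
    push_cast
    linear_combination (-(D.rho t - D.p z t) : ℂ) * Complex.I_mul_I
  rw [intervalIntegral.integral_eq_sub_of_hasDerivAt (fun t _ => hG t)
    ((D.continuous_kap hz).intervalIntegrable _ _)]
  have hq2 : q (2 * π) = q 0 := by
    have h1 := D.p_per z 0
    have h2 := D.p1_per z 0
    rw [zero_add] at h1 h2
    simp only [q, h1, h2]
  simp only [G, hq2]
  field_simp
  push_cast
  ring

theorem continuous_kk_off {z : ℂ} {S : Set ℝ} (hS : ∀ t ∈ S, 0 < D.p z t) :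
    ContinuousOn (D.kk z) S := by
  unfold kk
  have h1 := D.continuous_rho
  have h2 := D.continuous_p z
  have h3 := D.continuous_p1 z
  refine ContinuousOn.mul (by fun_prop) (ContinuousOn.div (by fun_prop) (by fun_prop) fun t ht => ?_)
  have := hS t ht
  positivity

theorem integral_kk_eps {z : ℂ} (hz : z ∈ D.cl) {t0 : ℝ} (h0 : D.p z t0 = 0) {e : ℝ} (he : 0 < e)
    (he' : e ≤ 1) :
    IntervalIntegrable (fun s => D.kk z (t0 + s)) volume e (2 * π - e) ∧
    ∫ s in e..(2 * π - e), D.kk z (t0 + s) ≤ 1 := by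
  have hpi := Real.pi_gt_three
  have hpos : ∀ s ∈ uIcc e (2 * π - e), 0 < D.p z (t0 + s) := by
    intro s hs
    rw [uIcc_of_le (by linarith)] at hs
    exact D.p_pos_of_mem hz h0 (by linarith [hs.1]) (by linarith [hs.2])
  let A : ℝ → ℝ := fun s => (1 / π) * (s + Real.arctan (D.p1 z (t0 + s) / D.p z (t0 + s)))
  have hA : ∀ s ∈ uIcc e (2 * π - e), HasDerivAt A (D.kk z (t0 + s)) s := by
    intro s hs
    have hp := hpos s hs
    have h1 : HasDerivAt (fun s => D.p1 z (t0 + s)) (D.rho (t0 + s) - D.p z (t0 + s)) s :=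
      (D.hasDerivAt_p1 z (t0 + s)).comp_const_add t0 s
    have h2 : HasDerivAt (fun s => D.p z (t0 + s)) (D.p1 z (t0 + s)) s :=
      (D.hasDerivAt_p z (t0 + s)).comp_const_add t0 s
    have h3 := (h1.div h2 hp.ne').arctan
    refine (((hasDerivAt_id s).add h3).const_mul (1 / π)).congr_deriv ?_
    unfold kk
    have hpp : 0 < D.p z (t0 + s) ^ 2 + D.p1 z (t0 + s) ^ 2 := by positivity
    simp only [Pi.div_apply]
    field_simp
    ring
  have hint : IntervalIntegrable (fun s => D.kk z (t0 + s)) volume e (2 * π - e) := by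
    refine ContinuousOn.intervalIntegrable ?_
    have h1 : ContinuousOn (D.kk z) ((fun s => t0 + s) '' (uIcc e (2 * π - e))) := by
      refine D.continuous_kk_off ?_
      rintro _ ⟨s, hs, rfl⟩
      exact hpos s hs
    exact h1.comp (by fun_prop) (mapsTo_image _ _)
  refine ⟨hint, ?_⟩
  rw [intervalIntegral.integral_eq_sub_of_hasDerivAt hA hint]
  have hmem1 : e ∈ uIcc e (2 * π - e) := left_mem_uIcc
  have hmem2 : (2 * π - e) ∈ uIcc e (2 * π - e) := right_mem_uIcc
  have hp1 := hpos _ hmem1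
  have hp2 := hpos _ hmem2
  -- left end
  have hL : π / 2 - e ≤ Real.arctan (D.p1 z (t0 + e) / D.p z (t0 + e)) := by
    have h1 := D.aux_pos_right h0 he (by linarith)
    unfold aux at h1
    have hs : 0 < Real.sin e := Real.sin_pos_of_pos_of_lt_pi he (by linarith)
    have h2 : Real.tan (π / 2 - e) ≤ D.p1 z (t0 + e) / D.p z (t0 + e) := by
      rw [Real.tan_pi_div_two_sub, Real.tan_eq_sin_div_cos, inv_div, div_le_div_iff₀ hs hp1]
      linarith
    calc π / 2 - e = Real.arctan (Real.tan (π / 2 - e)) := by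
            rw [Real.arctan_tan (by linarith) (by linarith)]
      _ ≤ _ := Real.arctan_le_arctan_iff.2 h2
  have hR : Real.arctan (D.p1 z (t0 + (2 * π - e)) / D.p z (t0 + (2 * π - e))) ≤ -(π / 2 - e) := by
    have h1 := D.aux_pos_left h0 (s := -e) (by linarith) (by linarith)
    unfold aux at h1
    have e1 : D.p1 z (t0 + -e) = D.p1 z (t0 + (2 * π - e)) := by
      rw [← D.p1_per]; congr 1; ring
    have e2 : D.p z (t0 + -e) = D.p z (t0 + (2 * π - e)) := by
      rw [← D.p_per]; congr 1; ring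
    rw [e1, e2, Real.sin_neg, Real.cos_neg] at h1
    have hs : 0 < Real.sin e := Real.sin_pos_of_pos_of_lt_pi he (by linarith)
    have h2 : D.p1 z (t0 + (2 * π - e)) / D.p z (t0 + (2 * π - e)) ≤ Real.tan (-(π / 2 - e)) := by
      rw [Real.tan_neg, Real.tan_pi_div_two_sub, Real.tan_eq_sin_div_cos, inv_div, ← neg_div,
        div_le_div_iff₀ hp2 hs]
      linarith
    calc _ ≤ Real.arctan (Real.tan (-(π / 2 - e))) := Real.arctan_le_arctan_iff.2 h2
      _ = _ := by rw [Real.arctan_tan (by linarith) (by linarith)]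
  simp only [A]
  rw [← mul_sub, one_div, inv_mul_le_iff₀ Real.pi_pos]
  linarith

theorem integrable_kk_shift {z : ℂ} (hz : z ∈ D.cl) {t0 : ℝ} (h0 : D.p z t0 = 0) :
    IntegrableOn (fun s => D.kk z (t0 + s)) (Ioc 0 (2 * π)) ∧
    ∫ s in Ioc 0 (2 * π), D.kk z (t0 + s) ≤ 1 := by
  have hpi := Real.pi_gt_three
  let e : ℕ → ℝ := fun n => 1 / ((n : ℝ) + 1)
  have he0 : ∀ n, 0 < e n := fun n => by positivity
  have he1 : ∀ n, e n ≤ 1 := fun n => by
    simp only [e]
    rw [div_le_one (by positivity)]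
    linarith [(Nat.cast_nonneg n : (0:ℝ) ≤ n)]
  have hlim : Tendsto e atTop (𝓝 0) := tendsto_one_div_add_atTop_nhds_zero_nat
  have hlim2 : Tendsto (fun n => 2 * π - e n) atTop (𝓝 (2 * π)) := by
    simpa using hlim.const_sub (2 * π)
  have hI : ∀ n, IntegrableOn (fun s => D.kk z (t0 + s)) (Ioc (e n) (2 * π - e n)) := fun n =>
    (D.integral_kk_eps hz h0 (he0 n) (he1 n)).1.1
  have hle : ∀ n, ∫ s in Ioc (e n) (2 * π - e n), D.kk z (t0 + s) ≤ 1 := fun n => by
    have := (D.integral_kk_eps hz h0 (he0 n) (he1 n)).2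
    rwa [intervalIntegral.integral_of_le (by linarith [he1 n])] at this
  have hint : IntegrableOn (fun s => D.kk z (t0 + s)) (Ioc 0 (2 * π)) := by
    refine integrableOn_Ioc_of_intervalIntegral_norm_bounded (I := 1) hI hlim hlim2
      (Eventually.of_forall fun n => ?_)
    refine le_trans (le_of_eq ?_) (hle n)
    refine setIntegral_congr_fun measurableSet_Ioc fun s _ => ?_
    exact Real.norm_of_nonneg (D.kk_nonneg hz _)
  refine ⟨hint, ?_⟩
  have hcov := aecover_Ioc_of_Ioc (μ := volume) hlim hlim2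
  have hten := hcov.integral_tendsto_of_countably_generated hint
  refine le_of_tendsto hten (Eventually.of_forall fun n => ?_)
  rw [Measure.restrict_restrict measurableSet_Ioc]
  have : Ioc (e n) (2 * π - e n) ∩ Ioc 0 (2 * π) = Ioc (e n) (2 * π - e n) := by
    refine inter_eq_left.2 (Ioc_subset_Ioc (he0 n).le (by linarith [he0 n]))
  rw [this]
  exact hle n

theorem kk_bdry {z : ℂ} (hz : z ∈ D.cl) (hz' : z ∉ D.Om) :
    IntervalIntegrable (D.kk z) volume 0 (2 * π) ∧ ∫ t in (0:ℝ)..(2 * π), D.kk z t ≤ 1 := by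
  have hpi := Real.pi_gt_three
  obtain ⟨t0, h0, -⟩ := D.exists_of_frontier hz hz'
  obtain ⟨h1, h2⟩ := D.integrable_kk_shift hz h0
  have hper : Function.Periodic (D.kk z) (2 * π) := D.kk_per z
  have h3 : IntervalIntegrable (fun s => D.kk z (t0 + s)) volume 0 (2 * π) := by
    rw [intervalIntegrable_iff_integrableOn_Ioc_of_le (by linarith)]; exact h1
  have h4 : IntervalIntegrable (D.kk z) volume t0 (t0 + 2 * π) := by
    have := h3.comp_sub_right t0
    simpa [add_comm] using this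
  refine ⟨hper.intervalIntegrable (by linarith) h4 0 (2 * π), ?_⟩
  have h5 := hper.intervalIntegral_add_eq t0 0
  rw [zero_add] at h5
  rw [← h5]
  have h6 : ∫ s in (0:ℝ)..(2 * π), D.kk z (t0 + s) = ∫ t in t0..(t0 + 2 * π), D.kk z t := by
    rw [intervalIntegral.integral_comp_add_left (fun t => D.kk z t)]; simp
  rw [← h6, intervalIntegral.integral_of_le (by linarith)]
  exact h2

end SDom

end

end Vale.P123
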