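import Vale.Agent.P123.Toep
import Vale.Agent.P123.Reduce

open scoped Real NNReal ComplexConjugate
open Set Filter Topology MeasureTheory

universe u

namespace Vale.P123

noncomputable section

variable {V : Type u} [NormedAddCommGroup V] [InnerProductSpace ℂ V] {D : SDom}

namespace Dat

variable (A : Dat D V)

/-- the conjugate transform of the powers -/
def cc (g : ℂ → ℂ) (k : ℕ) : V →L[ℂ] V := A.f (D.CT (fun z => conj (g z) ^ k))

theorem cc_comm (g : ℂ → ℂ) (k : ℕ) (v : V) : A.cc g k (A.f g v) = A.f g (A.cc g k v) := by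
  unfold cc
  rw [← mul_apply_eq_comp, ← mul_apply_eq_comp, A.f_mul, A.f_mul]
  have : A.f (fun l => D.CT (fun z => conj (g z) ^ k) l * g l) =
      A.f (fun l => g l * D.CT (fun z => conj (g z) ^ k) l) := fc_congr fun l _ => mul_comm _ _
  rw [this]

/-- upper bound for the numerical range of `A_k T ^ k` -/
theorem re_cc_le {g : ℂ → ℂ} (hg : Differentiable ℂ g) (hg1 : ∀ z ∈ D.cl, ‖g z‖ ≤ 1) (k : ℕ) (v : V) :
    (inner ℂ v (A.cc g (k + 1) ((A.f g ^ (k + 1)) v))).re ≤ ‖v‖ ^ 2 := by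
  have h := A.toep (g := fun z => g z ^ (k + 1)) (hg.pow _)
    (fun z hz => by rw [norm_pow]; exact pow_le_one₀ (norm_nonneg _) (hg1 z hz))
    (fun n => if n = 0 then v else -((A.f g ^ (k + 1)) v)) 2
  rw [Finset.sum_range_succ, Finset.sum_range_one, Finset.sum_range_zero, Finset.sum_range_one] at h
  simp only [one_ne_zero, if_false, if_true, Nat.sub_zero, pow_one, add_zero] at h
  rw [← A.f_pow] at h
  have e1 : D.CT (fun z => conj (g z ^ (k + 1))) = D.CT (fun z => conj (g z) ^ (k + 1)) := by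
    congr 1; funext z; exact map_pow _ _ _
  rw [e1] at h
  have e2 : A.f (D.CT (fun z => conj (g z) ^ (k + 1))) = A.cc g (k + 1) := rfl
  rw [e2, map_neg, inner_neg_neg, inner_neg_left, inner_neg_right, Complex.add_re, Complex.add_re,
    Complex.add_re, Complex.neg_re, Complex.neg_re] at h
  have e3 : (inner ℂ v v).re = ‖v‖ ^ 2 := by
    rw [inner_self_eq_norm_sq_to_K]; norm_cast
  rw [e3] at h
  linarith

theorem norm_f_le_two [FiniteDimensional ℂ V] [Nontrivial V] {g : ℂ → ℂ} (hg : Differentiable ℂ g)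
    (hg1 : ∀ z ∈ D.cl, ‖g z‖ ≤ 1) : ‖A.f g‖ ≤ 2 := by
  rcases (norm_nonneg (A.f g)).eq_or_lt with h0 | hpos
  · rw [← h0]; norm_num
  obtain ⟨x, y, hx1, hy1, hTy, hTx⟩ := exists_extremal (A.f g) hpos
  set T := A.f g with hT
  set K := ‖T‖ with hK
  have hKy : ∀ w, inner ℂ (T y) (T w) = ((K ^ 2 : ℝ) : ℂ) * inner ℂ y w := by
    intro w
    rw [hTy, inner_smul_left, ← ContinuousLinearMap.adjoint_inner_left, hTx, inner_smul_left,
      Complex.conj_ofReal]
    push_cast; ring
  have hsq : ∀ v : V, (inner ℂ v v).re = ‖v‖ ^ 2 := fun v => by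
    rw [inner_self_eq_norm_sq_to_K]; norm_cast
  have hTn : ∀ n, ‖T ^ n‖ ≤ A.S := fun n => by
    rw [hT, A.f_pow]
    refine (norm_fc_le (m := 1) _ fun l hl => ?_).trans (by rw [one_mul]; exact le_rfl)
    rw [norm_pow]
    exact pow_le_one₀ (norm_nonneg _) (hg1 l (D.Om_subset_cl (A.mem l hl)))
  have hAn : ∀ n, ‖A.cc g n‖ ≤ (4 * A.Q) * A.S := fun n => by
    refine norm_fc_le _ fun l hl => ?_
    refine A.CT_le (W := fun z => conj (g z) ^ n)
      ((Complex.continuous_conj.comp hg.continuous).pow n).continuousOn (fun z hz => ?_) hl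
    rw [norm_pow, RCLike.norm_conj]
    exact (pow_le_one₀ (norm_nonneg _) (hg1 z hz)).trans (by norm_num)
  have hQ := A.Q_nonneg
  have hS := A.S_nonneg
  refine seq_final (K := K) (G := fun n => ‖(T ^ n) y‖ ^ 2)
    (s := fun k m => (inner ℂ ((T ^ m) y) (A.cc g k ((T ^ k) ((T ^ m) y)))).re)
    (C := (4 * A.Q) * A.S * A.S) ?_ ?_ ?_ ?_ ?_ ?_ ?_
  · simp [hy1]
  · simp only [pow_one]
    rw [hTy, norm_smul, hx1, Complex.norm_real, Real.norm_of_nonneg hpos.le, mul_one]
  · intro n; positivity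
  · intro k m
    exact A.re_cc_le hg hg1 k _
  · intro k
    simp only [pow_one, pow_zero, one_apply_eq_self]
    have e1 : A.cc g k ((T ^ k) (T y)) = T (A.cc g k ((T ^ k) y)) := by
      have e2 : (T ^ k) (T y) = T ((T ^ k) y) := by
        rw [← mul_apply_eq_comp, ← mul_apply_eq_comp, ← pow_succ, ← pow_succ']
      rw [e2, hT, A.cc_comm]
    rw [e1, hKy, Complex.re_ofReal_mul]
  · intro k
    simp only [pow_zero, one_apply_eq_self]
    refine (Complex.abs_re_le_norm _).trans ((norm_inner_le_norm _ _).trans ?_)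
    rw [hy1, one_mul]
    calc ‖A.cc g k ((T ^ k) y)‖ ≤ ‖A.cc g k‖ * ‖(T ^ k) y‖ := ContinuousLinearMap.le_opNorm _ _
      _ ≤ (4 * A.Q * A.S) * (‖T ^ k‖ * ‖y‖) :=
        mul_le_mul (hAn k) (ContinuousLinearMap.le_opNorm _ _) (norm_nonneg _) (by positivity)
      _ ≤ (4 * A.Q * A.S) * (A.S * 1) := by
        rw [hy1]
        exact mul_le_mul_of_nonneg_left (mul_le_mul_of_nonneg_right (hTn k) zero_le_one) (by positivity)
      _ = 4 * A.Q * A.S * A.S := by ring
  · intro N
    have h := A.toep hg hg1 (fun n => ((dd K n : ℝ) : ℂ) • (T ^ n) y) N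
    rw [Complex.re_sum] at h
    refine le_trans h (le_of_eq ?_)
    refine Finset.sum_congr rfl fun n _ => ?_
    rw [Complex.add_re, Complex.re_sum]
    congr 1
    · rw [inner_smul_left, inner_smul_right, Complex.conj_ofReal, Complex.re_ofReal_mul,
        Complex.re_ofReal_mul, hsq]
      ring
    · refine Finset.sum_congr rfl fun m hm => ?_
      have hmn := Finset.mem_range.1 hm
      have e1 : (T ^ n) y = (T ^ (n - m)) ((T ^ m) y) := by
        rw [← mul_apply_eq_comp, ← pow_add, Nat.sub_add_cancel hmn.le]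
      have e2 : (inner ℂ (((dd K n : ℝ) : ℂ) • (T ^ n) y) ((A.f g ^ (n - m)) (((dd K m : ℝ) : ℂ) • (T ^ m) y))).re =
          dd K n * dd K m * ‖(T ^ n) y‖ ^ 2 := by
        rw [map_smul, ← hT, ← e1, inner_smul_left, inner_smul_right, Complex.conj_ofReal,
          Complex.re_ofReal_mul, Complex.re_ofReal_mul, hsq]
        ring
      have e3 : (inner ℂ (((dd K m : ℝ) : ℂ) • (T ^ m) y)
          (A.f (D.CT (fun z => conj (g z) ^ (n - m))) (((dd K n : ℝ) : ℂ) • (T ^ n) y))).re =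
          dd K n * dd K m * (inner ℂ ((T ^ m) y) (A.cc g (n - m) ((T ^ (n - m)) ((T ^ m) y)))).re := by
        rw [map_smul, e1, inner_smul_left, inner_smul_right, Complex.conj_ofReal,
          Complex.re_ofReal_mul, Complex.re_ofReal_mul]
        unfold cc
        ring
      rw [Complex.add_re, e2, e3]
      ring

/-- polynomial form -/
theorem norm_poly_le_two [FiniteDimensional ℂ V] [Nontrivial V] (P : Polynomial ℂ) (M : ℝ)
    (hM : ∀ z ∈ D.Om, ‖P.eval z‖ ≤ M) : ‖A.f (fun z => P.eval z)‖ ≤ 2 * M := by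
  have hM0 : 0 ≤ M := (norm_nonneg _).trans (hM 0 D.zero_mem_Om)
  have hcl : ∀ z ∈ D.cl, ‖P.eval z‖ ≤ M := by
    intro z hz
    have hcs : IsClosed {w : ℂ | ‖P.eval w‖ ≤ M} := isClosed_le P.continuous.norm continuous_const
    exact closure_minimal (fun w hw => hM w hw) hcs (D.cl_subset_closure hz)
  refine le_of_forall_pos_le_add fun e he => ?_
  have hMe : 0 < M + e / 2 := by positivity
  have h1 := A.norm_f_le_two (g := fun z => ((M + e / 2 : ℝ) : ℂ)⁻¹ * P.eval z)
    (P.differentiable.const_mul _) (fun z hz => by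
      rw [norm_mul, norm_inv, Complex.norm_real, Real.norm_of_nonneg hMe.le, inv_mul_le_iff₀ hMe,
        mul_one]
      linarith [hcl z hz])
  have h2 : A.f (fun z => ((M + e / 2 : ℝ) : ℂ)⁻¹ * P.eval z) =
      ((M + e / 2 : ℝ) : ℂ)⁻¹ • A.f (fun z => P.eval z) := fc_const_mul _ _
  rw [h2, norm_smul, norm_inv, Complex.norm_real, Real.norm_of_nonneg hMe.le,
    inv_mul_le_iff₀ hMe] at h1
  linarith

end Dat

/-- Crouzeix's conjecture -/
theorem crouzeix_two (H : Type u) [NormedAddCommGroup H] [InnerProductSpace ℂ H]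
    [Nontrivial H] (A : H →L[ℂ] H) (P : Polynomial ℂ) (M : ℝ)
    (hM : ∀ x : H, ‖x‖ = 1 → ‖P.eval (inner ℂ x (A x))‖ ≤ M) :
    ‖Polynomial.aeval A P‖ ≤ 2 * M :=
  final_of_dat 2 (by norm_num) (fun _ _ _ _ _ _ A P M hPM => A.norm_poly_le_two P M hPM) H A P M hM

end

end Vale.P123
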