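import Vale.Agent.P123.Cauchy

open scoped Real NNReal ComplexConjugate
open Set Filter Topology MeasureTheory

universe u

namespace Vale.P123

noncomputable section

variable {V : Type u} [NormedAddCommGroup V] [InnerProductSpace ℂ V]

/-- functional calculus `∑ f(l) E_l` -/
def fc (T : Finset ℂ) (E : ℂ → V →L[ℂ] V) (f : ℂ → ℂ) : V →L[ℂ] V := ∑ l ∈ T, f l • E l

section fc

variable {T : Finset ℂ} {E : ℂ → V →L[ℂ] V}

theorem fc_congr {f g : ℂ → ℂ} (h : ∀ l ∈ T, f l = g l) : fc T E f = fc T E g :=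
  Finset.sum_congr rfl fun l hl => by rw [h l hl]

theorem fc_add (f g : ℂ → ℂ) : fc T E (fun l => f l + g l) = fc T E f + fc T E g := by
  unfold fc; rw [← Finset.sum_add_distrib]; exact Finset.sum_congr rfl fun l _ => add_smul _ _ _

theorem fc_sub (f g : ℂ → ℂ) : fc T E (fun l => f l - g l) = fc T E f - fc T E g := by
  unfold fc; rw [← Finset.sum_sub_distrib]; exact Finset.sum_congr rfl fun l _ => sub_smul _ _ _

theorem fc_const_mul (c : ℂ) (f : ℂ → ℂ) : fc T E (fun l => c * f l) = c • fc T E f := by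
  unfold fc; rw [Finset.smul_sum]; exact Finset.sum_congr rfl fun l _ => mul_smul _ _ _

theorem fc_const (h1 : ∑ l ∈ T, E l = 1) (c : ℂ) : fc T E (fun _ => c) = c • 1 := by
  unfold fc; rw [← Finset.smul_sum, h1]

theorem fc_mul (h2 : ∀ l ∈ T, ∀ m ∈ T, E l * E m = if l = m then E l else 0) (f g : ℂ → ℂ) :
    fc T E f * fc T E g = fc T E (fun l => f l * g l) := by
  unfold fc
  rw [Finset.sum_mul]
  refine Finset.sum_congr rfl fun l hl => ?_
  rw [Finset.mul_sum, Finset.sum_eq_single_of_mem l hl]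
  · rw [smul_mul_smul_comm, h2 l hl l hl, if_pos rfl]
  · intro m hm hne
    rw [smul_mul_smul_comm, h2 l hl m hm, if_neg hne.symm, smul_zero]

theorem inner_fc (f : ℂ → ℂ) (x y : V) :
    inner ℂ x (fc T E f y) = ∑ l ∈ T, f l * inner ℂ x (E l y) := by
  unfold fc
  rw [sum_apply, inner_sum]
  refine Finset.sum_congr rfl fun l _ => ?_
  rw [smul_apply, inner_smul_right]

theorem norm_fc_le (f : ℂ → ℂ) {m : ℝ} (hm : ∀ l ∈ T, ‖f l‖ ≤ m) :
    ‖fc T E f‖ ≤ m * ∑ l ∈ T, ‖E l‖ := by
  unfold fc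
  refine (norm_sum_le _ _).trans ?_
  rw [Finset.mul_sum]
  refine Finset.sum_le_sum fun l hl => ?_
  rw [norm_smul]
  exact mul_le_mul_of_nonneg_right (hm l hl) (norm_nonneg _)

end fc

/-- data of a diagonal operator with spectrum in `Om` and numerical range in `cl` -/
structure Dat (D : SDom) (V : Type u) [NormedAddCommGroup V] [InnerProductSpace ℂ V] where
  T : Finset ℂ
  E : ℂ → V →L[ℂ] V
  sum_one : ∑ l ∈ T, E l = 1
  orth : ∀ l ∈ T, ∀ m ∈ T, E l * E m = if l = m then E l else 0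
  mem : ∀ l ∈ T, l ∈ D.Om
  num : ∀ v : V, ‖v‖ = 1 → ∀ t, ell t (inner ℂ v (fc T E (fun l => l) v)) ≤ D.h t

variable {D : SDom}

namespace Dat

variable (A : Dat D V)

/-- functional calculus of the data -/
def f (u : ℂ → ℂ) : V →L[ℂ] V := fc A.T A.E u

theorem f_mul (u v : ℂ → ℂ) : A.f u * A.f v = A.f (fun l => u l * v l) := fc_mul A.orth u v

theorem f_one : A.f (fun _ => 1) = 1 := by
  unfold f; rw [fc_const A.sum_one, one_smul]

theorem num' (v : V) (t : ℝ) : ell t (inner ℂ v (A.f (fun l => l) v)) ≤ D.h t * ‖v‖ ^ 2 := by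
  by_cases hv : v = 0
  · subst hv; simp [ell]
  · have hn : 0 < ‖v‖ := norm_pos_iff.2 hv
    have h1 := A.num ((‖v‖⁻¹ : ℂ) • v) (by
      rw [norm_smul]; simp [hn.ne']) t
    have h2 : inner ℂ ((‖v‖⁻¹ : ℂ) • v) (fc A.T A.E (fun l => l) ((‖v‖⁻¹ : ℂ) • v)) =
        (((‖v‖⁻¹ : ℝ) ^ 2 : ℝ) : ℂ) * inner ℂ v (A.f (fun l => l) v) := by
      rw [map_smul, inner_smul_left, inner_smul_right]
      simp only [f, map_inv₀, Complex.conj_ofReal]
      push_cast; ring
    rw [h2, ell_smul, inv_pow, inv_mul_le_iff₀ (by positivity)] at h1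
    linarith

/-- the operator kernel -/
def K (t : ℝ) : V →L[ℂ] V := A.f (fun l => D.kap l t)

theorem K_pos (t : ℝ) (v : V) : 0 ≤ (inner ℂ v (A.K t v)).re := by
  -- C = e^{-it}(sigma - B), R = its inverse
  let c : ℂ → ℂ := fun l => (D.p l t : ℂ) + Complex.I * (D.p1 l t : ℂ)
  have hc : ∀ l ∈ A.T, c l ≠ 0 := fun l hl => D.den_ne (D.p_pos (A.mem l hl) t)
  let R := A.f (fun l => (c l)⁻¹)
  have hCR : A.f c * R = 1 := by
    rw [A.f_mul, ← A.f_one]
    exact fc_congr fun l hl => mul_inv_cancel₀ (hc l hl)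
  have hCpos : ∀ w : V, 0 ≤ (inner ℂ w (A.f c w)).re := by
    intro w
    have h1 : A.f c = (((D.h t : ℂ) + Complex.I * (D.h1 t : ℂ)) • (1 : V →L[ℂ] V)) -
        Complex.exp (-(Complex.I * t)) • A.f (fun l => l) := by
      have : A.f c = A.f (fun l => ((D.h t : ℂ) + Complex.I * (D.h1 t : ℂ)) -
          Complex.exp (-(Complex.I * t)) * l) := by
        refine fc_congr fun l _ => ?_
        have h2 : ((ell t l : ℂ) + Complex.I * (ell' t l : ℂ)) = Complex.exp (-(Complex.I * t)) * l := by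
          rw [ell_eq, ell'_eq]
          conv_rhs => rw [← Complex.re_add_im (Complex.exp (-(Complex.I * t)) * l)]
          ring
        rw [← h2]
        simp only [c, SDom.p, SDom.p1]
        push_cast; ring
      rw [this]
      unfold f
      rw [fc_sub, fc_const A.sum_one, fc_const_mul]
    rw [h1, sub_apply, inner_sub_right, smul_apply,
      smul_apply, inner_smul_right, inner_smul_right,
      one_apply_eq_self, inner_self_eq_norm_sq_to_K, Complex.sub_re, ← ell_eq]
    have h2 : (((D.h t : ℂ) + Complex.I * (D.h1 t : ℂ)) * ((‖w‖ : ℝ) : ℂ) ^ 2).re = D.h t * ‖w‖ ^ 2 := by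
      rw [show (((D.h t : ℂ) + Complex.I * (D.h1 t : ℂ)) * ((‖w‖ : ℝ) : ℂ) ^ 2) =
        ((‖w‖ ^ 2 : ℝ) : ℂ) * ((D.h t : ℂ) + Complex.I * (D.h1 t : ℂ)) by push_cast; ring,
        Complex.re_ofReal_mul]
      simp; ring
    have h3 := A.num' w t
    have h4 : (((D.h t : ℂ) + Complex.I * (D.h1 t : ℂ)) * ((RCLike.ofReal ‖w‖ : ℂ)) ^ 2).re = D.h t * ‖w‖ ^ 2 := h2
    rw [h4]
    linarith
  have hK : A.K t = ((D.rho t / (2 * π) : ℝ) : ℂ) • R := by
    unfold K
    rw [show R = fc A.T A.E (fun l => (c l)⁻¹) from rfl, ← fc_const_mul]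
    refine fc_congr fun l _ => ?_
    unfold SDom.kap; rw [div_eq_mul_inv]
  have hv : v = A.f c (R v) := by
    have := congrArg (fun S : V →L[ℂ] V => S v) hCR
    simpa using this.symm
  rw [hK, smul_apply, inner_smul_right, Complex.re_ofReal_mul]
  refine mul_nonneg (by have := D.rho_pos' t; positivity) ?_
  conv_rhs => rw [hv]
  rw [← hv]
  have h5 : (inner ℂ v (R v)).re = (inner ℂ (R v) (A.f c (R v))).re := by
    conv_lhs => rw [hv]
    rw [← hv, ← inner_conj_symm, Complex.conj_re]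
  rw [h5]
  exact hCpos _

theorem inner_f (u : ℂ → ℂ) (x y : V) :
    inner ℂ x (A.f u y) = ∑ l ∈ A.T, u l * inner ℂ x (A.E l y) := inner_fc u x y

theorem integral_K {W : ℂ → ℂ} (hW : ContinuousOn W D.cl) (x y : V) :
    IntervalIntegrable (fun t => W (D.sigma t) * inner ℂ x (A.K t y)) volume 0 (2 * π) ∧
    ∫ t in (0:ℝ)..(2 * π), W (D.sigma t) * inner ℂ x (A.K t y) = inner ℂ x (A.f (D.CT W) y) := by
  have hWs : Continuous (fun t => W (D.sigma t)) :=
    hW.comp_continuous D.continuous_sigma D.sigma_mem_cl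
  have h1 : ∀ t, W (D.sigma t) * inner ℂ x (A.K t y) =
      ∑ l ∈ A.T, (W (D.sigma t) * D.kap l t) * inner ℂ x (A.E l y) := by
    intro t
    unfold K
    rw [A.inner_f, Finset.mul_sum]
    exact Finset.sum_congr rfl fun l _ => by ring
  have hI : ∀ l ∈ A.T, IntervalIntegrable
      (fun t => (W (D.sigma t) * D.kap l t) * inner ℂ x (A.E l y)) volume 0 (2 * π) := by
    intro l hl
    have := D.continuous_kap (A.mem l hl)
    exact ((hWs.mul this).mul continuous_const).intervalIntegrable _ _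
  simp_rw [h1]
  constructor
  · have := IntervalIntegrable.sum A.T hI
    refine (intervalIntegrable_congr fun t _ => ?_).1 this
    simp
  · rw [intervalIntegral.integral_finsetSum hI, A.inner_f]
    refine Finset.sum_congr rfl fun l hl => ?_
    rw [intervalIntegral.integral_mul_const, D.CT_eq hW (A.mem l hl)]

theorem f_CT_one : A.f (D.CT (fun _ => 1)) = 1 := by
  rw [← A.f_one]
  refine fc_congr fun l hl => ?_
  rw [D.CT_eq continuousOn_const (A.mem l hl)]
  simp [D.integral_kap (A.mem l hl)]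

/-- the main operator inequality -/
theorem main_ineq {F : ℂ → ℂ} (hF : ContinuousOn F D.cl) {x y : V} (hy : ‖y‖ = 1) :
    (inner ℂ x (A.f (D.CT F) y)).re + (inner ℂ y (A.f (D.CT (fun z => conj (F z))) x)).re -
      (inner ℂ x (A.f (D.CT (fun z => conj (F z) * F z)) x)).re ≤ 1 := by
  have hFc : ContinuousOn (fun z => conj (F z)) D.cl := Complex.continuous_conj.comp_continuousOn hF
  have hFF : ContinuousOn (fun z => conj (F z) * F z) D.cl := hFc.mul hF
  obtain ⟨i1, e1⟩ := A.integral_K (W := fun _ => 1) continuousOn_const y y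
  obtain ⟨i2, e2⟩ := A.integral_K hF x y
  obtain ⟨i3, e3⟩ := A.integral_K hFc y x
  obtain ⟨i4, e4⟩ := A.integral_K hFF x x
  have hexp : ∀ t, inner ℂ (y - conj (F (D.sigma t)) • x) (A.K t (y - conj (F (D.sigma t)) • x)) =
      ((1 * inner ℂ y (A.K t y) - F (D.sigma t) * inner ℂ x (A.K t y)) -
        conj (F (D.sigma t)) * inner ℂ y (A.K t x)) +
        (conj (F (D.sigma t)) * F (D.sigma t)) * inner ℂ x (A.K t x) := by
    intro t
    rw [map_sub, map_smul, inner_sub_left, inner_sub_right, inner_sub_right, inner_smul_left,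
      inner_smul_left, inner_smul_right, inner_smul_right, Complex.conj_conj]
    ring
  have hint := ((i1.sub i2).sub i3).add i4
  have hval : ∫ t in (0:ℝ)..(2 * π),
      inner ℂ (y - conj (F (D.sigma t)) • x) (A.K t (y - conj (F (D.sigma t)) • x)) =
      ((inner ℂ y (A.f (D.CT (fun _ => 1)) y) - inner ℂ x (A.f (D.CT F) y)) -
        inner ℂ y (A.f (D.CT (fun z => conj (F z))) x)) +
        inner ℂ x (A.f (D.CT (fun z => conj (F z) * F z)) x) := by
    simp_rw [hexp]
    rw [← e1, ← e2, ← e3, ← e4, ← intervalIntegral.integral_sub i1 i2,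
      ← intervalIntegral.integral_sub (i1.sub i2) i3,
      ← intervalIntegral.integral_add ((i1.sub i2).sub i3) i4]
  have hre : 0 ≤ (∫ t in (0:ℝ)..(2 * π),
      inner ℂ (y - conj (F (D.sigma t)) • x) (A.K t (y - conj (F (D.sigma t)) • x))).re := by
    have hI : IntervalIntegrable (fun t =>
      inner ℂ (y - conj (F (D.sigma t)) • x) (A.K t (y - conj (F (D.sigma t)) • x))) volume 0 (2 * π) := by
      simp_rw [hexp]; exact hint
    have h2 := Complex.reCLM.intervalIntegral_comp_comm hI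
    have h3 : (∫ t in (0:ℝ)..(2 * π),
      inner ℂ (y - conj (F (D.sigma t)) • x) (A.K t (y - conj (F (D.sigma t)) • x))).re =
      ∫ t in (0:ℝ)..(2 * π),
      (inner ℂ (y - conj (F (D.sigma t)) • x) (A.K t (y - conj (F (D.sigma t)) • x))).re := h2.symm
    rw [h3]
    exact intervalIntegral.integral_nonneg (by positivity) fun t _ => A.K_pos t _
  rw [hval, A.f_CT_one, one_apply_eq_self, inner_self_eq_norm_sq_to_K, hy] at hre
  simp only [Complex.add_re, Complex.sub_re] at hre
  norm_num at hre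
  linarith

end Dat

end

end Vale.P123
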