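import Vale.Agent.P123.Oper
import Vale.Agent.P123.Est

open scoped Real NNReal ComplexConjugate
open Set Filter Topology MeasureTheory

universe u

namespace Vale.P123

noncomputable section

/-- maximum principle -/
theorem SDom.max_principle (D : SDom) {G : ℂ → ℂ} (hd : DifferentiableOn ℂ G D.Om)
    (hc : ContinuousOn G D.cl) {m : ℝ} (hm : ∀ z ∈ D.cl, z ∉ D.Om → ‖G z‖ ≤ m) {z : ℂ}
    (hz : z ∈ D.cl) : ‖G z‖ ≤ m := by
  refine Complex.norm_le_of_forall_mem_frontier_norm_le (U := D.Om) D.isBounded_Om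
    ⟨hd, by rw [D.closure_Om]; exact hc⟩ (fun w hw => ?_) (by rw [D.closure_Om]; exact hz)
  rw [D.isOpen_Om.frontier_eq, D.closure_Om] at hw
  exact hm w hw.1 hw.2

theorem LipschitzOnWith.conj_mul_self {S : Set ℂ} {F : ℂ → ℂ} {L : ℝ≥0} (hF : LipschitzOnWith L F S)
    (hb : ∀ z ∈ S, ‖F z‖ ≤ 2) : LipschitzOnWith (4 * L) (fun z => conj (F z) * F z) S := by
  rw [lipschitzOnWith_iff_norm_sub_le] at hF ⊢
  intro z hz w hw
  have h1 : conj (F z) * F z - conj (F w) * F w = conj (F z) * (F z - F w) + conj (F z - F w) * F w := by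
    rw [map_sub]; ring
  rw [h1]
  calc ‖conj (F z) * (F z - F w) + conj (F z - F w) * F w‖
      ≤ ‖conj (F z) * (F z - F w)‖ + ‖conj (F z - F w) * F w‖ := norm_add_le _ _
    _ ≤ 2 * (L * ‖z - w‖) + (L * ‖z - w‖) * 2 := by
        refine add_le_add ?_ ?_
        · rw [norm_mul, RCLike.norm_conj]
          exact mul_le_mul (hb z hz) (hF hz hw) (norm_nonneg _) (by norm_num)
        · rw [norm_mul, RCLike.norm_conj]
          exact mul_le_mul (hF hz hw) (hb w hw) (norm_nonneg _) (by positivity)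
    _ = ((4 * L : ℝ≥0) : ℝ) * ‖z - w‖ := by push_cast; ring

theorem LipschitzOnWith.conj' {S : Set ℂ} {F : ℂ → ℂ} {L : ℝ≥0} (hF : LipschitzOnWith L F S) :
    LipschitzOnWith L (fun z => conj (F z)) S := by
  rw [lipschitzOnWith_iff_norm_sub_le] at hF ⊢
  intro z hz w hw
  rw [← map_sub, RCLike.norm_conj]
  exact hF hz hw

/-- a test function for `f`, giving strict improvement -/
structure Test (D : SDom) (f : ℂ → ℂ) (k δ C : ℝ) where
  F : ℂ → ℂ
  L : ℝ≥0
  lip : LipschitzOnWith L F D.cl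
  bF : ∀ z ∈ D.cl, ‖F z‖ ≤ 2
  b1 : ∀ z ∈ D.cl, z ∉ D.Om → ‖D.CT F z‖ ≤ 2
  b2 : ∀ z ∈ D.cl, z ∉ D.Om → ‖D.CT (fun z => conj (F z)) z‖ ≤ 2
  ω0 : ∀ z ∈ D.cl, z ∉ D.Om → 0 ≤ (D.CT (fun z => conj (F z) * F z) z).re
  ω4 : ∀ z ∈ D.cl, z ∉ D.Om → (D.CT (fun z => conj (F z) * F z) z).re ≤ 4
  key : ∀ z ∈ D.cl, z ∉ D.Om → ∀ (e : ℂ) (τ : ℝ), ‖e‖ = 1 → 0 ≤ τ → τ ≤ 1 → f z = τ * e →
    1 + δ - C * (1 - τ) ≤ k * (conj e * (D.CT F z + (f z) ^ 2 / k ^ 2 * D.CT (fun z => conj (F z)) z)).re -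
      (D.CT (fun z => conj (F z) * F z) z).re

variable {D : SDom} {V : Type u} [NormedAddCommGroup V] [InnerProductSpace ℂ V]

/-- constant controlling Cauchy transforms at the spectrum -/
def Dat.Q (A : Dat D V) : ℝ := ∑ l ∈ A.T, ∫ t in (0:ℝ)..(2 * π), ‖D.kap l t‖

def Dat.S (A : Dat D V) : ℝ := ∑ l ∈ A.T, ‖A.E l‖

theorem Dat.Q_nonneg (A : Dat D V) : 0 ≤ A.Q :=
  Finset.sum_nonneg fun _ _ => intervalIntegral.integral_nonneg (by positivity) fun _ _ => norm_nonneg _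

theorem Dat.S_nonneg (A : Dat D V) : 0 ≤ A.S := Finset.sum_nonneg fun _ _ => norm_nonneg _

theorem Dat.CT_le (A : Dat D V) {W : ℂ → ℂ} (hW : ContinuousOn W D.cl) (hb : ∀ z ∈ D.cl, ‖W z‖ ≤ 4)
    {l : ℂ} (hl : l ∈ A.T) : ‖D.CT W l‖ ≤ 4 * A.Q := by
  have hlO := A.mem l hl
  rw [D.CT_eq hW hlO]
  have hk : Continuous (fun t => ‖D.kap l t‖) := (D.continuous_kap hlO).norm
  calc ‖∫ t in (0:ℝ)..(2 * π), W (D.sigma t) * D.kap l t‖
      ≤ ∫ t in (0:ℝ)..(2 * π), 4 * ‖D.kap l t‖ := by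
        refine intervalIntegral.norm_integral_le_of_norm_le (by positivity) ?_
          ((continuous_const.mul hk).intervalIntegrable _ _)
        refine Eventually.of_forall fun t _ => ?_
        rw [norm_mul]
        exact mul_le_mul_of_nonneg_right (hb _ (D.sigma_mem_cl t)) (norm_nonneg _)
    _ = 4 * ∫ t in (0:ℝ)..(2 * π), ‖D.kap l t‖ := intervalIntegral.integral_const_mul _ _
    _ ≤ 4 * A.Q := by
        refine mul_le_mul_of_nonneg_left ?_ (by norm_num)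
        exact Finset.single_le_sum (f := fun l => ∫ t in (0:ℝ)..(2 * π), ‖D.kap l t‖)
          (fun l _ => intervalIntegral.integral_nonneg (by positivity) fun t _ => norm_nonneg _) hl

/-- extremal vectors -/
theorem exists_extremal [FiniteDimensional ℂ V] [Nontrivial V] (T : V →L[ℂ] V) (hT : 0 < ‖T‖) :
    ∃ x y : V, ‖x‖ = 1 ∧ ‖y‖ = 1 ∧ T y = (‖T‖ : ℂ) • x ∧
      ContinuousLinearMap.adjoint T x = (‖T‖ : ℂ) • y := by
  have : CompleteSpace V := FiniteDimensional.complete ℂ V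
  have : ProperSpace V := FiniteDimensional.proper ℂ V
  obtain ⟨y, hy, hmax⟩ := (isCompact_sphere (0:V) 1).exists_isMaxOn
    (NormedSpace.sphere_nonempty.2 zero_le_one) (f := fun y => ‖T y‖) (by fun_prop)
  have hy1 : ‖y‖ = 1 := by simpa using hy
  have hk : ‖T y‖ = ‖T‖ := by
    refine le_antisymm (by simpa [hy1] using T.le_opNorm y) ?_
    refine T.opNorm_le_bound (norm_nonneg _) fun v => ?_
    by_cases hv : v = 0
    · subst hv; simp
    · have hn : 0 < ‖v‖ := norm_pos_iff.2 hv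
      have h1 : ‖T (((‖v‖⁻¹ : ℝ) : ℂ) • v)‖ ≤ ‖T y‖ := hmax (by
        simp [norm_smul, hn.ne'])
      rw [map_smul, norm_smul, Complex.norm_real, norm_inv, norm_norm, inv_mul_le_iff₀ hn] at h1
      linarith
  set k := ‖T‖ with hkdef
  have hkC : (k : ℂ) ≠ 0 := by exact_mod_cast hT.ne'
  have hadj : ContinuousLinearMap.adjoint T (T y) = ((k ^ 2 : ℝ) : ℂ) • y := by
    rw [← sub_eq_zero, ← norm_eq_zero]
    have h1 : ‖ContinuousLinearMap.adjoint T (T y) - ((k ^ 2 : ℝ) : ℂ) • y‖ ^ 2 ≤ 0 := by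
      rw [@norm_sub_sq ℂ]
      have h2 : ‖ContinuousLinearMap.adjoint T (T y)‖ ≤ k * k := by
        calc _ ≤ ‖ContinuousLinearMap.adjoint T‖ * ‖T y‖ := ContinuousLinearMap.le_opNorm _ _
          _ = k * k := by rw [LinearIsometryEquiv.norm_map, hk]
      have h3 : ‖((k ^ 2 : ℝ) : ℂ) • y‖ = k ^ 2 := by
        rw [norm_smul, hy1, mul_one, Complex.norm_real, Real.norm_of_nonneg (by positivity)]
      have h4 : RCLike.re (inner ℂ (ContinuousLinearMap.adjoint T (T y)) (((k ^ 2 : ℝ) : ℂ) • y)) =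
          k ^ 2 * k ^ 2 := by
        rw [inner_smul_right, ContinuousLinearMap.adjoint_inner_left, inner_self_eq_norm_sq_to_K, hk]
        have h7 : ((k ^ 2 : ℝ) : ℂ) * ((k : ℂ)) ^ 2 = ((k ^ 2 * k ^ 2 : ℝ) : ℂ) := by push_cast; ring
        exact (congrArg Complex.re h7).trans (Complex.ofReal_re _)
      rw [h4, h3]
      have h5 : ‖ContinuousLinearMap.adjoint T (T y)‖ ^ 2 ≤ (k * k) ^ 2 :=
        pow_le_pow_left₀ (norm_nonneg _) h2 2
      nlinarith
    nlinarith [norm_nonneg (ContinuousLinearMap.adjoint T (T y) - ((k ^ 2 : ℝ) : ℂ) • y)]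
  refine ⟨((k⁻¹ : ℝ) : ℂ) • T y, y, ?_, hy1, ?_, ?_⟩
  · rw [norm_smul, Complex.norm_real, norm_inv, Real.norm_of_nonneg hT.le, hk]
    field_simp
  · rw [smul_smul]; push_cast; rw [mul_inv_cancel₀ hkC, one_smul]
  · rw [map_smul, hadj, smul_smul]; congr 1; push_cast; field_simp

/-- one step of the self-improvement -/
theorem step [FiniteDimensional ℂ V] [Nontrivial V] (A : Dat D V) {f : ℂ → ℂ}
    (hfd : DifferentiableOn ℂ f D.Om) (hfc : ContinuousOn f D.cl) (hf1 : ∀ z ∈ D.cl, ‖f z‖ ≤ 1)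
    {k δ C t : ℝ} (hk : ‖A.f f‖ = k) (hk2 : 2 ≤ k) (hδ0 : 0 ≤ δ) (hδ1 : δ ≤ 1) (hC : 0 ≤ C)
    (τ : Test D f k δ C) (ht0 : 0 ≤ t) (ht1 : t ≤ 1 / 16) (htC : t * C ≤ 1 / 4)
    (htQ : t * (2 * A.Q) ≤ 1) :
    ∃ u : ℂ → ℂ, DifferentiableOn ℂ u D.Om ∧
      (∀ z ∈ D.Om, ‖u z‖ ≤ 1 - t * ((1 + δ) / k) + 20 * t ^ 2) ∧
      k - t - t ^ 2 * (3 * (2 * A.Q) + 4 * (2 * A.Q) ^ 2) * A.S ≤ ‖A.f u‖ := by
  have hk0 : 0 < k := by linarith
  obtain ⟨x, y, hx1, hy1, hTy, hTx⟩ := exists_extremal (A.f f) (by rw [hk]; exact hk0)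
  rw [hk] at hTy hTx
  have hkC : (k : ℂ) ≠ 0 := by exact_mod_cast hk0.ne'
  -- abbreviations
  let F := τ.F
  let Fb : ℂ → ℂ := fun z => conj (τ.F z)
  let W : ℂ → ℂ := fun z => conj (τ.F z) * τ.F z
  have hFl : LipschitzOnWith τ.L F D.cl := τ.lip
  have hFbl : LipschitzOnWith τ.L Fb D.cl := LipschitzOnWith.conj' τ.lip
  have hWl : LipschitzOnWith (4 * τ.L) W D.cl := LipschitzOnWith.conj_mul_self τ.lip τ.bF
  let G0 : ℂ → ℂ := fun z => D.CT F z + (f z) ^ 2 / (k : ℂ) ^ 2 * D.CT Fb z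
  let q : ℂ → ℂ := fun z => D.CT W z / (k : ℂ)
  let u : ℂ → ℂ := fun z => (f z - t * G0 z) * Complex.exp (t * q z)
  have hCF := D.differentiableOn_CT hFl.continuousOn
  have hCFb := D.differentiableOn_CT hFbl.continuousOn
  have hCW := D.differentiableOn_CT hWl.continuousOn
  have hcF := D.continuousOn_CT hFl
  have hcFb := D.continuousOn_CT hFbl
  have hcW := D.continuousOn_CT hWl
  have hG0d : DifferentiableOn ℂ G0 D.Om := by
    exact hCF.add (((hfd.pow 2).div_const _).mul hCFb)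
  have hG0c : ContinuousOn G0 D.cl := by
    exact hcF.add (((hfc.pow 2).div_const _).mul hcFb)
  have hqd : DifferentiableOn ℂ q D.Om := hCW.div_const _
  have hqc : ContinuousOn q D.cl := hcW.div_const _
  have hud : DifferentiableOn ℂ u D.Om :=
    (hfd.sub (hG0d.const_mul _)).mul (hqd.const_mul _).cexp
  have huc : ContinuousOn u D.cl :=
    (hfc.sub (continuousOn_const.mul hG0c)).mul (continuousOn_const.mul hqc).cexp
  have hG0b : ∀ z ∈ D.cl, ‖G0 z‖ ≤ 3 := by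
    intro z hz
    refine D.max_principle hG0d hG0c (fun w hw hw' => ?_) hz
    calc ‖G0 w‖ ≤ ‖D.CT F w‖ + ‖(f w) ^ 2 / (k : ℂ) ^ 2 * D.CT Fb w‖ := norm_add_le _ _
      _ ≤ 2 + 1 / 4 * 2 := by
        refine add_le_add (τ.b1 w hw hw') ?_
        rw [norm_mul]
        refine mul_le_mul ?_ (τ.b2 w hw hw') (norm_nonneg _) (by norm_num)
        rw [norm_div, norm_pow, norm_pow, Complex.norm_real, Real.norm_of_nonneg hk0.le]
        refine div_le_div₀ (by norm_num) (pow_le_one₀ (norm_nonneg _) (hf1 w hw)) (by norm_num) ?_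
        nlinarith
      _ ≤ 3 := by norm_num
  refine ⟨u, hud, ?_, ?_⟩
  · intro z hz
    refine D.max_principle hud huc (fun w hw hw' => ?_) (D.Om_subset_cl hz)
    -- polar form of f w
    obtain ⟨e, he, hfe⟩ : ∃ e : ℂ, ‖e‖ = 1 ∧ f w = (‖f w‖ : ℂ) * e := by
      by_cases h0 : f w = 0
      · exact ⟨1, by simp, by simp [h0]⟩
      · have hn : 0 < ‖f w‖ := norm_pos_iff.2 h0
        refine ⟨f w / (‖f w‖ : ℂ), ?_, ?_⟩
        · rw [norm_div, Complex.norm_real, norm_norm, div_self hn.ne']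
        · rw [mul_div_cancel₀]; exact_mod_cast hn.ne'
    have hkey := τ.key w hw hw' e ‖f w‖ he (norm_nonneg _) (hf1 w hw) hfe
    have hs := sup_est (G0 := G0 w) (ω := (D.CT W w).re) (k := k) (δ := δ) (C := C) (t := t)
      he (norm_nonneg _) (hf1 w hw) hfe (hG0b w hw) (τ.ω0 w hw hw') (τ.ω4 w hw hw') hk2 hδ0 hδ1 hC
      hkey ht0 ht1 htC
    have hnu : ‖u w‖ = ‖f w - t * G0 w‖ * Real.exp (t * ((D.CT W w).re / k)) := by
      simp only [u]
      rw [norm_mul, Complex.norm_exp]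
      congr 2
      simp only [q]
      rw [Complex.re_ofReal_mul, Complex.div_ofReal_re]
    rw [hnu]; exact hs
  · -- operator estimate
    let a : ℂ → ℂ := fun z => f z - t * G0 z + t * (f z * q z)
    have hWb : ∀ z ∈ D.cl, ‖W z‖ ≤ 4 := by
      intro z hz
      have := τ.bF z hz
      simp only [W]
      rw [norm_mul, RCLike.norm_conj]
      nlinarith [norm_nonneg (τ.F z)]
    have hqb : ∀ l ∈ A.T, ‖q l‖ ≤ 2 * A.Q := by
      intro l hl
      simp only [q]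
      rw [norm_div, Complex.norm_real, Real.norm_of_nonneg hk0.le, div_le_iff₀ hk0]
      have h1 := A.CT_le hWl.continuousOn hWb hl
      have h2 := A.Q_nonneg
      nlinarith
    have hdiff : ‖A.f u - A.f a‖ ≤ t ^ 2 * (3 * (2 * A.Q) + 4 * (2 * A.Q) ^ 2) * A.S := by
      have h1 : A.f u - A.f a = fc A.T A.E (fun l => u l - a l) := (fc_sub u a).symm
      rw [h1]
      refine norm_fc_le _ fun l hl => ?_
      have hlc := D.Om_subset_cl (A.mem l hl)
      exact pert_est (hf1 l hlc) (hG0b l hlc) (hqb l hl) ht0 (by linarith) htQ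
    -- main term
    have hmain := A.main_ineq hFl.continuousOn (x := x) (y := y) hy1
    have hadj : ∀ w : V, inner ℂ y w = (k : ℂ)⁻¹ * inner ℂ x (A.f f w) := by
      intro w
      have h1 : y = ((k⁻¹ : ℝ) : ℂ) • ContinuousLinearMap.adjoint (A.f f) x := by
        rw [hTx, smul_smul]; push_cast; rw [inv_mul_cancel₀ hkC, one_smul]
      rw [h1, inner_smul_left, Complex.conj_ofReal, ContinuousLinearMap.adjoint_inner_left]
      push_cast; rfl
    have hx' : ∀ v : ℂ → ℂ, A.f v x = (k : ℂ)⁻¹ • A.f (fun z => v z * f z) y := by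
      intro v
      have h1 : x = (k : ℂ)⁻¹ • A.f f y := by
        rw [hTy, smul_smul, inv_mul_cancel₀ hkC, one_smul]
      conv_lhs => rw [h1]
      rw [map_smul, ← A.f_mul, mul_apply_eq_comp]
    have hyx : ∀ v : ℂ → ℂ, inner ℂ y (A.f v x) =
        inner ℂ x (A.f (fun z => (f z) ^ 2 / (k : ℂ) ^ 2 * v z) y) := by
      intro v
      rw [hadj, hx', map_smul, inner_smul_right, ← mul_apply_eq_comp, A.f_mul,
        A.inner_f, A.inner_f, Finset.mul_sum, Finset.mul_sum]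
      refine Finset.sum_congr rfl fun l _ => ?_
      field_simp
    have hxx : ∀ v : ℂ → ℂ, inner ℂ x (A.f v x) =
        inner ℂ x (A.f (fun z => f z * (v z / (k : ℂ))) y) := by
      intro v
      rw [hx', inner_smul_right, A.inner_f, A.inner_f, Finset.mul_sum]
      refine Finset.sum_congr rfl fun l _ => ?_
      field_simp
    have hfy : inner ℂ x (A.f f y) = (k : ℂ) := by
      rw [hTy, inner_smul_right, inner_self_eq_norm_sq_to_K, hx1]; simp
    have ha : (inner ℂ x (A.f a y)).re = k - t * ((inner ℂ x (A.f (D.CT F) y)).re +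
        (inner ℂ y (A.f (D.CT Fb) x)).re - (inner ℂ x (A.f (D.CT W) x)).re) := by
      have h1 : inner ℂ x (A.f a y) = inner ℂ x (A.f f y) - t * (inner ℂ x (A.f (D.CT F) y) +
          inner ℂ y (A.f (D.CT Fb) x) - inner ℂ x (A.f (D.CT W) x)) := by
        rw [hyx, hxx]
        simp only [A.inner_f]
        rw [← Finset.sum_add_distrib, ← Finset.sum_sub_distrib, Finset.mul_sum,
          ← Finset.sum_sub_distrib]
        refine Finset.sum_congr rfl fun l _ => ?_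
        simp only [a, G0, q]
        ring
      rw [h1, hfy, Complex.sub_re, Complex.re_ofReal_mul, Complex.sub_re, Complex.add_re,
        Complex.ofReal_re]
    have hale : k - t ≤ (inner ℂ x (A.f a y)).re := by
      rw [ha]
      have : (inner ℂ x (A.f (D.CT F) y)).re +
        (inner ℂ y (A.f (D.CT Fb) x)).re - (inner ℂ x (A.f (D.CT W) x)).re ≤ 1 := hmain
      nlinarith
    have hnorm : (inner ℂ x (A.f a y)).re ≤ ‖A.f a‖ := by
      calc (inner ℂ x (A.f a y)).re ≤ ‖inner ℂ x (A.f a y)‖ := Complex.re_le_norm _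
        _ ≤ ‖x‖ * ‖A.f a y‖ := norm_inner_le_norm _ _
        _ ≤ 1 * (‖A.f a‖ * ‖y‖) := by rw [hx1]; exact mul_le_mul_of_nonneg_left ((A.f a).le_opNorm y) zero_le_one
        _ = ‖A.f a‖ := by rw [hy1]; ring
    have htri : ‖A.f a‖ ≤ ‖A.f u‖ + ‖A.f u - A.f a‖ := by
      have := norm_sub_le (A.f u) (A.f u - A.f a)
      rwa [sub_sub_cancel] at this
    linarith

end

end Vale.P123
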