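import Mathlib

open Finset

namespace Vale.P123

noncomputable section

/-- the coefficients `1, -K⁻¹, -K⁻², ...` -/
def dd (K : ℝ) (n : ℕ) : ℝ := if n = 0 then 1 else -(K⁻¹) ^ n

theorem dd_zero (K : ℝ) : dd K 0 = 1 := by simp [dd]

theorem dd_succ (K : ℝ) (n : ℕ) : dd K (n + 1) = -(K⁻¹) ^ (n + 1) := by simp [dd]

/-- partial sums -/
def DD (K : ℝ) (n : ℕ) : ℝ := ∑ i ∈ range n, dd K i

theorem DD_ge {K : ℝ} (hK : 2 ≤ K) (n : ℕ) : (K⁻¹) ^ n ≤ DD K (n + 1) := by
  have hK0 : 0 < K := by linarith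
  induction n with
  | zero => simp [DD, dd_zero]
  | succ n ih =>
    have h1 : DD K (n + 1 + 1) = DD K (n + 1) - (K⁻¹) ^ (n + 1) := by
      unfold DD; rw [sum_range_succ _ (n + 1), dd_succ]; ring
    rw [h1]
    have h2 : (K⁻¹) ^ n = K * (K⁻¹) ^ (n + 1) := by rw [pow_succ]; field_simp
    have h3 : 0 ≤ (K⁻¹) ^ (n + 1) := by positivity
    nlinarith

theorem seq_bound {K : ℝ} (hK : 2 ≤ K) {G : ℕ → ℝ} {s : ℕ → ℕ → ℝ} (hG0 : G 0 = 1) (hG1 : G 1 = K ^ 2)
    (hs : ∀ k m, s (k + 1) m ≤ G m) (hs1 : ∀ k, s k 1 = K ^ 2 * s k 0) (N : ℕ) :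
    ∑ n ∈ range (N + 2), (dd K n ^ 2 * G n +
      ∑ m ∈ range n, dd K n * dd K m * (G n + s (n - m) m)) ≤
    (2 - K) + DD K (N + 2) * ∑ j ∈ range N, dd K (j + 2) * G (j + 2) +
      dd K (N + 1) * s (N + 1) 0 := by
  have hK0 : 0 < K := by linarith
  have hKn : K ≠ 0 := hK0.ne'
  induction N with
  | zero =>
    rw [sum_range_succ, sum_range_one, sum_range_zero, sum_range_one]
    simp only [range_zero, sum_empty, mul_zero, dd_zero]
    have h1 : dd K 1 = -K⁻¹ := by rw [show (1:ℕ) = 0 + 1 from rfl, dd_succ]; simp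
    simp only [zero_add, Nat.sub_zero]
    rw [h1, hG0, hG1]
    apply le_of_eq
    field_simp
    ring
  | succ N ih =>
    rw [sum_range_succ]
    have e1 : ∑ m ∈ range (N + 2), dd K (N + 2) * dd K m * (G (N + 2) + s (N + 2 - m) m) =
        dd K (N + 2) * G (N + 2) * DD K (N + 2) + dd K (N + 2) * s (N + 2) 0 +
        dd K (N + 2) * dd K 1 * s (N + 1) 1 +
        ∑ j ∈ range N, dd K (N + 2) * dd K (j + 2) * s (N + 2 - (j + 2)) (j + 2) := by
      have e2 : ∑ m ∈ range (N + 2), dd K (N + 2) * dd K m * (G (N + 2) + s (N + 2 - m) m) =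
          dd K (N + 2) * G (N + 2) * DD K (N + 2) +
          ∑ m ∈ range (N + 2), dd K (N + 2) * dd K m * s (N + 2 - m) m := by
        unfold DD
        rw [mul_sum, ← sum_add_distrib]
        exact sum_congr rfl fun m _ => by ring
      rw [e2, sum_range_succ' _ (N + 1), sum_range_succ' _ N]
      simp only [zero_add, Nat.sub_zero, dd_zero]
      have e3 : N + 2 - 1 = N + 1 := by omega
      rw [e3]
      have e4 : ∀ j, j + 1 + 1 = j + 2 := fun j => rfl
      simp only [e4]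
      ring
    have e5 : ∑ j ∈ range N, dd K (N + 2) * dd K (j + 2) * s (N + 2 - (j + 2)) (j + 2) ≤
        dd K (N + 2) * ∑ j ∈ range N, dd K (j + 2) * G (j + 2) := by
      rw [mul_sum]
      refine sum_le_sum fun j hj => ?_
      have hj' := mem_range.1 hj
      obtain ⟨k, hk⟩ : ∃ k, N + 2 - (j + 2) = k + 1 := ⟨N - j - 1, by omega⟩
      rw [hk]
      have h1 : 0 ≤ dd K (N + 2) * dd K (j + 2) := by
        rw [show N + 2 = (N + 1) + 1 from rfl, show j + 2 = (j + 1) + 1 from rfl, dd_succ, dd_succ,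
          neg_mul_neg]
        positivity
      have h2 := mul_le_mul_of_nonneg_left (hs k (j + 2)) h1
      linarith
    have e6 : dd K (N + 2) * dd K 1 * s (N + 1) 1 = -(dd K (N + 1) * s (N + 1) 0) := by
      rw [hs1, show N + 2 = (N + 1) + 1 from rfl, dd_succ, dd_succ, show (1:ℕ) = 0 + 1 from rfl,
        dd_succ, pow_succ (K⁻¹) (N + 1)]
      simp only [zero_add, pow_one]
      field_simp
    have e7 : DD K (N + 1 + 2) = DD K (N + 2) + dd K (N + 2) := by
      unfold DD; rw [show N + 1 + 2 = (N + 2) + 1 from rfl, sum_range_succ]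
    have e8 : ∑ j ∈ range (N + 1), dd K (j + 2) * G (j + 2) =
        ∑ j ∈ range N, dd K (j + 2) * G (j + 2) + dd K (N + 2) * G (N + 2) := sum_range_succ _ _
    rw [e1, e7, e8, e6]
    have e9 : N + 1 + 1 = N + 2 := rfl
    rw [e9]
    set S := ∑ j ∈ range N, dd K (j + 2) * G (j + 2)
    set X := ∑ n ∈ range (N + 2), (dd K n ^ 2 * G n +
      ∑ m ∈ range n, dd K n * dd K m * (G n + s (n - m) m))
    nlinarith [ih, e5]

/-- conclusion of the sequence argument -/
theorem seq_final {K : ℝ} {G : ℕ → ℝ} {s : ℕ → ℕ → ℝ} (hG0 : G 0 = 1) (hG1 : G 1 = K ^ 2)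
    (hG : ∀ n, 0 ≤ G n) (hs : ∀ k m, s (k + 1) m ≤ G m) (hs1 : ∀ k, s k 1 = K ^ 2 * s k 0)
    {C : ℝ} (hC : ∀ k, |s k 0| ≤ C)
    (hpos : ∀ N, 0 ≤ ∑ n ∈ range N, (dd K n ^ 2 * G n +
      ∑ m ∈ range n, dd K n * dd K m * (G n + s (n - m) m))) : K ≤ 2 := by
  by_contra hcon
  push Not at hcon
  have hK0 : 0 < K := by linarith
  have hC0 : 0 ≤ C := (abs_nonneg _).trans (hC 0)
  have key : ∀ N : ℕ, K - 2 ≤ C * (K⁻¹) ^ (N + 1) := by
    intro N
    have h1 := seq_bound hcon.le hG0 hG1 hs hs1 N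
    have h2 := hpos (N + 2)
    have h3 : DD K (N + 2) * ∑ j ∈ range N, dd K (j + 2) * G (j + 2) ≤ 0 := by
      refine mul_nonpos_of_nonneg_of_nonpos ?_ (sum_nonpos fun j _ => ?_)
      · exact le_trans (by positivity) (DD_ge hcon.le (N + 1))
      · rw [show j + 2 = (j + 1) + 1 from rfl, dd_succ]
        have := hG (j + 1 + 1)
        have h4 : 0 ≤ (K⁻¹) ^ (j + 1 + 1) := by positivity
        nlinarith
    have h5 : dd K (N + 1) * s (N + 1) 0 ≤ C * (K⁻¹) ^ (N + 1) := by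
      rw [dd_succ]
      have h6 := hC (N + 1)
      have h7 := (abs_le.1 h6).1
      have h8 : 0 ≤ (K⁻¹) ^ (N + 1) := by positivity
      nlinarith
    linarith
  have hlim : Filter.Tendsto (fun N : ℕ => C * (K⁻¹) ^ (N + 1)) Filter.atTop (nhds (C * 0)) := by
    refine Filter.Tendsto.const_mul _ ?_
    have : Filter.Tendsto (fun n : ℕ => (K⁻¹) ^ n) Filter.atTop (nhds 0) :=
      tendsto_pow_atTop_nhds_zero_of_lt_one (by positivity) (inv_lt_one_of_one_lt₀ (by linarith))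
    exact this.comp (Filter.tendsto_add_atTop_nat 1)
  rw [mul_zero] at hlim
  have := ge_of_tendsto' hlim key
  linarith

end

end Vale.P123
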