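import Mathlib

universe u

namespace Vale.P123

/-- sharpness example: the `2 × 2` Jordan block -/
theorem sharp_example : ∃ (E : Type u) (_ : NormedAddCommGroup E) (_ : InnerProductSpace ℂ E)
    (_ : CompleteSpace E) (_ : Nontrivial E) (A : E →L[ℂ] E), 1 ≤ ‖A‖ ∧
    ∀ x : E, ‖x‖ = 1 → ‖inner ℂ x (A x)‖ ≤ 1 / 2 := by
  classical
  refine ⟨EuclideanSpace ℂ (ULift.{u} (Fin 2)), inferInstance, inferInstance, inferInstance,
    inferInstance, (innerSL ℂ (EuclideanSpace.single (ULift.up (1 : Fin 2)) (1 : ℂ))).smulRight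
      (EuclideanSpace.single (ULift.up (0 : Fin 2)) (1 : ℂ)), ?_, ?_⟩
  · have h1 := ((innerSL ℂ (EuclideanSpace.single (ULift.up.{u} (1 : Fin 2)) (1 : ℂ))).smulRight
      (EuclideanSpace.single (ULift.up.{u} (0 : Fin 2)) (1 : ℂ))).le_opNorm
        (EuclideanSpace.single (ULift.up.{u} (1 : Fin 2)) (1 : ℂ))
    rw [ContinuousLinearMap.smulRight_apply, innerSL_apply_apply,
      EuclideanSpace.inner_single_left, norm_smul, PiLp.norm_single,
      PiLp.norm_single] at h1
    simpa using h1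
  · intro x hx
    rw [ContinuousLinearMap.smulRight_apply, innerSL_apply_apply,
      EuclideanSpace.inner_single_left, inner_smul_right, EuclideanSpace.inner_single_right]
    simp only [map_one, one_mul, norm_mul, RCLike.norm_conj]
    have h6 := EuclideanSpace.norm_sq_eq x
    have h7 : ∑ i : ULift.{u} (Fin 2), ‖x i‖ ^ 2 = ∑ i : Fin 2, ‖x (ULift.up i)‖ ^ 2 :=
      Fintype.sum_equiv Equiv.ulift _ _ fun i => rfl
    rw [hx, h7, Fin.sum_univ_two] at h6
    nlinarith [sq_nonneg (‖x (ULift.up 0)‖ - ‖x (ULift.up 1)‖)]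

end Vale.P123
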