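import Vale.Agent.P123.Pert
import Vale.Agent.P123.Avg

open scoped Real NNReal ComplexConjugate
open Set Filter Topology MeasureTheory

namespace Vale.P123

noncomputable section

namespace SDom

variable (D : SDom)

/-- dilations of a function continuous on `cl` converge uniformly -/
theorem dilate_unif {G : ℂ → ℂ} (hc : ContinuousOn G D.cl) {η : ℝ} (hη : 0 < η) :
    ∀ᶠ r : ℝ in 𝓝[<] 1, ∀ z ∈ D.cl, ‖G ((r : ℂ) * z) - G z‖ ≤ η := by
  have huc := D.isCompact_cl.uniformContinuousOn_of_continuous hc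
  rw [Metric.uniformContinuousOn_iff] at huc
  obtain ⟨d, hd, hdd⟩ := huc η hη
  obtain ⟨R, hR⟩ := isBounded_iff_forall_norm_le.1 D.isBounded_cl
  have hR0 : 0 ≤ R := (norm_nonneg _).trans (hR 0 (D.Om_subset_cl D.zero_mem_Om))
  have h1 : ∀ᶠ r : ℝ in 𝓝[<] 1, r ∈ Ioo (max 0 (1 - d / (R + 1))) 1 := by
    refine Ioo_mem_nhdsLT (max_lt (by norm_num) ?_)
    have : 0 < d / (R + 1) := by positivity
    linarith
  filter_upwards [h1] with r hr z hz
  have hr0 : 0 < r := lt_of_le_of_lt (le_max_left _ _) hr.1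
  have hr1 : 1 - d / (R + 1) < r := lt_of_le_of_lt (le_max_right _ _) hr.1
  have h2 : dist ((r : ℂ) * z) z < d := by
    rw [dist_eq_norm, show (r : ℂ) * z - z = ((r - 1 : ℝ) : ℂ) * z by push_cast; ring, norm_mul,
      Complex.norm_real, Real.norm_eq_abs, abs_sub_comm, abs_of_pos (by linarith [hr.2])]
    have h3 : (1 - r) * ‖z‖ ≤ (1 - r) * R := mul_le_mul_of_nonneg_left (hR z hz) (by linarith [hr.2])
    have h4 : (1 - r) * (R + 1) < d := by
      rw [← lt_div_iff₀ (by positivity)]; linarith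
    nlinarith [hr.2]
  have h5 := hdd _ (D.Om_subset_cl (D.smul_mem_Om hz hr0.le hr.2)) _ hz h2
  rw [dist_eq_norm] at h5
  exact h5.le

def dil (r : ℝ) : Set ℂ := {z | (r : ℂ) * z ∈ D.Om}

theorem isOpen_dil (r : ℝ) : IsOpen (D.dil r) :=
  D.isOpen_Om.preimage (continuous_const.mul continuous_id)

theorem convex_dil (r : ℝ) : Convex ℝ (D.dil r) := by
  intro z hz w hw a b ha hb hab
  have h := D.convex_Om hz hw ha hb hab
  have e : (r : ℂ) * (a • z + b • w) = a • ((r : ℂ) * z) + b • ((r : ℂ) * w) := by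
    simp only [Complex.real_smul]; ring
  show (r : ℂ) * (a • z + b • w) ∈ D.Om
  rw [e]; exact h

theorem cl_subset_dil {r : ℝ} (hr0 : 0 ≤ r) (hr1 : r < 1) : D.cl ⊆ D.dil r :=
  fun _ hz => D.smul_mem_Om hz hr0 hr1

theorem differentiableOn_dil {G : ℂ → ℂ} (hd : DifferentiableOn ℂ G D.Om) (r : ℝ) :
    DifferentiableOn ℂ (fun z => G ((r : ℂ) * z)) (D.dil r) :=
  hd.comp ((differentiable_const _).mul differentiable_id).differentiableOn fun _ hz => hz

theorem CT_add {W1 W2 : ℂ → ℂ} {L1 L2 : ℝ≥0} (h1 : LipschitzOnWith L1 W1 D.cl)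
    (h2 : LipschitzOnWith L2 W2 D.cl) {z : ℂ} (hz : z ∈ D.cl) :
    D.CT (fun w => W1 w + W2 w) z = D.CT W1 z + D.CT W2 z := by
  have i1 := D.integrable_lip h1 hz
  have i2 := D.integrable_lip h2 hz
  unfold CT
  have : ∫ t in (0:ℝ)..(2 * π), (W1 (D.sigma t) + W2 (D.sigma t) - (W1 z + W2 z)) * D.kap z t =
      (∫ t in (0:ℝ)..(2 * π), (W1 (D.sigma t) - W1 z) * D.kap z t) +
      ∫ t in (0:ℝ)..(2 * π), (W2 (D.sigma t) - W2 z) * D.kap z t := by
    rw [← intervalIntegral.integral_add i1 i2]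
    refine intervalIntegral.integral_congr fun t _ => ?_
    show _ * _ = _ * _ + _ * _
    ring
  rw [this]; ring

variable {U : Set ℂ} (hU : IsOpen U) (hUc : Convex ℝ U) (hcl : D.cl ⊆ U)

include hU hUc hcl

/-- Cauchy transform of the conjugate of an analytic function -/
theorem CT_conj_eq {H : ℂ → ℂ} (hH : DifferentiableOn ℂ H U) {z : ℂ} (hz : z ∈ D.cl) :
    D.CT (fun w => conj (H w)) z = D.AV z (fun w => conj (H w)) := by
  obtain ⟨L, hL⟩ := D.lipschitz_of_differentiableOn hU hcl hH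
  have h1 := D.CT_add_conj (LipschitzOnWith.conj' hL) hz
  have h2 : D.CT (fun w => conj (conj (H w))) z = H z := by
    simp only [Complex.conj_conj]
    exact D.CT_of_differentiableOn hU hUc hcl hH hz
  rw [h2] at h1
  linear_combination h1

omit hU hUc hcl

variable {D}

theorem AV_normSq_le {z : ℂ} (hz : z ∈ D.cl) (hz' : z ∉ D.Om) {W : ℂ → ℂ} (hW : ContinuousOn W D.cl) :
    ‖D.AV z W‖ ^ 2 ≤ (D.AV z (fun w => conj (W w) * W w)).re := by
  set m := D.AV z W with hm
  have hWs : ContinuousOn (fun w => conj (W w)) D.cl := Complex.continuous_conj.comp_continuousOn hW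
  have h1 : 0 ≤ (D.AV z (fun w => conj (W w) * W w + (-2 * conj m * W w + (conj m * m)))).re := by
    have key : ∀ w : ℂ, 0 ≤ (conj w * w + (-2 * conj m * w + conj m * m)).re := by
      intro w
      have : (conj w * w + (-2 * conj m * w + conj m * m)).re = (w.re - m.re) ^ 2 + (w.im - m.im) ^ 2 := by
        simp; ring
      rw [this]; positivity
    refine AV_mono (W := fun w => conj (W w) * W w + (-2 * conj m * W w + (conj m * m))) hz hz'
      ((hWs.mul hW).add ((continuousOn_const.mul hW).add continuousOn_const)) (key _) fun t => key _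
  rw [AV_add (W1 := fun w => conj (W w) * W w) (W2 := fun w => -2 * conj m * W w + conj m * m) hz hz'
    (hWs.mul hW) ((continuousOn_const.mul hW).add continuousOn_const),
    AV_add (W1 := fun w => -2 * conj m * W w) (W2 := fun _ => conj m * m) hz hz'
    (continuousOn_const.mul hW) continuousOn_const,
    AV_const_mul, AV_const, ← hm] at h1
  have h2 : (-2 * conj m * m + conj m * m).re = -‖m‖ ^ 2 := by
    rw [← Complex.normSq_eq_norm_sq, Complex.normSq_apply]; simp; ring
  rw [Complex.add_re, h2] at h1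
  linarith

end SDom

end

end Vale.P123
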