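import Vale.Agent.P123.TestA

open scoped Real NNReal ComplexConjugate
open Set Filter Topology MeasureTheory

namespace Vale.P123

noncomputable section

/-- part of the functional coming from the base point -/
def jj (a0 a1 c1 c2 k : ℝ) (x1 x2 : ℂ) : ℝ :=
  2 * k * ((a0 : ℂ) + a1 * x1).re + 2 / k * ((c1 : ℂ) * x1 + c2 * x2).re -
    ‖((a0 : ℂ) + a1 * x1) + conj ((c1 : ℂ) * x1 + c2 * x2)‖ ^ 2

/-- part of the functional coming from the averaged point -/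
def tt (a0 a1 c1 c2 k : ℝ) (u v1 v2 : ℂ) : ℝ :=
  2 * k * ((c1 : ℂ) * v1 + c2 * (u * v2)).re + 2 / k * (u * ((a0 : ℂ) + a1 * (u * v1))).re -
    ‖u * ((a0 : ℂ) + a1 * (u * v1)) + conj ((c1 : ℂ) * v1 + c2 * (u * v2))‖ ^ 2

theorem normSq_lin (m w : ℂ) : 2 * (conj m * w).re - ‖m‖ ^ 2 ≤ ‖w‖ ^ 2 := by
  rw [← Complex.normSq_eq_norm_sq, ← Complex.normSq_eq_norm_sq, Complex.normSq_apply,
    Complex.normSq_apply]
  simp only [Complex.mul_re, Complex.conj_re, Complex.conj_im]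
  nlinarith [sq_nonneg (m.re - w.re), sq_nonneg (m.im - w.im)]

/-- concavity step -/
theorem tt_of_hull {a0 a1 c1 c2 k c : ℝ} {u v1 v2 : ℂ}
    (hK : ∀ (α β : ℂ) (c : ℝ), (∀ ζ : ℂ, ‖ζ‖ ≤ 1 → c ≤ (α * ζ + β * ζ ^ 2).re) →
      c ≤ (α * v1 + β * v2).re)
    (h : ∀ ζ : ℂ, ‖ζ‖ ≤ 1 → c ≤ tt a0 a1 c1 c2 k u ζ (ζ ^ 2)) : c ≤ tt a0 a1 c1 c2 k u v1 v2 := by
  set m : ℂ := u * ((a0 : ℂ) + a1 * (u * v1)) + conj ((c1 : ℂ) * v1 + c2 * (u * v2)) with hm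
  let α : ℂ := (2 * k : ℝ) * c1 + (2 / k : ℝ) * (u * (a1 * u)) - 2 * conj m * (u * (a1 * u)) - 2 * m * c1
  let β : ℂ := (2 * k : ℝ) * (c2 * u) - 2 * m * (c2 * u)
  let γ : ℝ := 2 / k * (u * (a0 : ℂ)).re - 2 * (conj m * (u * (a0 : ℂ))).re + ‖m‖ ^ 2
  have e : ∀ ζ1 ζ2 : ℂ, (α * ζ1 + β * ζ2).re + γ =
      2 * k * ((c1 : ℂ) * ζ1 + c2 * (u * ζ2)).re + 2 / k * (u * ((a0 : ℂ) + a1 * (u * ζ1))).re -
      (2 * (conj m * (u * ((a0 : ℂ) + a1 * (u * ζ1)) + conj ((c1 : ℂ) * ζ1 + c2 * (u * ζ2)))).re - ‖m‖ ^ 2) := by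
    intro ζ1 ζ2
    simp only [α, β, γ]
    have h1 : (conj m * conj ((c1 : ℂ) * ζ1 + c2 * (u * ζ2))).re = (m * ((c1 : ℂ) * ζ1 + c2 * (u * ζ2))).re := by
      rw [← map_mul, Complex.conj_re]
    have h2 : (conj m * (u * ((a0 : ℂ) + a1 * (u * ζ1)) + conj ((c1 : ℂ) * ζ1 + c2 * (u * ζ2)))).re =
        (conj m * (u * (a0 : ℂ))).re + (conj m * (u * (a1 * (u * ζ1)))).re +
        (m * ((c1 : ℂ) * ζ1 + c2 * (u * ζ2))).re := by
      rw [mul_add (conj m), Complex.add_re, h1, mul_add u, mul_add (conj m), Complex.add_re]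
    have h3 : (u * ((a0 : ℂ) + a1 * (u * ζ1))).re = (u * (a0 : ℂ)).re + (u * (a1 * (u * ζ1))).re := by
      rw [mul_add u, Complex.add_re]
    have e1 : (((2 * k : ℝ) * (c1 : ℂ) + (2 / k : ℝ) * (u * (a1 * u)) - 2 * conj m * (u * (a1 * u)) - 2 * m * c1) * ζ1 +
        ((2 * k : ℝ) * ((c2 : ℂ) * u) - 2 * m * (c2 * u)) * ζ2) =
        (2 * k : ℝ) * ((c1 : ℂ) * ζ1 + c2 * (u * ζ2)) + (2 / k : ℝ) * (u * (a1 * (u * ζ1))) -
        (2 : ℝ) * (conj m * (u * (a1 * (u * ζ1)))) - (2 : ℝ) * (m * ((c1 : ℂ) * ζ1 + c2 * (u * ζ2))) := by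
      push_cast; ring
    rw [e1, Complex.sub_re, Complex.sub_re, Complex.add_re, Complex.re_ofReal_mul,
      Complex.re_ofReal_mul, Complex.re_ofReal_mul, Complex.re_ofReal_mul, h2, h3]
    ring
  have h2 : c - γ ≤ (α * v1 + β * v2).re := by
    refine hK α β _ fun ζ hζ => ?_
    have h3 := h ζ hζ
    have h4 := e ζ (ζ ^ 2)
    have h5 := normSq_lin m (u * ((a0 : ℂ) + a1 * (u * ζ)) + conj ((c1 : ℂ) * ζ + c2 * (u * ζ ^ 2)))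
    unfold tt at h3
    linarith
  have h6 := e v1 v2
  rw [← hm] at h6
  have h7 : (conj m * m).re = ‖m‖ ^ 2 := by
    rw [← Complex.normSq_eq_norm_sq, Complex.normSq_apply]; simp
  unfold tt
  rw [← hm]
  linarith

theorem err_est {k τ s : ℝ} {P P' Q Q' B : ℂ} (hk : 2 ≤ k) (hτ0 : 0 ≤ τ) (hτ1 : τ ≤ 1)
    (hs : 1 - τ ^ 2 ≤ s) (hP : ‖P' - P‖ ≤ s) (hQ : ‖Q' - Q‖ ≤ s) (bP : ‖P‖ + ‖Q‖ ≤ 2)
    (bP' : ‖P'‖ + ‖Q'‖ ≤ 2) (bB : ‖B‖ ≤ 2) :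
    2 * k * P.re + 2 / k * Q.re + 2 / k * B.re - ‖P + conj Q‖ ^ 2 - (2 * k + 20) * s ≤
      2 * k * P'.re + 2 / k * (τ ^ 2 * Q'.re) + 2 / k * (τ ^ 2 * B.re) - ‖P' + conj Q'‖ ^ 2 := by
  have hk0 : 0 < k := by linarith
  have hs0 : 0 ≤ s := (norm_nonneg _).trans hP
  have hkk : 2 / k ≤ 1 := by rw [div_le_one hk0]; exact hk
  have hkk0 : 0 ≤ 2 / k := by positivity
  have hτ2 : 0 ≤ 1 - τ ^ 2 := by nlinarith
  -- first term
  have h1 : P.re - s ≤ P'.re := by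
    have := (abs_le.1 ((Complex.abs_re_le_norm (P' - P)).trans hP)).1
    rw [Complex.sub_re] at this; linarith
  have h1' : 2 * k * (P.re - s) ≤ 2 * k * P'.re := mul_le_mul_of_nonneg_left h1 (by linarith)
  -- second
  have hQ2 : ‖Q'‖ ≤ 2 := by linarith [norm_nonneg P']
  have h2 : Q.re - 3 * s ≤ τ ^ 2 * Q'.re := by
    have h3 := (abs_le.1 ((Complex.abs_re_le_norm (Q' - Q)).trans hQ)).1
    rw [Complex.sub_re] at h3
    have h4 := (abs_le.1 ((Complex.abs_re_le_norm Q').trans hQ2)).2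
    have h5 : (1 - τ ^ 2) * Q'.re ≤ (1 - τ ^ 2) * 2 := mul_le_mul_of_nonneg_left h4 hτ2
    linarith
  have h2' : 2 / k * (Q.re - 3 * s) ≤ 2 / k * (τ ^ 2 * Q'.re) := mul_le_mul_of_nonneg_left h2 hkk0
  have h2'' : 2 / k * (3 * s) ≤ 1 * (3 * s) := mul_le_mul_of_nonneg_right hkk (by linarith)
  -- third
  have h3 : B.re - 2 * s ≤ τ ^ 2 * B.re := by
    have h4 := (abs_le.1 ((Complex.abs_re_le_norm B).trans bB)).2
    have h5 : (1 - τ ^ 2) * B.re ≤ (1 - τ ^ 2) * 2 := mul_le_mul_of_nonneg_left h4 hτ2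
    linarith
  have h3' : 2 / k * (B.re - 2 * s) ≤ 2 / k * (τ ^ 2 * B.re) := mul_le_mul_of_nonneg_left h3 hkk0
  have h3'' : 2 / k * (2 * s) ≤ 1 * (2 * s) := mul_le_mul_of_nonneg_right hkk (by linarith)
  -- fourth
  have hn1 : ‖P + conj Q‖ ≤ 2 := (norm_add_le _ _).trans (by rw [RCLike.norm_conj]; exact bP)
  have hn2 : ‖P' + conj Q'‖ ≤ 2 := (norm_add_le _ _).trans (by rw [RCLike.norm_conj]; exact bP')
  have hn3 : ‖P' + conj Q'‖ ≤ ‖P + conj Q‖ + 2 * s := by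
    have e : P' + conj Q' = (P + conj Q) + ((P' - P) + conj (Q' - Q)) := by rw [map_sub]; ring
    rw [e]
    refine (norm_add_le _ _).trans ?_
    have := norm_add_le (P' - P) (conj (Q' - Q))
    rw [RCLike.norm_conj] at this
    linarith
  have h4 : ‖P' + conj Q'‖ ^ 2 ≤ ‖P + conj Q‖ ^ 2 + 8 * s := by
    have h5 : ‖P' + conj Q'‖ ^ 2 - ‖P + conj Q‖ ^ 2 =
      (‖P' + conj Q'‖ - ‖P + conj Q‖) * (‖P' + conj Q'‖ + ‖P + conj Q‖) := by ring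
    have h6 : (‖P' + conj Q'‖ - ‖P + conj Q‖) * (‖P' + conj Q'‖ + ‖P + conj Q‖) ≤
      (2 * s) * (‖P' + conj Q'‖ + ‖P + conj Q‖) :=
      mul_le_mul_of_nonneg_right (by linarith) (by positivity)
    have h7 : (2 * s) * (‖P' + conj Q'‖ + ‖P + conj Q‖) ≤ (2 * s) * 4 :=
      mul_le_mul_of_nonneg_left (by linarith) (by linarith)
    linarith
  linarith

end

end Vale.P123
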