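import Vale.Agent.P123.TestB

open scoped Real NNReal ComplexConjugate
open Set Filter Topology MeasureTheory

namespace Vale.P123

noncomputable section

variable {D : SDom} {U : Set ℂ} {f : ℂ → ℂ}

/-- the first two transforms -/
def gg (D : SDom) (f : ℂ → ℂ) (n : ℕ) : ℂ → ℂ := D.CT (fun w => conj (f w ^ n))

theorem gg_diff (hU : IsOpen U) (hcl : D.cl ⊆ U) (hf : DifferentiableOn ℂ f U) (n : ℕ) :
    DifferentiableOn ℂ (gg D f n) D.Om := by
  obtain ⟨L, hL⟩ := D.lipschitz_of_differentiableOn hU hcl (hf.pow n)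
  exact D.differentiableOn_CT (LipschitzOnWith.conj' hL).continuousOn

theorem gg_cont (hU : IsOpen U) (hcl : D.cl ⊆ U) (hf : DifferentiableOn ℂ f U) (n : ℕ) :
    ContinuousOn (gg D f n) D.cl := by
  obtain ⟨L, hL⟩ := D.lipschitz_of_differentiableOn hU hcl (hf.pow n)
  exact D.continuousOn_CT (LipschitzOnWith.conj' hL)

theorem gg_eq (hU : IsOpen U) (hUc : Convex ℝ U) (hcl : D.cl ⊆ U) (hf : DifferentiableOn ℂ f U)
    (n : ℕ) {z : ℂ} (hz : z ∈ D.cl) : gg D f n z = D.AV z (fun w => conj (f w ^ n)) :=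
  D.CT_conj_eq hU hUc hcl (hf.pow n) hz

theorem gg_norm (hU : IsOpen U) (hUc : Convex ℝ U) (hcl : D.cl ⊆ U) (hf : DifferentiableOn ℂ f U)
    (hf1 : ∀ z ∈ U, ‖f z‖ ≤ 1) (n : ℕ) {z : ℂ} (hz : z ∈ D.cl) : ‖gg D f n z‖ ≤ 1 := by
  refine D.max_principle (gg_diff hU hcl hf n) (gg_cont hU hcl hf n) (fun w hw hw' => ?_) hz
  rw [gg_eq hU hUc hcl hf n hw]
  have hb : ∀ w ∈ D.cl, ‖conj (f w ^ n)‖ ≤ 1 := fun w hw => by
    rw [RCLike.norm_conj, norm_pow]; exact pow_le_one₀ (norm_nonneg _) (hf1 w (hcl hw))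
  exact SDom.AV_norm_le (W := fun w => conj (f w ^ n)) hw hw'
    (Complex.continuous_conj.comp_continuousOn ((hf.continuousOn.mono hcl).pow n)) (hb w hw)
    fun t => hb _ (D.sigma_mem_cl t)

theorem continuousOn_conj_pow (hcl : D.cl ⊆ U) (hf : DifferentiableOn ℂ f U) (n : ℕ) :
    ContinuousOn (fun w => conj (f w ^ n)) D.cl :=
  Complex.continuous_conj.comp_continuousOn ((hf.continuousOn.mono hcl).pow n)

/-- the pair of transforms lies in the convex hull of the curve `(ζ, ζ ^ 2)` -/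
theorem gg_hull (hU : IsOpen U) (hUc : Convex ℝ U) (hcl : D.cl ⊆ U) (hf : DifferentiableOn ℂ f U)
    (hf1 : ∀ z ∈ U, ‖f z‖ ≤ 1) (α β : ℂ) (c : ℝ)
    (h : ∀ ζ : ℂ, ‖ζ‖ ≤ 1 → c ≤ (α * ζ + β * ζ ^ 2).re) {z : ℂ} (hz : z ∈ D.cl) :
    c ≤ (α * gg D f 1 z + β * gg D f 2 z).re := by
  let G : ℂ → ℂ := fun z => α * gg D f 1 z + β * gg D f 2 z
  have hGd : DifferentiableOn ℂ G D.Om :=
    ((gg_diff hU hcl hf 1).const_mul α).add ((gg_diff hU hcl hf 2).const_mul β)
  have hGc : ContinuousOn G D.cl :=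
    (continuousOn_const.mul (gg_cont hU hcl hf 1)).add (continuousOn_const.mul (gg_cont hU hcl hf 2))
  have hE : ∀ z, ‖Complex.exp (-G z)‖ = Real.exp (-(G z).re) := fun z => by
    rw [Complex.norm_exp, Complex.neg_re]
  have c1 := continuousOn_conj_pow hcl hf 1
  have c2 := continuousOn_conj_pow hcl hf 2
  have hp : ∀ w ∈ D.cl, c ≤ (α * conj (f w ^ 1) + β * conj (f w ^ 2)).re := fun w hw => by
    have := h (conj (f w)) (by rw [RCLike.norm_conj]; exact hf1 w (hcl hw))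
    rw [pow_one, map_pow]; exact this
  have hbd : ∀ w ∈ D.cl, w ∉ D.Om → c ≤ (G w).re := fun w hw hw' => by
    have h1 : G w = D.AV w (fun w => α * conj (f w ^ 1) + β * conj (f w ^ 2)) := by
      rw [SDom.AV_add (W1 := fun w => α * conj (f w ^ 1)) (W2 := fun w => β * conj (f w ^ 2)) hw hw'
        (continuousOn_const.mul c1) (continuousOn_const.mul c2), SDom.AV_const_mul, SDom.AV_const_mul,
        ← gg_eq hU hUc hcl hf 1 hw, ← gg_eq hU hUc hcl hf 2 hw]
    rw [h1]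
    exact SDom.AV_mono (W := fun w => α * conj (f w ^ 1) + β * conj (f w ^ 2)) hw hw'
      ((continuousOn_const.mul c1).add (continuousOn_const.mul c2))
      (hp w hw) fun t => hp _ (D.sigma_mem_cl t)
  have key := D.max_principle (G := fun z => Complex.exp (-G z)) (m := Real.exp (-c))
    hGd.neg.cexp hGc.neg.cexp (fun w hw hw' => by
      rw [hE, Real.exp_le_exp]; exact neg_le_neg (hbd w hw hw')) hz
  rw [hE, Real.exp_le_exp] at key
  exact neg_le_neg_iff.1 key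

theorem re3 (a b : ℝ) (x y w : ℂ) :
    ((a : ℂ) * x + ((b : ℂ) * y + (-1) * w)).re = a * x.re + b * y.re - w.re := by
  rw [Complex.add_re, Complex.re_ofReal_mul, Complex.add_re, Complex.re_ofReal_mul, neg_one_mul,
    Complex.neg_re]
  ring

theorem AV_lin {z : ℂ} (hz : z ∈ D.cl) (hz' : z ∉ D.Om) {W1 W2 W3 : ℂ → ℂ} (a b c : ℂ)
    (h1 : ContinuousOn W1 D.cl) (h2 : ContinuousOn W2 D.cl) (h3 : ContinuousOn W3 D.cl) :
    D.AV z (fun w => a * W1 w + (b * W2 w + c * W3 w)) =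
      a * D.AV z W1 + (b * D.AV z W2 + c * D.AV z W3) := by
  rw [SDom.AV_add (W1 := fun w => a * W1 w) (W2 := fun w => b * W2 w + c * W3 w) hz hz'
    (continuousOn_const.mul h1) ((continuousOn_const.mul h2).add (continuousOn_const.mul h3)),
    SDom.AV_add (W1 := fun w => b * W2 w) (W2 := fun w => c * W3 w) hz hz'
    (continuousOn_const.mul h2) (continuousOn_const.mul h3), SDom.AV_const_mul, SDom.AV_const_mul,
    SDom.AV_const_mul]

/-- the averaged inequality at a boundary point -/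
theorem avg_ineq {a0 a1 c1 c2 k c : ℝ} {z : ℂ} (hz : z ∈ D.cl) (hz' : z ∉ D.Om)
    {u v1 v2 : ℂ → ℂ} (hu : ContinuousOn u D.cl) (hv1 : ContinuousOn v1 D.cl)
    (hv2 : ContinuousOn v2 D.cl)
    (hpt : ∀ w ∈ D.cl, c ≤ jj a0 a1 c1 c2 k (conj (u w)) ((conj (u w)) ^ 2) +
      tt a0 a1 c1 c2 k (u w) (v1 w) (v2 w)) :
    c ≤ 2 * k * ((a0 : ℂ) + a1 * D.AV z (fun w => conj (u w))).re +
      2 / k * ((c1 : ℂ) * D.AV z (fun w => conj (u w)) + c2 * D.AV z (fun w => (conj (u w)) ^ 2)).re -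
      ‖((a0 : ℂ) + a1 * D.AV z (fun w => conj (u w))) +
        conj ((c1 : ℂ) * D.AV z (fun w => conj (u w)) + c2 * D.AV z (fun w => (conj (u w)) ^ 2))‖ ^ 2 +
      2 * k * (D.AV z (fun w => (c1 : ℂ) * v1 w + c2 * (u w * v2 w))).re +
      2 / k * (D.AV z (fun w => u w * ((a0 : ℂ) + a1 * (u w * v1 w)))).re -
      (D.AV z (fun w => conj (u w * ((a0 : ℂ) + a1 * (u w * v1 w)) +
        conj ((c1 : ℂ) * v1 w + c2 * (u w * v2 w))) * (u w * ((a0 : ℂ) + a1 * (u w * v1 w)) +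
        conj ((c1 : ℂ) * v1 w + c2 * (u w * v2 w))))).re := by
  have hub : ContinuousOn (fun w => conj (u w)) D.cl := Complex.continuous_conj.comp_continuousOn hu
  have hub2 : ContinuousOn (fun w => (conj (u w)) ^ 2) D.cl := hub.pow 2
  let P : ℂ → ℂ := fun w => (a0 : ℂ) + a1 * conj (u w)
  let Q : ℂ → ℂ := fun w => (c1 : ℂ) * conj (u w) + c2 * (conj (u w)) ^ 2
  let h1 : ℂ → ℂ := fun w => u w * ((a0 : ℂ) + a1 * (u w * v1 w))
  let h2 : ℂ → ℂ := fun w => (c1 : ℂ) * v1 w + c2 * (u w * v2 w)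
  have hP : ContinuousOn P D.cl := continuousOn_const.add (continuousOn_const.mul hub)
  have hQ : ContinuousOn Q D.cl := (continuousOn_const.mul hub).add (continuousOn_const.mul hub2)
  have hQb : ContinuousOn (fun w => conj (Q w)) D.cl := Complex.continuous_conj.comp_continuousOn hQ
  have hh1 : ContinuousOn h1 D.cl := hu.mul (continuousOn_const.add (continuousOn_const.mul (hu.mul hv1)))
  have hh2 : ContinuousOn h2 D.cl :=
    (continuousOn_const.mul hv1).add (continuousOn_const.mul (hu.mul hv2))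
  have hh2b : ContinuousOn (fun w => conj (h2 w)) D.cl := Complex.continuous_conj.comp_continuousOn hh2
  have hW : ContinuousOn (fun w => P w + conj (Q w)) D.cl := hP.add hQb
  have hWW : ContinuousOn (fun w => conj (P w + conj (Q w)) * (P w + conj (Q w))) D.cl :=
    (Complex.continuous_conj.comp_continuousOn hW).mul hW
  have hR : ContinuousOn (fun w => h1 w + conj (h2 w)) D.cl := hh1.add hh2b
  have hRR : ContinuousOn (fun w => conj (h1 w + conj (h2 w)) * (h1 w + conj (h2 w))) D.cl :=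
    (Complex.continuous_conj.comp_continuousOn hR).mul hR
  let I1 : ℂ → ℂ := fun w => ((2 * k : ℝ) : ℂ) * P w + (((2 / k : ℝ) : ℂ) * Q w +
    (-1) * (conj (P w + conj (Q w)) * (P w + conj (Q w))))
  let I2 : ℂ → ℂ := fun w => ((2 * k : ℝ) : ℂ) * h2 w + (((2 / k : ℝ) : ℂ) * h1 w +
    (-1) * (conj (h1 w + conj (h2 w)) * (h1 w + conj (h2 w))))
  have hI1 : ContinuousOn I1 D.cl := (continuousOn_const.mul hP).add
    ((continuousOn_const.mul hQ).add (continuousOn_const.mul hWW))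
  have hI2 : ContinuousOn I2 D.cl := (continuousOn_const.mul hh2).add
    ((continuousOn_const.mul hh1).add (continuousOn_const.mul hRR))
  have hsq : ∀ w : ℂ, (conj w * w).re = ‖w‖ ^ 2 := fun w => by
    rw [← Complex.normSq_eq_norm_sq, Complex.normSq_apply]; simp
  have hpt' : ∀ w ∈ D.cl, c ≤ (I1 w + I2 w).re := by
    intro w hw
    have h := hpt w hw
    have e1 : (I1 w).re = jj a0 a1 c1 c2 k (conj (u w)) ((conj (u w)) ^ 2) := by
      simp only [I1, P, Q]
      unfold jj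
      rw [re3, hsq]
    have e2 : (I2 w).re = tt a0 a1 c1 c2 k (u w) (v1 w) (v2 w) := by
      simp only [I2, h1, h2]
      unfold tt
      rw [re3, hsq]
    rw [Complex.add_re, e1, e2]; exact h
  have hm := SDom.AV_mono (W := fun w => I1 w + I2 w) hz hz' (hI1.add hI2) (hpt' z hz)
    fun t => hpt' _ (D.sigma_mem_cl t)
  rw [SDom.AV_add hz hz' hI1 hI2] at hm
  have e1 := AV_lin hz hz' ((2 * k : ℝ) : ℂ) ((2 / k : ℝ) : ℂ) (-1) hP hQ hWW
  have e2 := AV_lin hz hz' ((2 * k : ℝ) : ℂ) ((2 / k : ℝ) : ℂ) (-1) hh2 hh1 hRR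
  have eP : D.AV z P = (a0 : ℂ) + a1 * D.AV z (fun w => conj (u w)) := by
    have := SDom.AV_add (W1 := fun _ => (a0 : ℂ)) (W2 := fun w => a1 * conj (u w)) hz hz' continuousOn_const
      (continuousOn_const.mul hub)
    rw [SDom.AV_const, SDom.AV_const_mul] at this
    exact this
  have eQ : D.AV z Q = (c1 : ℂ) * D.AV z (fun w => conj (u w)) +
      c2 * D.AV z (fun w => (conj (u w)) ^ 2) := by
    have := SDom.AV_add (W1 := fun w => c1 * conj (u w)) (W2 := fun w => c2 * conj (u w) ^ 2) hz hz'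
      (continuousOn_const.mul hub) (continuousOn_const.mul hub2)
    rw [SDom.AV_const_mul, SDom.AV_const_mul] at this
    exact this
  have eW : D.AV z (fun w => P w + conj (Q w)) = D.AV z P + conj (D.AV z Q) := by
    rw [SDom.AV_add hz hz' hP hQb, SDom.AV_conj]
  have hJ := SDom.AV_normSq_le hz hz' hW
  rw [eW, eP, eQ] at hJ
  have e1' : D.AV z I1 = ((2 * k : ℝ) : ℂ) * D.AV z P + (((2 / k : ℝ) : ℂ) * D.AV z Q +
    (-1) * D.AV z (fun w => conj (P w + conj (Q w)) * (P w + conj (Q w)))) := e1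
  have e2' : D.AV z I2 = ((2 * k : ℝ) : ℂ) * D.AV z h2 + (((2 / k : ℝ) : ℂ) * D.AV z h1 +
    (-1) * D.AV z (fun w => conj (h1 w + conj (h2 w)) * (h1 w + conj (h2 w)))) := e2
  rw [e1', e2', eP, eQ, Complex.add_re, re3, re3] at hm
  linarith

end

end Vale.P123
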