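import Vale.Agent.P123.TestC

open scoped Real NNReal ComplexConjugate
open Set Filter Topology MeasureTheory

namespace Vale.P123

noncomputable section

variable {D : SDom} {U : Set ℂ} {f : ℂ → ℂ}

theorem norm_comb1 {a0 a1 : ℝ} {x y : ℂ} (hx : ‖x‖ ≤ 1) (hy : ‖y‖ ≤ 1) :
    ‖x * ((a0 : ℂ) + a1 * (x * y))‖ ≤ |a0| + |a1| := by
  have h1 : ‖(a0 : ℂ) + a1 * (x * y)‖ ≤ |a0| + |a1| := by
    refine (norm_add_le _ _).trans (add_le_add (by rw [Complex.norm_real, Real.norm_eq_abs]) ?_)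
    rw [norm_mul, norm_mul, Complex.norm_real, Real.norm_eq_abs]
    have : ‖x‖ * ‖y‖ ≤ 1 := mul_le_one₀ hx (norm_nonneg _) hy
    calc |a1| * (‖x‖ * ‖y‖) ≤ |a1| * 1 := mul_le_mul_of_nonneg_left this (abs_nonneg _)
      _ = |a1| := mul_one _
  rw [norm_mul]
  calc ‖x‖ * ‖(a0 : ℂ) + a1 * (x * y)‖ ≤ 1 * (|a0| + |a1|) := mul_le_mul hx h1 (norm_nonneg _) zero_le_one
    _ = _ := one_mul _

theorem norm_comb2 {c1 c2 : ℝ} {x y y2 : ℂ} (hx : ‖x‖ ≤ 1) (hy : ‖y‖ ≤ 1) (hy2 : ‖y2‖ ≤ 1) :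
    ‖(c1 : ℂ) * y + c2 * (x * y2)‖ ≤ |c1| + |c2| := by
  refine (norm_add_le _ _).trans (add_le_add ?_ ?_)
  · rw [norm_mul, Complex.norm_real, Real.norm_eq_abs]
    calc |c1| * ‖y‖ ≤ |c1| * 1 := mul_le_mul_of_nonneg_left hy (abs_nonneg _)
      _ = |c1| := mul_one _
  · rw [norm_mul, norm_mul, Complex.norm_real, Real.norm_eq_abs]
    have : ‖x‖ * ‖y2‖ ≤ 1 := mul_le_one₀ hx (norm_nonneg _) hy2
    calc |c2| * (‖x‖ * ‖y2‖) ≤ |c2| * 1 := mul_le_mul_of_nonneg_left this (abs_nonneg _)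
      _ = |c2| := mul_one _

/-- construction of the test function -/
theorem exists_test (hU : IsOpen U) (hUc : Convex ℝ U) (hcl : D.cl ⊆ U)
    (hf : DifferentiableOn ℂ f U) (hf1 : ∀ z ∈ U, ‖f z‖ ≤ 1) {a0 a1 c1 c2 δ k Kmax : ℝ}
    (hb : |a0| + |a1| + |c1| + |c2| ≤ 2) (hδ : 0 < δ) (hk : 2 ≤ k) (hkm : k ≤ Kmax)
    (hineq : ∀ u v : ℂ, ‖u‖ ≤ 1 → ‖v‖ ≤ 1 →
      2 + 2 * δ ≤ jj a0 a1 c1 c2 k (conj u) ((conj u) ^ 2) + tt a0 a1 c1 c2 k u v (v ^ 2)) :
    Nonempty (Test D f k (δ / 2) (4 * Kmax + 40)) := by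
  have hk0 : 0 < k := by linarith
  have na0 := abs_nonneg a0
  have na1 := abs_nonneg a1
  have nc1 := abs_nonneg c1
  have nc2 := abs_nonneg c2
  set η : ℝ := δ / (4 * k + 40) with hη
  have hη0 : 0 < η := by positivity
  obtain ⟨r, ⟨hr1, hr2⟩, hr⟩ := (((D.dilate_unif (gg_cont hU hcl hf 1) hη0).and
    (D.dilate_unif (gg_cont hU hcl hf 2) hη0)).and (Ioo_mem_nhdsLT (show (0:ℝ) < 1 by norm_num))).exists
  have hr0 : 0 < r := hr.1
  have hrlt : r < 1 := hr.2
  let V : Set ℂ := D.dil r ∩ U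
  have hV : IsOpen V := (D.isOpen_dil r).inter hU
  have hVc : Convex ℝ V := (D.convex_dil r).inter hUc
  have hclV : D.cl ⊆ V := subset_inter (D.cl_subset_dil hr0.le hrlt) hcl
  let t1 : ℂ → ℂ := fun z => gg D f 1 ((r : ℂ) * z)
  let t2 : ℂ → ℂ := fun z => gg D f 2 ((r : ℂ) * z)
  have ht1d : DifferentiableOn ℂ t1 V :=
    (D.differentiableOn_dil (gg_diff hU hcl hf 1) r).mono inter_subset_left
  have ht2d : DifferentiableOn ℂ t2 V :=
    (D.differentiableOn_dil (gg_diff hU hcl hf 2) r).mono inter_subset_left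
  have hfV : DifferentiableOn ℂ f V := hf.mono inter_subset_right
  have ht1c : ContinuousOn t1 D.cl := ht1d.continuousOn.mono hclV
  have ht2c : ContinuousOn t2 D.cl := ht2d.continuousOn.mono hclV
  have hfc : ContinuousOn f D.cl := hf.continuousOn.mono hcl
  have hf1' : ∀ z ∈ D.cl, ‖f z‖ ≤ 1 := fun z hz => hf1 z (hcl hz)
  have hrz : ∀ z ∈ D.cl, (r : ℂ) * z ∈ D.cl := fun z hz => D.Om_subset_cl (D.smul_mem_Om hz hr0.le hrlt)
  have ht1n : ∀ z ∈ D.cl, ‖t1 z‖ ≤ 1 := fun z hz => gg_norm hU hUc hcl hf hf1 1 (hrz z hz)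
  have ht2n : ∀ z ∈ D.cl, ‖t2 z‖ ≤ 1 := fun z hz => gg_norm hU hUc hcl hf hf1 2 (hrz z hz)
  let H1 : ℂ → ℂ := fun z => f z * ((a0 : ℂ) + a1 * (f z * t1 z))
  let H2 : ℂ → ℂ := fun z => (c1 : ℂ) * t1 z + c2 * (f z * t2 z)
  have hH1 : DifferentiableOn ℂ H1 V :=
    hfV.mul ((differentiableOn_const _).add ((hfV.mul ht1d).const_mul _))
  have hH2 : DifferentiableOn ℂ H2 V := (ht1d.const_mul _).add ((hfV.mul ht2d).const_mul _)
  obtain ⟨L1, hL1⟩ := D.lipschitz_of_differentiableOn hV hclV hH1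
  obtain ⟨L2, hL2⟩ := D.lipschitz_of_differentiableOn hV hclV hH2
  have hL1' : LipschitzOnWith L1 (fun z => conj (H1 z)) D.cl := LipschitzOnWith.conj' hL1
  have hL2' : LipschitzOnWith L2 (fun z => conj (H2 z)) D.cl := LipschitzOnWith.conj' hL2
  let F : ℂ → ℂ := fun z => H1 z + conj (H2 z)
  have hF : LipschitzOnWith (L1 + L2) F D.cl := hL1.add hL2'
  have nH1 : ∀ z ∈ D.cl, ‖H1 z‖ ≤ |a0| + |a1| := fun z hz => norm_comb1 (hf1' z hz) (ht1n z hz)
  have nH2 : ∀ z ∈ D.cl, ‖H2 z‖ ≤ |c1| + |c2| := fun z hz => norm_comb2 (hf1' z hz) (ht1n z hz) (ht2n z hz)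
  have nF : ∀ z ∈ D.cl, ‖F z‖ ≤ 2 := fun z hz => by
    refine (norm_add_le _ _).trans ?_
    rw [RCLike.norm_conj]
    linarith [nH1 z hz, nH2 z hz]
  have cH1 : ContinuousOn H1 D.cl := hL1.continuousOn
  have cH2 : ContinuousOn H2 D.cl := hL2.continuousOn
  have cF : ContinuousOn F D.cl := hF.continuousOn
  -- Cauchy transforms
  have eCF : ∀ z ∈ D.cl, D.CT F z = H1 z + D.AV z (fun w => conj (H2 w)) := fun z hz => by
    have := D.CT_add hL1 hL2' hz
    rw [D.CT_of_differentiableOn hV hVc hclV hH1 hz, D.CT_conj_eq hV hVc hclV hH2 hz] at this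
    exact this
  have eCFb : ∀ z ∈ D.cl, D.CT (fun z => conj (F z)) z = D.AV z (fun w => conj (H1 w)) + H2 z := fun z hz => by
    have := D.CT_add hL1' hL2 hz
    rw [D.CT_of_differentiableOn hV hVc hclV hH2 hz, D.CT_conj_eq hV hVc hclV hH1 hz] at this
    rw [← this]
    congr 1
    funext w
    simp only [F]
    rw [map_add, Complex.conj_conj]
  have hWl : LipschitzOnWith (4 * (L1 + L2)) (fun z => conj (F z) * F z) D.cl :=
    LipschitzOnWith.conj_mul_self hF nF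
  have cW : ContinuousOn (fun z => conj (F z) * F z) D.cl := hWl.continuousOn
  have hsq : ∀ w : ℂ, (conj w * w).re = ‖w‖ ^ 2 := fun w => by
    rw [← Complex.normSq_eq_norm_sq, Complex.normSq_apply]; simp
  have eCW : ∀ z ∈ D.cl, 2 * (D.CT (fun z => conj (F z) * F z) z).re =
      ‖F z‖ ^ 2 + (D.AV z (fun z => conj (F z) * F z)).re := fun z hz => by
    have h := congrArg Complex.re (D.CT_add_conj hWl hz)
    have e : (fun w => conj (conj (F w) * F w)) = fun w => conj (F w) * F w := by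
      funext w; rw [map_mul, Complex.conj_conj, mul_comm]
    rw [e, Complex.add_re, Complex.add_re, Complex.conj_re, hsq] at h
    linarith
  have nAV1 : ∀ z ∈ D.cl, z ∉ D.Om → ‖D.AV z (fun w => conj (H1 w))‖ ≤ |a0| + |a1| := fun z hz hz' =>
    SDom.AV_norm_le (W := fun w => conj (H1 w)) hz hz' (Complex.continuous_conj.comp_continuousOn cH1)
      (by rw [RCLike.norm_conj]; exact nH1 z hz)
      (fun t => by rw [RCLike.norm_conj]; exact nH1 _ (D.sigma_mem_cl t))
  have nAV2 : ∀ z ∈ D.cl, z ∉ D.Om → ‖D.AV z (fun w => conj (H2 w))‖ ≤ |c1| + |c2| := fun z hz hz' =>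
    SDom.AV_norm_le (W := fun w => conj (H2 w)) hz hz' (Complex.continuous_conj.comp_continuousOn cH2)
      (by rw [RCLike.norm_conj]; exact nH2 z hz)
      (fun t => by rw [RCLike.norm_conj]; exact nH2 _ (D.sigma_mem_cl t))
  have hW0 : ∀ z ∈ D.cl, 0 ≤ (conj (F z) * F z).re := fun z _ => by rw [hsq]; positivity
  have hW4 : ∀ z ∈ D.cl, ‖conj (F z) * F z‖ ≤ 4 := fun z hz => by
    rw [norm_mul, RCLike.norm_conj]
    have := nF z hz
    nlinarith [norm_nonneg (F z)]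
  refine ⟨⟨F, L1 + L2, hF, nF, fun z hz hz' => ?_, fun z hz hz' => ?_, fun z hz hz' => ?_,
    fun z hz hz' => ?_, fun z hz hz' e τ he hτ0 hτ1 hfe => ?_⟩⟩
  · rw [eCF z hz]
    refine (norm_add_le _ _).trans ?_
    linarith [nH1 z hz, nAV2 z hz hz']
  · rw [eCFb z hz]
    refine (norm_add_le _ _).trans ?_
    linarith [nH2 z hz, nAV1 z hz hz']
  · have h1 := eCW z hz
    have h2 : 0 ≤ (D.AV z (fun z => conj (F z) * F z)).re :=
      SDom.AV_mono (W := fun z => conj (F z) * F z) hz hz' cW (hW0 z hz) fun t => hW0 _ (D.sigma_mem_cl t)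
    have h3 := sq_nonneg ‖F z‖
    linarith
  · have h1 := eCW z hz
    have h2 : ‖D.AV z (fun z => conj (F z) * F z)‖ ≤ 4 :=
      SDom.AV_norm_le (W := fun z => conj (F z) * F z) hz hz' cW (hW4 z hz) fun t => hW4 _ (D.sigma_mem_cl t)
    have h3 : ‖F z‖ ^ 2 ≤ 4 := by
      have := nF z hz
      nlinarith [norm_nonneg (F z)]
    have h4 := (abs_le.1 ((Complex.abs_re_le_norm _).trans h2)).2
    linarith
  · -- the key inequality
    have hee : conj e * e = 1 := by
      rw [mul_comm, Complex.mul_conj, Complex.normSq_eq_norm_sq, he]; simp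
    let u : ℂ → ℂ := fun w => conj e * f w
    let v1 : ℂ → ℂ := fun w => e * t1 w
    let v2 : ℂ → ℂ := fun w => e ^ 2 * t2 w
    have cu : ContinuousOn u D.cl := continuousOn_const.mul hfc
    have cv1 : ContinuousOn v1 D.cl := continuousOn_const.mul ht1c
    have cv2 : ContinuousOn v2 D.cl := continuousOn_const.mul ht2c
    have nu : ∀ w ∈ D.cl, ‖u w‖ ≤ 1 := fun w hw => by
      simp only [u]; rw [norm_mul, RCLike.norm_conj, he, one_mul]; exact hf1' w hw
    have hpt : ∀ w ∈ D.cl, 2 + 2 * δ ≤ jj a0 a1 c1 c2 k (conj (u w)) ((conj (u w)) ^ 2) +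
        tt a0 a1 c1 c2 k (u w) (v1 w) (v2 w) := by
      intro w hw
      have h := tt_of_hull (a0 := a0) (a1 := a1) (c1 := c1) (c2 := c2) (k := k)
        (c := 2 + 2 * δ - jj a0 a1 c1 c2 k (conj (u w)) ((conj (u w)) ^ 2)) (u := u w)
        (v1 := v1 w) (v2 := v2 w) (fun α β c h => ?_) (fun ζ hζ => ?_)
      · linarith
      · have h3 := gg_hull hU hUc hcl hf hf1 (α * e) (β * e ^ 2) c (fun ζ hζ => by
          have := h (e * ζ) (by rw [norm_mul, he, one_mul]; exact hζ)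
          have e1 : α * (e * ζ) + β * (e * ζ) ^ 2 = α * e * ζ + β * e ^ 2 * ζ ^ 2 := by ring
          rwa [e1] at this) (hrz w hw)
        have e1 : α * v1 w + β * v2 w = α * e * gg D f 1 ((r : ℂ) * w) + β * e ^ 2 * gg D f 2 ((r : ℂ) * w) := by
          simp only [v1, v2, t1, t2]; ring
        rw [e1]; exact h3
      · linarith [hineq (u w) ζ (nu w hw) hζ]
    have hA := avg_ineq hz hz' cu cv1 cv2 hpt
    -- identify the averages
    have x1 : D.AV z (fun w => conj (u w)) = e * gg D f 1 z := by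
      rw [gg_eq hU hUc hcl hf 1 hz, ← SDom.AV_const_mul]
      congr 1; funext w
      simp only [u]; rw [map_mul, Complex.conj_conj, pow_one]
    have x2 : D.AV z (fun w => (conj (u w)) ^ 2) = e ^ 2 * gg D f 2 z := by
      rw [gg_eq hU hUc hcl hf 2 hz, ← SDom.AV_const_mul]
      congr 1; funext w
      simp only [u]; rw [map_mul, Complex.conj_conj, map_pow]; ring
    have hh1 : (fun w => u w * ((a0 : ℂ) + a1 * (u w * v1 w))) = fun w => conj e * H1 w := by
      funext w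
      simp only [u, v1, H1]
      linear_combination (conj e * f w * (a1 * f w * t1 w)) * hee
    have hh2 : (fun w => (c1 : ℂ) * v1 w + c2 * (u w * v2 w)) = fun w => e * H2 w := by
      funext w
      simp only [u, v1, v2, H2]
      linear_combination (e * c2 * f w * t2 w) * hee
    have hh3 : (fun w => conj (u w * ((a0 : ℂ) + a1 * (u w * v1 w)) +
        conj ((c1 : ℂ) * v1 w + c2 * (u w * v2 w))) * (u w * ((a0 : ℂ) + a1 * (u w * v1 w)) +
        conj ((c1 : ℂ) * v1 w + c2 * (u w * v2 w)))) = fun w => conj (F w) * F w := by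
      funext w
      have e1 : u w * ((a0 : ℂ) + a1 * (u w * v1 w)) = conj e * H1 w := congrFun hh1 w
      have e2 : (c1 : ℂ) * v1 w + c2 * (u w * v2 w) = e * H2 w := congrFun hh2 w
      rw [e1, e2]
      simp only [F, map_add, map_mul, Complex.conj_conj]
      linear_combination ((conj (H1 w) + H2 w) * (H1 w + conj (H2 w))) * hee
    rw [x1, x2, hh1, hh2, hh3] at hA
    -- error estimate
    have hτ2 : τ ^ 2 ≤ 1 := by nlinarith
    have g1n := gg_norm hU hUc hcl hf hf1 1 hz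
    have g2n := gg_norm hU hUc hcl hf hf1 2 hz
    have t1n := ht1n z hz
    have t2n := ht2n z hz
    have d1 : ‖t1 z - gg D f 1 z‖ ≤ η := hr1 z hz
    have d2 : ‖t2 z - gg D f 2 z‖ ≤ η := hr2 z hz
    let P' : ℂ := τ * ((a0 : ℂ) + a1 * (τ * (e * t1 z)))
    let Q' : ℂ := (c1 : ℂ) * (e * t1 z) + c2 * (τ * (e ^ 2 * t2 z))
    let P : ℂ := (a0 : ℂ) + a1 * (e * gg D f 1 z)
    let Q : ℂ := (c1 : ℂ) * (e * gg D f 1 z) + c2 * (e ^ 2 * gg D f 2 z)
    have hτn : ‖(τ : ℂ)‖ = τ := by rw [Complex.norm_real, Real.norm_of_nonneg hτ0]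
    have nabs : ∀ a : ℝ, ‖(a : ℂ)‖ = |a| := fun a => by rw [Complex.norm_real, Real.norm_eq_abs]
    have n1τ : ‖((1 - τ : ℝ) : ℂ)‖ = 1 - τ := by
      rw [Complex.norm_real, Real.norm_of_nonneg (by linarith)]
    have n1τ2 : ‖((1 - τ ^ 2 : ℝ) : ℂ)‖ = 1 - τ ^ 2 := by
      rw [Complex.norm_real, Real.norm_of_nonneg (by linarith)]
    have h1τ : 1 - τ ^ 2 ≤ 2 * (1 - τ) := by nlinarith
    have nP : ‖P‖ ≤ |a0| + |a1| := by
      refine (norm_add_le _ _).trans (add_le_add (nabs a0).le ?_)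
      rw [norm_mul, norm_mul, he, one_mul, nabs]
      calc |a1| * _ ≤ |a1| * 1 := mul_le_mul_of_nonneg_left g1n na1
        _ = |a1| := mul_one _
    have nQ : ‖Q‖ ≤ |c1| + |c2| := by
      refine (norm_add_le _ _).trans (add_le_add ?_ ?_)
      · rw [norm_mul, norm_mul, he, one_mul, nabs]
        calc |c1| * _ ≤ |c1| * 1 := mul_le_mul_of_nonneg_left g1n nc1
          _ = |c1| := mul_one _
      · rw [norm_mul, norm_mul, norm_pow, he, one_pow, one_mul, nabs]
        calc |c2| * _ ≤ |c2| * 1 := mul_le_mul_of_nonneg_left g2n nc2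
          _ = |c2| := mul_one _
    have eP' : P' = conj e * H1 z := by
      simp only [P', H1]
      rw [hfe]
      linear_combination (-(τ : ℂ) * (a0 + a1 * (τ * (e * t1 z)))) * hee
    have eQ' : Q' = e * H2 z := by
      simp only [Q', H2]
      rw [hfe]; ring
    have nP' : ‖P'‖ ≤ |a0| + |a1| := by
      rw [eP', norm_mul, RCLike.norm_conj, he, one_mul]; exact nH1 z hz
    have nQ' : ‖Q'‖ ≤ |c1| + |c2| := by
      rw [eQ', norm_mul, he, one_mul]; exact nH2 z hz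
    have hdP : ‖P' - P‖ ≤ 4 * (1 - τ) + 2 * η := by
      have e1 : P' - P = -((a0 : ℂ) * ((1 - τ : ℝ) : ℂ)) + a1 * (e * (t1 z - gg D f 1 z)) -
          a1 * (((1 - τ ^ 2 : ℝ) : ℂ) * (e * t1 z)) := by
        simp only [P', P]; push_cast; ring
      rw [e1]
      refine (norm_sub_le _ _).trans ?_
      have b1 := norm_add_le (-((a0 : ℂ) * ((1 - τ : ℝ) : ℂ))) (a1 * (e * (t1 z - gg D f 1 z)))
      have b2 : ‖-((a0 : ℂ) * ((1 - τ : ℝ) : ℂ))‖ = |a0| * (1 - τ) := by
        rw [norm_neg, norm_mul, n1τ, nabs]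
      have b3 : ‖(a1 : ℂ) * (e * (t1 z - gg D f 1 z))‖ ≤ |a1| * η := by
        rw [norm_mul, norm_mul, he, one_mul, nabs]
        exact mul_le_mul_of_nonneg_left d1 na1
      have b4 : ‖(a1 : ℂ) * (((1 - τ ^ 2 : ℝ) : ℂ) * (e * t1 z))‖ ≤ |a1| * (2 * (1 - τ)) := by
        rw [norm_mul, norm_mul, norm_mul, he, one_mul, n1τ2, nabs]
        refine mul_le_mul_of_nonneg_left ?_ na1
        calc (1 - τ ^ 2) * ‖t1 z‖ ≤ (1 - τ ^ 2) * 1 := mul_le_mul_of_nonneg_left t1n (by linarith)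
          _ ≤ 2 * (1 - τ) := by linarith
      have b5 : |a0| * (1 - τ) ≤ |a0| * (2 * (1 - τ)) := mul_le_mul_of_nonneg_left (by linarith) na0
      have b6 : (|a0| + |a1|) * (2 * (1 - τ)) ≤ 2 * (2 * (1 - τ)) :=
        mul_le_mul_of_nonneg_right (by linarith) (by linarith)
      have b7 : |a1| * η ≤ 2 * η := mul_le_mul_of_nonneg_right (by linarith) hη0.le
      rw [add_mul] at b6
      linarith
    have hdQ : ‖Q' - Q‖ ≤ 4 * (1 - τ) + 2 * η := by
      have e1 : Q' - Q = (c1 : ℂ) * (e * (t1 z - gg D f 1 z)) + c2 * (e ^ 2 * (t2 z - gg D f 2 z)) -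
          c2 * (((1 - τ : ℝ) : ℂ) * (e ^ 2 * t2 z)) := by
        simp only [Q', Q]; push_cast; ring
      rw [e1]
      refine (norm_sub_le _ _).trans ?_
      have b1 := norm_add_le ((c1 : ℂ) * (e * (t1 z - gg D f 1 z))) (c2 * (e ^ 2 * (t2 z - gg D f 2 z)))
      have b2 : ‖(c1 : ℂ) * (e * (t1 z - gg D f 1 z))‖ ≤ |c1| * η := by
        rw [norm_mul, norm_mul, he, one_mul, nabs]
        exact mul_le_mul_of_nonneg_left d1 nc1
      have b3 : ‖(c2 : ℂ) * (e ^ 2 * (t2 z - gg D f 2 z))‖ ≤ |c2| * η := by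
        rw [norm_mul, norm_mul, norm_pow, he, one_pow, one_mul, nabs]
        exact mul_le_mul_of_nonneg_left d2 nc2
      have b4 : ‖(c2 : ℂ) * (((1 - τ : ℝ) : ℂ) * (e ^ 2 * t2 z))‖ ≤ |c2| * (1 - τ) := by
        rw [norm_mul, norm_mul, norm_mul, norm_pow, he, one_pow, one_mul, n1τ, nabs]
        refine mul_le_mul_of_nonneg_left ?_ nc2
        calc (1 - τ) * ‖t2 z‖ ≤ (1 - τ) * 1 := mul_le_mul_of_nonneg_left t2n (by linarith)
          _ = 1 - τ := mul_one _
      have b6 : (|c1| + |c2|) * η ≤ 2 * η := mul_le_mul_of_nonneg_right (by linarith) hη0.le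
      have b7 : |c2| * (1 - τ) ≤ 2 * (1 - τ) := mul_le_mul_of_nonneg_right (by linarith) (by linarith)
      rw [add_mul] at b6
      linarith
    have nB : ‖D.AV z (fun w => conj (conj e * H1 w))‖ ≤ 2 := by
      have : (fun w => conj (conj e * H1 w)) = fun w => e * conj (H1 w) := by
        funext w; rw [map_mul, Complex.conj_conj]
      rw [this, SDom.AV_const_mul, norm_mul, he, one_mul]
      linarith [nAV1 z hz hz']
    have herr := err_est (k := k) (τ := τ) (s := 4 * (1 - τ) + 2 * η) (P := P) (P' := P') (Q := Q)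
      (Q' := Q') (B := D.AV z (fun w => conj (conj e * H1 w))) hk hτ0 hτ1
      (by linarith) hdP hdQ (by linarith) (by linarith) nB
    -- translate
    have hBre : (D.AV z (fun w => conj (conj e * H1 w))).re = (D.AV z (fun w => conj e * H1 w)).re := by
      rw [SDom.AV_conj, Complex.conj_re]
    have T1 : (conj e * D.CT F z).re = P'.re + (D.AV z (fun w => e * H2 w)).re := by
      rw [eCF z hz, mul_add, ← eP', Complex.add_re, ← SDom.AV_const_mul]
      have : (fun w => conj e * conj (H2 w)) = fun w => conj (e * H2 w) := by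
        funext w; rw [map_mul]
      rw [this, SDom.AV_conj, Complex.conj_re]
    have T2 : (conj e * ((f z) ^ 2 / (k : ℂ) ^ 2 * D.CT (fun z => conj (F z)) z)).re =
        1 / k ^ 2 * (τ ^ 2 * (Q'.re + (D.AV z (fun w => conj (conj e * H1 w))).re)) := by
      have e1 : conj e * ((f z) ^ 2 / (k : ℂ) ^ 2 * D.CT (fun z => conj (F z)) z) =
          ((1 / k ^ 2 * τ ^ 2 : ℝ) : ℂ) * (Q' + D.AV z (fun w => conj (conj e * H1 w))) := by
        have e2 : D.AV z (fun w => conj (conj e * H1 w)) = e * D.AV z (fun w => conj (H1 w)) := by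
          rw [← SDom.AV_const_mul]
          congr 1; funext w; rw [map_mul, Complex.conj_conj]
        rw [e2, eCFb z hz, eQ', hfe]
        push_cast
        have hkC : (k : ℂ) ≠ 0 := by exact_mod_cast hk0.ne'
        field_simp
        linear_combination (τ ^ 2 * e * (D.AV z (fun w => conj (H1 w)) + H2 z)) * hee
      rw [e1, Complex.re_ofReal_mul, Complex.add_re]
      ring
    have T3 : ‖F z‖ ^ 2 = ‖P' + conj Q'‖ ^ 2 := by
      have : P' + conj Q' = conj e * F z := by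
        rw [eP', eQ', map_mul]; simp only [F]; ring
      rw [this, norm_mul, RCLike.norm_conj, he, one_mul]
    have T4 := eCW z hz
    rw [mul_add, Complex.add_re, T1, T2]
    rw [hBre] at herr
    rw [hBre]
    have hkk : k * (1 / k ^ 2 * (τ ^ 2 * (Q'.re + (D.AV z (fun w => conj e * H1 w)).re))) =
        1 / 2 * (2 / k * (τ ^ 2 * Q'.re) + 2 / k * (τ ^ 2 * (D.AV z (fun w => conj e * H1 w)).re)) := by
      field_simp
    have hηk : (2 * k + 20) * (2 * η) = δ := by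
      rw [hη]; field_simp; ring
    have hCk : (2 * k + 20) * (4 * (1 - τ)) ≤ (2 * Kmax + 20) * (4 * (1 - τ)) :=
      mul_le_mul_of_nonneg_right (by linarith) (by linarith)
    have hA' : 2 + 2 * δ ≤ 2 * k * P.re + 2 / k * Q.re - ‖P + conj Q‖ ^ 2 +
      2 * k * (D.AV z (fun w => e * H2 w)).re + 2 / k * (D.AV z (fun w => conj e * H1 w)).re -
      (D.AV z (fun w => conj (F w) * F w)).re := hA
    rw [T3] at T4
    rw [mul_add k, hkk, mul_add k]
    linarith

end

end Vale.P123
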