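import Vale.Agent.P123.Pert
import Vale.Agent.P123.Seq

open scoped Real NNReal ComplexConjugate
open Set Filter Topology MeasureTheory

universe u

namespace Vale.P123

noncomputable section

variable {V : Type u} [NormedAddCommGroup V] [InnerProductSpace ℂ V]

/-- the vectors `u_N = ∑ φ^(N-m) ξ_m` -/
def uu (φ : ℂ) (ξ : ℕ → V) : ℕ → V
  | 0 => 0
  | n + 1 => φ • uu φ ξ n + ξ n

theorem uu_eq (φ : ℂ) (ξ : ℕ → V) (n : ℕ) :
    φ • uu φ ξ n = ∑ m ∈ Finset.range n, φ ^ (n - m) • ξ m := by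
  induction n with
  | zero => simp [uu]
  | succ n ih =>
    rw [uu, Finset.sum_range_succ, smul_add, ih, Finset.smul_sum, Nat.add_sub_cancel_left, pow_one]
    congr 1
    refine Finset.sum_congr rfl fun m hm => ?_
    have hm' := Finset.mem_range.1 hm
    rw [smul_smul, show n + 1 - m = (n - m) + 1 by omega, pow_succ, mul_comm]

/-- pointwise Toeplitz positivity -/
theorem toep_pointwise (L : V →L[ℂ] V) (hL : ∀ v, 0 ≤ (inner ℂ v (L v)).re) {φ : ℂ} (hφ : ‖φ‖ ≤ 1)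
    (ξ : ℕ → V) (N : ℕ) :
    0 ≤ (∑ n ∈ Finset.range N, (inner ℂ (ξ n) (L (ξ n)) +
      ∑ m ∈ Finset.range n, (φ ^ (n - m) * inner ℂ (ξ n) (L (ξ m)) +
        conj φ ^ (n - m) * inner ℂ (ξ m) (L (ξ n))))).re := by
  suffices h : (inner ℂ (uu φ ξ N) (L (uu φ ξ N))).re ≤ (∑ n ∈ Finset.range N, (inner ℂ (ξ n) (L (ξ n)) +
      ∑ m ∈ Finset.range n, (φ ^ (n - m) * inner ℂ (ξ n) (L (ξ m)) +
        conj φ ^ (n - m) * inner ℂ (ξ m) (L (ξ n))))).re from (hL _).trans h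
  induction N with
  | zero => simp [uu]
  | succ N ih =>
    rw [Finset.sum_range_succ, Complex.add_re]
    have e1 : ∑ m ∈ Finset.range N, (φ ^ (N - m) * inner ℂ (ξ N) (L (ξ m)) +
        conj φ ^ (N - m) * inner ℂ (ξ m) (L (ξ N))) =
        inner ℂ (ξ N) (L (φ • uu φ ξ N)) + inner ℂ (φ • uu φ ξ N) (L (ξ N)) := by
      rw [uu_eq, map_sum, inner_sum, sum_inner, ← Finset.sum_add_distrib]
      refine Finset.sum_congr rfl fun m _ => ?_
      rw [map_smul, inner_smul_right, inner_smul_left, map_pow]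
    have e2 : inner ℂ (uu φ ξ (N + 1)) (L (uu φ ξ (N + 1))) =
        inner ℂ (φ • uu φ ξ N) (L (φ • uu φ ξ N)) + (inner ℂ (ξ N) (L (ξ N)) +
        (inner ℂ (ξ N) (L (φ • uu φ ξ N)) + inner ℂ (φ • uu φ ξ N) (L (ξ N)))) := by
      rw [uu, map_add, inner_add_left, inner_add_right, inner_add_right]
      ring
    have e3 : (inner ℂ (φ • uu φ ξ N) (L (φ • uu φ ξ N))).re ≤ (inner ℂ (uu φ ξ N) (L (uu φ ξ N))).re := by
      rw [map_smul, inner_smul_right, inner_smul_left, ← mul_assoc, Complex.mul_conj,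
        Complex.re_ofReal_mul, Complex.normSq_eq_norm_sq]
      have h1 : ‖φ‖ ^ 2 ≤ 1 := pow_le_one₀ (norm_nonneg _) hφ
      have := hL (uu φ ξ N)
      nlinarith
    rw [e1, e2, Complex.add_re]
    linarith

variable {D : SDom}

namespace Dat

variable (A : Dat D V)

theorem f_pow (g : ℂ → ℂ) (n : ℕ) : A.f g ^ n = A.f (fun z => g z ^ n) := by
  induction n with
  | zero => simp [A.f_one]
  | succ n ih =>
    rw [pow_succ, ih, A.f_mul]
    exact fc_congr fun l _ => (pow_succ _ _).symm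

/-- Toeplitz positivity -/
theorem toep {g : ℂ → ℂ} (hg : Differentiable ℂ g) (hg1 : ∀ z ∈ D.cl, ‖g z‖ ≤ 1)
    (ξ : ℕ → V) (N : ℕ) :
    0 ≤ (∑ n ∈ Finset.range N, (inner ℂ (ξ n) (ξ n) +
      ∑ m ∈ Finset.range n, (inner ℂ (ξ n) ((A.f g ^ (n - m)) (ξ m)) +
        inner ℂ (ξ m) (A.f (D.CT (fun z => conj (g z) ^ (n - m))) (ξ n))))).re := by
  have hgc : Continuous g := hg.continuous
  have hgb : Continuous (fun z => conj (g z)) := Complex.continuous_conj.comp hgc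
  have iA : ∀ n, IntervalIntegrable (fun t => inner ℂ (ξ n) (A.K t (ξ n))) volume 0 (2 * π) ∧
      ∫ t in (0:ℝ)..(2 * π), inner ℂ (ξ n) (A.K t (ξ n)) = inner ℂ (ξ n) (ξ n) := by
    intro n
    have h := A.integral_K (W := fun _ => 1) continuousOn_const (ξ n) (ξ n)
    simp only [one_mul] at h
    rw [A.f_CT_one] at h
    exact h
  have iB : ∀ n m k : ℕ, IntervalIntegrable (fun t => g (D.sigma t) ^ k * inner ℂ (ξ n) (A.K t (ξ m))) volume 0 (2 * π) ∧
      ∫ t in (0:ℝ)..(2 * π), g (D.sigma t) ^ k * inner ℂ (ξ n) (A.K t (ξ m)) =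
      inner ℂ (ξ n) ((A.f g ^ k) (ξ m)) := by
    intro n m k
    have h := A.integral_K (W := fun z => g z ^ k) (hgc.pow k).continuousOn (ξ n) (ξ m)
    refine ⟨h.1, h.2.trans ?_⟩
    rw [A.f_pow]
    have : A.f (D.CT (fun z => g z ^ k)) = A.f (fun z => g z ^ k) := fc_congr fun l hl =>
      D.CT_of_differentiableOn isOpen_univ convex_univ (subset_univ _)
        (hg.pow k).differentiableOn (D.Om_subset_cl (A.mem l hl))
    rw [this]
  have iC : ∀ n m k : ℕ, IntervalIntegrable (fun t => conj (g (D.sigma t)) ^ k * inner ℂ (ξ n) (A.K t (ξ m))) volume 0 (2 * π) ∧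
      ∫ t in (0:ℝ)..(2 * π), conj (g (D.sigma t)) ^ k * inner ℂ (ξ n) (A.K t (ξ m)) =
      inner ℂ (ξ n) (A.f (D.CT (fun z => conj (g z) ^ k)) (ξ m)) := fun n m k =>
    A.integral_K (W := fun z => conj (g z) ^ k) (hgb.pow k).continuousOn (ξ n) (ξ m)
  let I : ℕ → ℝ → ℂ := fun n t => inner ℂ (ξ n) (A.K t (ξ n)) +
      ∑ m ∈ Finset.range n, (g (D.sigma t) ^ (n - m) * inner ℂ (ξ n) (A.K t (ξ m)) +
        conj (g (D.sigma t)) ^ (n - m) * inner ℂ (ξ m) (A.K t (ξ n)))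
  have hsum : ∀ n, IntervalIntegrable (fun t => ∑ m ∈ Finset.range n,
      (g (D.sigma t) ^ (n - m) * inner ℂ (ξ n) (A.K t (ξ m)) +
        conj (g (D.sigma t)) ^ (n - m) * inner ℂ (ξ m) (A.K t (ξ n)))) volume 0 (2 * π) ∧
      ∫ t in (0:ℝ)..(2 * π), ∑ m ∈ Finset.range n,
      (g (D.sigma t) ^ (n - m) * inner ℂ (ξ n) (A.K t (ξ m)) +
        conj (g (D.sigma t)) ^ (n - m) * inner ℂ (ξ m) (A.K t (ξ n))) =
      ∑ m ∈ Finset.range n, (inner ℂ (ξ n) ((A.f g ^ (n - m)) (ξ m)) +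
        inner ℂ (ξ m) (A.f (D.CT (fun z => conj (g z) ^ (n - m))) (ξ n))) := by
    intro n
    have h1 : ∀ m ∈ Finset.range n, IntervalIntegrable (fun t =>
      (g (D.sigma t) ^ (n - m) * inner ℂ (ξ n) (A.K t (ξ m)) +
        conj (g (D.sigma t)) ^ (n - m) * inner ℂ (ξ m) (A.K t (ξ n)))) volume 0 (2 * π) :=
      fun m _ => (iB n m (n - m)).1.add (iC m n (n - m)).1
    constructor
    · have := IntervalIntegrable.sum _ h1
      refine (intervalIntegrable_congr fun t _ => ?_).1 this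
      simp
    · rw [intervalIntegral.integral_finsetSum h1]
      refine Finset.sum_congr rfl fun m _ => ?_
      rw [intervalIntegral.integral_add (iB n m (n - m)).1 (iC m n (n - m)).1, (iB n m (n - m)).2,
        (iC m n (n - m)).2]
  have hI : ∀ n ∈ Finset.range N, IntervalIntegrable (I n) volume 0 (2 * π) :=
    fun n _ => (iA n).1.add (hsum n).1
  have hval : ∫ t in (0:ℝ)..(2 * π), ∑ n ∈ Finset.range N, I n t =
      ∑ n ∈ Finset.range N, (inner ℂ (ξ n) (ξ n) +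
      ∑ m ∈ Finset.range n, (inner ℂ (ξ n) ((A.f g ^ (n - m)) (ξ m)) +
        inner ℂ (ξ m) (A.f (D.CT (fun z => conj (g z) ^ (n - m))) (ξ n)))) := by
    rw [intervalIntegral.integral_finsetSum hI]
    refine Finset.sum_congr rfl fun n _ => ?_
    have : ∫ t in (0:ℝ)..(2 * π), I n t = (∫ t in (0:ℝ)..(2 * π), inner ℂ (ξ n) (A.K t (ξ n))) +
      ∫ t in (0:ℝ)..(2 * π), ∑ m ∈ Finset.range n,
      (g (D.sigma t) ^ (n - m) * inner ℂ (ξ n) (A.K t (ξ m)) +
        conj (g (D.sigma t)) ^ (n - m) * inner ℂ (ξ m) (A.K t (ξ n))) :=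
      intervalIntegral.integral_add (iA n).1 (hsum n).1
    rw [this, (iA n).2, (hsum n).2]
  have hInt : IntervalIntegrable (fun t => ∑ n ∈ Finset.range N, I n t) volume 0 (2 * π) := by
    have := IntervalIntegrable.sum _ hI
    refine (intervalIntegrable_congr fun t _ => ?_).1 this
    simp
  rw [← hval]
  have h2 := Complex.reCLM.intervalIntegral_comp_comm hInt
  have h3 : (∫ t in (0:ℝ)..(2 * π), ∑ n ∈ Finset.range N, I n t).re =
      ∫ t in (0:ℝ)..(2 * π), (∑ n ∈ Finset.range N, I n t).re := h2.symm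
  rw [h3]
  refine intervalIntegral.integral_nonneg (by positivity) fun t _ => ?_
  exact toep_pointwise (A.K t) (A.K_pos t) (hg1 _ (D.sigma_mem_cl t)) ξ N

end Dat

end

end Vale.P123
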